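import Mathlib

/-!
# Elimination for polynomials in two variables
-/

namespace Vale.Agent.P018

open Polynomial

variable {K : Type*} [Field K]

lemma coeff_coeff_swap (F : Polynomial (Polynomial K)) (i j : ℕ) :
    ((Bivariate.swap F).coeff j).coeff i = (F.coeff i).coeff j := by
  induction F using Polynomial.induction_on' with
  | add p q hp hq => simp only [map_add, coeff_add, hp, hq]
  | monomial n f =>
    induction f using Polynomial.induction_on' with
    | add p q hp hq => simp only [map_add, coeff_add, hp, hq]
    | monomial m r =>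
      rw [Bivariate.swap_monomial_monomial]
      simp only [coeff_monomial]
      split_ifs <;> simp_all [coeff_monomial]

lemma natDegree_coeff_le_swap (F : Polynomial (Polynomial K)) (i : ℕ) :
    (F.coeff i).natDegree ≤ (Bivariate.swap F).natDegree := by
  rw [natDegree_le_iff_coeff_eq_zero]
  intro j hj
  rw [← coeff_coeff_swap, coeff_eq_zero_of_natDegree_lt hj, coeff_zero]

lemma natDegree_swap_le (F : Polynomial (Polynomial K)) {δ : ℕ}
    (h : ∀ i, (F.coeff i).natDegree ≤ δ) : (Bivariate.swap F).natDegree ≤ δ := by
  rw [natDegree_le_iff_coeff_eq_zero]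
  intro j hj
  ext i
  rw [coeff_coeff_swap, coeff_zero]
  exact coeff_eq_zero_of_natDegree_lt (lt_of_le_of_lt (h i) hj)

/-- Both partial degrees are at most `δ`. -/
def BDeg (δ : ℕ) (F : Polynomial (Polynomial K)) : Prop :=
  F.natDegree ≤ δ ∧ ∀ i, (F.coeff i).natDegree ≤ δ

lemma BDeg.of_dvd {δ : ℕ} {F G : Polynomial (Polynomial K)} (hF : BDeg δ F) (hF0 : F ≠ 0)
    (h : G ∣ F) : BDeg δ G := by
  refine ⟨(natDegree_le_of_dvd h hF0).trans hF.1, fun i => ?_⟩
  refine (natDegree_coeff_le_swap G i).trans ?_
  refine (natDegree_le_of_dvd (map_dvd Bivariate.swap h) ?_).trans (natDegree_swap_le F hF.2)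
  simpa using hF0

lemma BDeg.mono {δ δ' : ℕ} {F : Polynomial (Polynomial K)} (hF : BDeg δ F) (h : δ ≤ δ') :
    BDeg δ' F :=
  ⟨hF.1.trans h, fun i => (hF.2 i).trans h⟩

/-- Common zeros of an irreducible polynomial and a polynomial it does not divide have boundedly
many first coordinates. -/
theorem exists_eliminant_biv {F P : Polynomial (Polynomial K)} (hF : Irreducible F)
    (hdeg : F.natDegree ≠ 0) (hnd : ¬ F ∣ P) {δ : ℕ} (hFd : BDeg δ F) (hPd : BDeg δ P) :
    ∃ r : Polynomial K, r ≠ 0 ∧ r.natDegree ≤ 2 * δ * δ ∧
      ∀ u v : K, F.evalEval u v = 0 → P.evalEval u v = 0 → r.eval u = 0 := by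
  classical
  have hFp := hF.isPrimitive hdeg
  let L := FractionRing (Polynomial K)
  let a := algebraMap (Polynomial K) L
  have ha : Function.Injective a := IsFractionRing.injective _ _
  have hFL : Irreducible (F.map a) := hFp.irreducible_iff_irreducible_map_fraction_map.1 hF
  have hndL : ¬ F.map a ∣ P.map a := by
    intro hd
    refine hnd ?_
    -- Gauss: remove the content of `P`
    by_cases hP0 : P = 0
    · rw [hP0]; exact dvd_zero _
    let _ : NormalizedGCDMonoid (Polynomial K) := Nonempty.some inferInstance
    have h1 : P.map a = Polynomial.C (a P.content) * P.primPart.map a := by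
      conv_lhs => rw [eq_C_content_mul_primPart P]
      rw [Polynomial.map_mul, map_C]
    have hc : IsUnit (Polynomial.C (a P.content)) := by
      refine (isUnit_iff_ne_zero.2 ?_).map Polynomial.C
      rw [map_ne_zero_iff a ha]
      exact content_eq_zero_iff.not.2 hP0
    rw [h1, hc.dvd_mul_left] at hd
    exact ((hFp.dvd_iff_fraction_map_dvd_fraction_map (K := L)).2 hd).trans
      (primPart_dvd P)
  have hco : IsCoprime (F.map a) (P.map a) := hFL.coprime_iff_not_dvd.2 hndL
  set r := Polynomial.resultant F P with hr
  have hr0 : r ≠ 0 := by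
    intro h0
    apply Polynomial.resultant_ne_zero _ _ hco
    rw [natDegree_map_eq_of_injective ha, natDegree_map_eq_of_injective ha,
      Polynomial.resultant_map_map, ← hr, h0, map_zero]
  refine ⟨r, hr0, ?_, fun u v hu hv => ?_⟩
  · have e : r = (Polynomial.sylvester F P F.natDegree P.natDegree).det := rfl
    rw [e, Matrix.det_apply]
    refine (natDegree_sum_le_of_forall_le _ _ fun σ _ => ?_)
    refine (natDegree_smul_le _ _).trans ((natDegree_prod_le _ _).trans ?_)
    refine (Finset.sum_le_sum (g := fun _ => δ) fun i _ => ?_).trans ?_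
    · simp only [Polynomial.sylvester, Matrix.of_apply]
      refine Fin.addCases (fun j₁ => ?_) (fun j₁ => ?_) i
      · simp only [Fin.addCases_left]
        split
        · exact hPd.2 _
        · simp
      · simp only [Fin.addCases_right]
        split
        · exact hFd.2 _
        · simp
    · simp only [Finset.sum_const, Finset.card_univ, Fintype.card_fin, smul_eq_mul]
      calc (F.natDegree + P.natDegree) * δ ≤ (δ + δ) * δ :=
            Nat.mul_le_mul_right _ (add_le_add hFd.1 hPd.1)
        _ = 2 * δ * δ := by ring
  · obtain ⟨p, q, -, -, e⟩ := Polynomial.exists_mul_add_mul_eq_C_resultant F P le_rfl le_rfl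
      (Or.inl hdeg)
    have e2 := congrArg (evalEval u v) e
    rw [evalEval_add, evalEval_mul, evalEval_mul, hu, hv, zero_mul, zero_mul, add_zero,
      evalEval_C] at e2
    exact e2.symm

/-- Splitting by the irreducible factors of a relation. -/
theorem exists_factors_biv (P : Polynomial (Polynomial K)) (hP : P ≠ 0) {δ : ℕ} (hPd : BDeg δ P) :
    ∃ S : Finset (Polynomial (Polynomial K)), S.card ≤ 2 * δ ∧
      (∀ G ∈ S, Irreducible G ∧ BDeg δ G) ∧
      ∀ u v : K, P.evalEval u v = 0 → ∃ G ∈ S, G.evalEval u v = 0 := by
  classical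
  obtain ⟨fs, hirr, w, hw⟩ := WfDvdMonoid.exists_factors P hP
  have hfs : fs.prod ∣ P := ⟨_, hw.symm⟩
  refine ⟨fs.toFinset, ?_, ?_, ?_⟩
  · refine (Multiset.toFinset_card_le _).trans ?_
    have hmono : ∀ s : Multiset (Polynomial (Polynomial K)), (∀ G ∈ s, Irreducible G) →
        s.prod ≠ 0 ∧ Multiset.card s ≤ s.prod.natDegree + (Bivariate.swap s.prod).natDegree := by
      intro s
      induction s using Multiset.induction with
      | empty => simp
      | cons a s ih =>
        intro h
        have ha := h a (Multiset.mem_cons_self _ _)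
        obtain ⟨h0, hc⟩ := ih fun G hG => h G (Multiset.mem_cons_of_mem hG)
        rw [Multiset.prod_cons, Multiset.card_cons]
        refine ⟨mul_ne_zero ha.ne_zero h0, ?_⟩
        rw [natDegree_mul ha.ne_zero h0, map_mul,
          natDegree_mul (by simpa using ha.ne_zero) (by simpa using h0)]
        have : 1 ≤ a.natDegree + (Bivariate.swap a).natDegree := by
          by_contra hlt
          push Not at hlt
          apply ha.not_isUnit
          have h1 : a.natDegree = 0 := by omega
          have h2 : (a.coeff 0).natDegree = 0 := by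
            have := natDegree_coeff_le_swap a 0
            omega
          rw [eq_C_of_natDegree_eq_zero h1, eq_C_of_natDegree_eq_zero h2] at ha ⊢
          refine ((isUnit_iff_ne_zero.2 ?_).map C).map C
          intro hz
          apply ha.ne_zero
          rw [hz, map_zero, map_zero]
        omega
    refine ((hmono fs hirr).2).trans ?_
    have h1 := natDegree_le_of_dvd hfs hP
    have h2 := natDegree_le_of_dvd (map_dvd Bivariate.swap hfs) (by simpa using hP)
    have h3 := natDegree_swap_le P hPd.2
    have h4 := hPd.1
    omega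
  · intro G hG
    rw [Multiset.mem_toFinset] at hG
    exact ⟨hirr G hG, hPd.of_dvd hP ((Multiset.dvd_prod hG).trans hfs)⟩
  · intro u v hz
    rw [← hw, evalEval_mul] at hz
    rcases mul_eq_zero.1 hz with h | h
    · rw [evalEval_multiset_prod] at h
      obtain ⟨G, hG, h0⟩ := Multiset.mem_map.1 (Multiset.prod_eq_zero_iff.1 h)
      exact ⟨G, Multiset.mem_toFinset.2 hG, h0⟩
    · exact absurd h (w.isUnit.map (evalEvalRingHom u v)).ne_zero

/-- An irreducible polynomial of positive degree in the second variable has finitely many zeros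
over each value of the first one. -/
lemma fibre_poly_ne_zero {F : Polynomial (Polynomial K)} (hF : Irreducible F)
    (hdeg : F.natDegree ≠ 0) (u : K) : F.map (evalRingHom u) ≠ 0 := by
  intro h0
  have hd : Polynomial.C (X - C u) ∣ F := by
    refine (C_dvd_iff_dvd_coeff _ _).2 fun i => dvd_iff_isRoot.2 ?_
    have := congrArg (fun p : Polynomial K => p.coeff i) h0
    simpa using this
  exact not_isUnit_X_sub_C u ((hF.isPrimitive hdeg) _ hd)

lemma evalEval_eq_map (F : Polynomial (Polynomial K)) (u v : K) :
    F.evalEval u v = (F.map (evalRingHom u)).eval v := by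
  rw [map_evalRingHom_eval]

end Vale.Agent.P018
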