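import Mathlib

/-!
# Counting exponent vectors of bounded cost
-/

namespace Vale.Agent.P018

open Finset

/-- Cost of a signed exponent. -/
noncomputable def wt (a b : ℝ) (β : ℤ) : ℝ := if 0 ≤ β then a * β else b * (-(β : ℝ))

/-- Signed exponent vectors in the box of radius `B`. -/
noncomputable def sbox (s B : ℕ) : Finset (Fin s → ℤ) :=
  Fintype.piFinset fun _ => Finset.Icc (-(B : ℤ)) B

/-- Number of exponent vectors of cost at most `t`. -/
noncomputable def cnt (a b : ℝ) (s B : ℕ) (t : ℝ) : ℕ :=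
  ((sbox s B).filter fun β => ∑ i, wt a b (β i) ≤ t).card

lemma wt_nonneg {a b : ℝ} (ha : 0 ≤ a) (hb : 0 ≤ b) (β : ℤ) : 0 ≤ wt a b β := by
  unfold wt
  split
  · rename_i h; exact mul_nonneg ha (by exact_mod_cast h)
  · rename_i h
    push Not at h
    have : (β : ℝ) < 0 := by exact_mod_cast h
    exact mul_nonneg hb (by linarith)

lemma max_pow_telescope {h : ℝ} (hh : 0 ≤ h) (x : ℝ) (r : ℕ) :
    (max x 0) ^ (r + 1) - (max (x - h) 0) ^ (r + 1) ≤ h * (r + 1) * (max x 0) ^ r := by
  set u := max x 0 with hu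
  set v := max (x - h) 0 with hv
  have hv0 : 0 ≤ v := le_max_right _ _
  have huv : v ≤ u := max_le_max (by linarith) le_rfl
  have hd : u - v ≤ h := by
    rcases le_total x h with hx | hx
    · have : v = 0 := max_eq_right (by linarith)
      rw [this]
      rcases le_total x 0 with h0 | h0
      · rw [hu, max_eq_right h0]; linarith
      · rw [hu, max_eq_left h0]; linarith
    · have : v = x - h := max_eq_left (by linarith)
      rw [this, hu, max_eq_left (by linarith)]; linarith
  have hu0 : 0 ≤ u := le_max_right _ _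
  rw [← geom_sum₂_mul]
  calc (∑ i ∈ range (r + 1), u ^ i * v ^ (r + 1 - 1 - i)) * (u - v)
      ≤ (∑ _i ∈ range (r + 1), u ^ r) * (u - v) := by
        refine mul_le_mul_of_nonneg_right (sum_le_sum fun i hi => ?_) (by linarith)
        rw [mem_range] at hi
        calc u ^ i * v ^ (r + 1 - 1 - i) ≤ u ^ i * u ^ (r + 1 - 1 - i) :=
              mul_le_mul_of_nonneg_left (pow_le_pow_left₀ hv0 huv _) (pow_nonneg hu0 _)
          _ = u ^ r := by rw [← pow_add]; congr 1; omega
    _ ≤ h * (r + 1) * u ^ r := by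
        simp only [sum_const, card_range, nsmul_eq_mul]
        push_cast
        nlinarith [mul_le_mul_of_nonneg_left hd (by positivity : (0:ℝ) ≤ (r + 1) * u ^ r)]

lemma sum_max_pow_ge {h : ℝ} (hh : 0 ≤ h) (x : ℝ) (r n : ℕ) (hn : x ≤ n * h) :
    (max x 0) ^ (r + 1) ≤ h * (r + 1) * ∑ i ∈ range n, (max (x - i * h) 0) ^ r := by
  have key : ∀ m : ℕ, (max x 0) ^ (r + 1) ≤
      h * (r + 1) * ∑ i ∈ range m, (max (x - i * h) 0) ^ r + (max (x - m * h) 0) ^ (r + 1) := by
    intro m
    induction m with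
    | zero => simp
    | succ m ih =>
      rw [sum_range_succ, mul_add]
      have h1 := max_pow_telescope hh (x - m * h) r
      have h2 : x - ((m + 1 : ℕ) : ℝ) * h = x - m * h - h := by push_cast; ring
      rw [h2]
      linarith
  have h3 := key n
  have h4 : max (x - n * h) 0 = 0 := max_eq_right (by linarith)
  simpa [h4] using h3

lemma cnt_succ (a b : ℝ) (s B : ℕ) (t : ℝ) :
    cnt a b (s + 1) B t = ∑ β ∈ Finset.Icc (-(B : ℤ)) B, cnt a b s B (t - wt a b β) := by
  classical
  unfold cnt
  rw [← card_sigma]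
  refine card_bij' (fun β _ => (⟨β 0, fun i => β i.succ⟩ : Σ _ : ℤ, Fin s → ℤ))
    (fun x _ => Fin.cons x.1 x.2) ?_ ?_ ?_ ?_
  · intro β hβ
    simp only [sbox, mem_filter, Fintype.mem_piFinset] at hβ
    simp only [sbox, mem_sigma, mem_filter, Fintype.mem_piFinset]
    refine ⟨hβ.1 0, fun i => hβ.1 _, ?_⟩
    have := hβ.2
    rw [Fin.sum_univ_succ] at this
    linarith
  · intro x hx
    simp only [sbox, mem_sigma, mem_filter, Fintype.mem_piFinset] at hx
    simp only [sbox, mem_filter, Fintype.mem_piFinset]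
    refine ⟨fun i => ?_, ?_⟩
    · refine Fin.cases ?_ ?_ i
      · simpa using hx.1
      · intro j; simpa using hx.2.1 j
    · rw [Fin.sum_univ_succ]
      simp only [Fin.cons_zero, Fin.cons_succ]
      linarith [hx.2.2]
  · intro β _; exact funext fun i => by refine Fin.cases ?_ ?_ i <;> simp
  · intro x _; simp

lemma cnt_ge {a b : ℝ} (ha : 0 < a) (hb : 0 < b) (B : ℕ) :
    ∀ (s : ℕ) (t : ℝ), t ≤ B * a → t ≤ B * b →
      (1 / a + 1 / b) ^ s * (max (t - s * (a + b)) 0) ^ s / s.factorial ≤ cnt a b s B t ∨ t < 0 := by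
  intro s
  induction s with
  | zero =>
    intro t _ _
    by_cases ht : t < 0
    · exact Or.inr ht
    · refine Or.inl ?_
      push Not at ht
      have : cnt a b 0 B t = 1 := by
        unfold cnt sbox
        rw [filter_true_of_mem (fun x _ => by simpa using ht)]
        simp
      simp [this]
  | succ s ih =>
    intro t hta htb
    by_cases ht : t < 0
    · exact Or.inr ht
    refine Or.inl ?_
    push Not at ht
    set c : ℝ := (s : ℝ) * (a + b) with hc
    have hc0 : 0 ≤ c := by rw [hc]; positivity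
    set K : ℝ := (1 / a + 1 / b) ^ s / s.factorial with hK
    have hK0 : 0 ≤ K := by rw [hK]; positivity
    have hterm : ∀ β ∈ Finset.Icc (-(B : ℤ)) B,
        K * (max (t - wt a b β - c) 0) ^ s ≤ cnt a b s B (t - wt a b β) ∨ (s = 0 ∧ t - wt a b β < 0) := by
      intro β _
      have hw := wt_nonneg ha.le hb.le β
      rcases ih (t - wt a b β) (by linarith) (by linarith) with h | h
      · refine Or.inl ?_
        rw [hK, div_mul_eq_mul_div]
        exact h
      · rcases Nat.eq_zero_or_pos s with hs | hs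
        · exact Or.inr ⟨hs, h⟩
        · refine Or.inl ?_
          rw [max_eq_right (by linarith), zero_pow hs.ne', mul_zero]
          positivity
    rcases Nat.eq_zero_or_pos s with hs | hs
    · subst hs
      -- one variable: count the two half lines
      have hP : ((Finset.Icc (0 : ℤ) ⌊t / a⌋) ∪ (Finset.Icc (-⌊t / b⌋) (-1 : ℤ))) ⊆
          (Finset.Icc (-(B : ℤ)) B).filter (fun β => wt a b β ≤ t) := by
        intro β hβ
        simp only [mem_union, mem_Icc] at hβ
        simp only [mem_filter, mem_Icc]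
        have hA : ⌊t / a⌋ ≤ (B : ℤ) := Int.floor_le_iff.2 (by
          push_cast; rw [div_lt_iff₀ ha]; nlinarith)
        have hB : ⌊t / b⌋ ≤ (B : ℤ) := Int.floor_le_iff.2 (by
          push_cast; rw [div_lt_iff₀ hb]; nlinarith)
        rcases hβ with h | h
        · refine ⟨⟨by omega, by omega⟩, ?_⟩
          rw [wt, if_pos h.1]
          have h2 : (β : ℝ) ≤ t / a := le_trans (by exact_mod_cast h.2) (Int.floor_le _)
          rw [le_div_iff₀ ha] at h2
          linarith
        · refine ⟨⟨by omega, by omega⟩, ?_⟩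
          rw [wt, if_neg (by omega)]
          have h2 : ((-β : ℤ) : ℝ) ≤ t / b :=
            le_trans (by exact_mod_cast (show -β ≤ ⌊t/b⌋ by omega)) (Int.floor_le _)
          push_cast at h2
          rw [le_div_iff₀ hb] at h2
          linarith
      have hdisj : Disjoint (Finset.Icc (0 : ℤ) ⌊t / a⌋) (Finset.Icc (-⌊t / b⌋) (-1 : ℤ)) := by
        rw [Finset.disjoint_left]; intro x h1 h2; simp at h1 h2; omega
      have hcard := card_le_card hP
      rw [card_union_of_disjoint hdisj, Int.card_Icc, Int.card_Icc] at hcard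
      have hcnt : cnt a b 1 B t =
          ((Finset.Icc (-(B : ℤ)) B).filter (fun β => wt a b β ≤ t)).card := by
        rw [cnt_succ, card_filter]
        refine sum_congr rfl fun β _ => ?_
        unfold cnt sbox
        by_cases h : wt a b β ≤ t
        · rw [if_pos h, filter_true_of_mem (fun x _ => by simpa using h)]; simp
        · rw [if_neg h, filter_false_of_mem (fun x _ => by simpa using h)]; simp
      have h1 : t / a ≤ ((⌊t / a⌋ + 1 - 0).toNat : ℝ) := by
        have h5 : (0 : ℤ) ≤ ⌊t / a⌋ := Int.floor_nonneg.2 (by positivity)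
        have h6 : ((⌊t / a⌋ + 1 - 0).toNat : ℝ) = (⌊t / a⌋ : ℝ) + 1 := by
          have : ((⌊t / a⌋ + 1 - 0).toNat : ℤ) = ⌊t / a⌋ + 1 := by omega
          exact_mod_cast this
        rw [h6]; linarith [Int.lt_floor_add_one (t / a)]
      have h2 : t / b - 1 ≤ ((-1 + 1 - -⌊t / b⌋).toNat : ℝ) := by
        have h5 : (0 : ℤ) ≤ ⌊t / b⌋ := Int.floor_nonneg.2 (by positivity)
        have h6 : ((-1 + 1 - -⌊t / b⌋).toNat : ℝ) = (⌊t / b⌋ : ℝ) := by
          have : ((-1 + 1 - -⌊t / b⌋).toNat : ℤ) = ⌊t / b⌋ := by omega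
          exact_mod_cast this
        rw [h6]; linarith [Int.lt_floor_add_one (t / b)]
      simp only [Nat.zero_add, hcnt, pow_one, Nat.factorial_one, Nat.cast_one, div_one, one_mul]
      have h3 : (((⌊t / a⌋ + 1 - 0).toNat : ℕ) : ℝ) + (((-1 + 1 - -⌊t / b⌋).toNat : ℕ) : ℝ) ≤
          (((Finset.Icc (-(B : ℤ)) B).filter (fun β => wt a b β ≤ t)).card : ℝ) := by
        exact_mod_cast hcard
      rcases le_total (t - (a + b)) 0 with hneg | hpos
      · rw [max_eq_right hneg, mul_zero]; positivity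
      · rw [max_eq_left hpos]
        have e : (1 / a + 1 / b) * (t - (a + b)) = t / a + t / b - 2 - b / a - a / b := by
          field_simp; ring
        have e2 : 0 ≤ b / a + a / b := by positivity
        rw [e]; linarith
    · rw [cnt_succ]
      push_cast
      have hge : ∑ β ∈ Finset.Icc (-(B : ℤ)) B, K * (max (t - wt a b β - c) 0) ^ s ≤
          ∑ β ∈ Finset.Icc (-(B : ℤ)) B, (cnt a b s B (t - wt a b β) : ℝ) :=
        sum_le_sum fun β hβ => (hterm β hβ).resolve_right (by omega)
      refine le_trans ?_ hge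
      have hsplit : (Finset.Icc (-(B : ℤ)) B) =
          ((range (B + 1)).image fun i : ℕ => (i : ℤ)) ∪
            ((range B).image fun i : ℕ => -(i : ℤ) - 1) := by
        ext β
        simp only [mem_Icc, mem_union, mem_image, mem_range]
        constructor
        · intro h
          rcases le_or_gt 0 β with h0 | h0
          · exact Or.inl ⟨β.toNat, by omega, by omega⟩
          · exact Or.inr ⟨(-β - 1).toNat, by omega, by omega⟩
        · rintro (⟨i, hi, rfl⟩ | ⟨i, hi, rfl⟩) <;> omega
      rw [hsplit, sum_union]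
      swap
      · rw [Finset.disjoint_left]
        intro x h1 h2
        simp only [mem_image, mem_range] at h1 h2
        obtain ⟨i, _, rfl⟩ := h1
        obtain ⟨j, _, h⟩ := h2
        omega
      rw [sum_image (fun _ _ _ _ h => by simpa using h),
        sum_image (fun _ _ _ _ h => by simpa using h)]
      have w1 : ∀ i : ℕ, wt a b (i : ℤ) = i * a := by
        intro i; simp [wt, mul_comm]
      have w2 : ∀ i : ℕ, wt a b (-(i : ℤ) - 1) = b + i * b := by
        intro i
        rw [wt, if_neg (by omega)]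
        push_cast; ring
      simp only [w1, w2, ← mul_sum]
      set u : ℝ := max (t - ((s : ℝ) + 1) * (a + b)) 0 with hu
      have hu1 : u ≤ max (t - c) 0 := max_le_max (by rw [hc]; linarith) le_rfl
      have hu2 : u ≤ max (t - c - b) 0 := max_le_max (by rw [hc]; linarith) le_rfl
      have k1 := sum_max_pow_ge ha.le (t - c) s (B + 1) (by push_cast; nlinarith)
      have k2 := sum_max_pow_ge hb.le (t - c - b) s B (by nlinarith)
      have e1 : ∀ i : ℕ, t - i * a - c = t - c - i * a := fun i => by ring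
      have e2 : ∀ i : ℕ, t - (b + i * b) - c = t - c - b - i * b := fun i => by ring
      simp only [e1, e2]
      have hu0 : 0 ≤ u := le_max_right _ _
      have k1' : u ^ (s + 1) / (a * (s + 1)) ≤
          ∑ i ∈ range (B + 1), (max (t - c - i * a) 0) ^ s := by
        rw [div_le_iff₀ (by positivity)]
        have := (pow_le_pow_left₀ hu0 hu1 (s + 1)).trans k1
        linarith
      have k2' : u ^ (s + 1) / (b * (s + 1)) ≤
          ∑ i ∈ range B, (max (t - c - b - i * b) 0) ^ s := by
        rw [div_le_iff₀ (by positivity)]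
        have := (pow_le_pow_left₀ hu0 hu2 (s + 1)).trans k2
        linarith
      calc (1 / a + 1 / b) ^ (s + 1) * u ^ (s + 1) / ((s + 1).factorial : ℝ)
          = K * (u ^ (s + 1) / (a * (s + 1))) + K * (u ^ (s + 1) / (b * (s + 1))) := by
            rw [hK, Nat.factorial_succ, pow_succ]; push_cast; field_simp
        _ ≤ _ := add_le_add (mul_le_mul_of_nonneg_left k1' hK0) (mul_le_mul_of_nonneg_left k2' hK0)

/-- The exponent set: pairs `(j, β)` of cost at most `T`. -/
noncomputable def eset (a b : ℝ) (s T B : ℕ) : Finset (ℕ × (Fin s → ℤ)) :=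
  ((range (T + 1)) ×ˢ sbox s B).filter fun x => (x.1 : ℝ) + ∑ i, wt a b (x.2 i) ≤ T

lemma sum_cost_le {a b : ℝ} (ha : 0 < a) (hb : 0 < b) (s T B : ℕ) (hTa : (T : ℝ) ≤ B * a)
    (hTb : (T : ℝ) ≤ B * b) :
    (∑ x ∈ eset a b s T B, ((x.1 : ℝ) + ∑ i, wt a b (x.2 i))) +
      (1 / a + 1 / b) ^ s * (max ((T : ℝ) - 1 - s * (a + b)) 0) ^ (s + 2) / (s + 2).factorial
      ≤ T * (eset a b s T B).card + (eset a b s T B).card := by
  classical
  set E := eset a b s T B with hE
  set w : ℕ × (Fin s → ℤ) → ℝ := fun x => (x.1 : ℝ) + ∑ i, wt a b (x.2 i) with hw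
  have hw0 : ∀ x, 0 ≤ w x := fun x =>
    add_nonneg (Nat.cast_nonneg _) (sum_nonneg fun i _ => wt_nonneg ha.le hb.le _)
  have hmem : ∀ x ∈ E, w x ≤ T := fun x hx => by
    simp only [hE, eset, mem_filter] at hx; exact hx.2
  -- layer decomposition
  have h1 : ∀ x ∈ E, w x ≤ ((range T).filter fun u : ℕ => ¬ w x ≤ (u : ℝ)).card + 0 := by
    intro x hx
    have hsub : range ⌈w x⌉₊ ⊆ (range T).filter fun u : ℕ => ¬ w x ≤ (u : ℝ) := by
      intro u hu
      simp only [mem_range] at hu
      simp only [mem_filter, mem_range]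
      refine ⟨lt_of_lt_of_le hu (Nat.ceil_le.2 (hmem x hx)), ?_⟩
      exact not_le.2 (Nat.lt_ceil.1 hu)
    have := card_le_card hsub
    rw [card_range] at this
    have h2 : w x ≤ (⌈w x⌉₊ : ℝ) := Nat.le_ceil _
    have h3 : (⌈w x⌉₊ : ℝ) ≤ (((range T).filter fun u : ℕ => ¬ w x ≤ (u : ℝ)).card : ℝ) := by
      exact_mod_cast this
    simpa using h2.trans h3
  have h2 : ∑ x ∈ E, (((range T).filter fun u : ℕ => ¬ w x ≤ (u : ℝ)).card : ℝ) +
      ∑ u ∈ range T, ((E.filter fun x => w x ≤ (u : ℝ)).card : ℝ) = T * E.card := by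
    have : ∀ x ∈ E, (((range T).filter fun u : ℕ => ¬ w x ≤ (u : ℝ)).card : ℝ) =
        ∑ u ∈ range T, (if w x ≤ (u : ℝ) then (0 : ℝ) else 1) := by
      intro x _
      rw [card_filter]; push_cast
      exact sum_congr rfl fun u _ => by by_cases h : w x ≤ (u : ℝ) <;> simp [h]
    rw [sum_congr rfl this, sum_comm]
    have : ∀ u ∈ range T, ((E.filter fun x => w x ≤ (u : ℝ)).card : ℝ) =
        ∑ x ∈ E, (if w x ≤ (u : ℝ) then (1 : ℝ) else 0) := by
      intro u _
      rw [card_filter]; push_cast; rfl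
    rw [sum_congr rfl this, ← sum_add_distrib]
    have : ∀ u ∈ range T, (∑ x ∈ E, (if w x ≤ (u : ℝ) then (0 : ℝ) else 1)) +
        ∑ x ∈ E, (if w x ≤ (u : ℝ) then (1 : ℝ) else 0) = E.card := by
      intro u _
      rw [← sum_add_distrib]
      rw [sum_congr rfl (fun x _ => show _ = (1 : ℝ) by split <;> norm_num)]
      simp
    rw [sum_congr rfl this]; simp
  -- lower bound for the layers
  set c : ℝ := (s : ℝ) * (a + b) with hc
  set K : ℝ := (1 / a + 1 / b) ^ s / s.factorial with hK
  have hK0 : 0 ≤ K := by positivity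
  have h3 : ∀ u ∈ range T, K * (max ((u : ℝ) - c) 0) ^ (s + 1) / (s + 1) ≤
      ((E.filter fun x => w x ≤ (u : ℝ)).card : ℝ) + 0 := by
    intro u hu
    rw [mem_range] at hu
    have huT : (u : ℝ) ≤ T := by exact_mod_cast hu.le
    have hsub : ((range (u + 1)).sigma fun j =>
        (sbox s B).filter fun β => ∑ i, wt a b (β i) ≤ (u : ℝ) - j).image (fun x => (x.1, x.2)) ⊆
        E.filter fun x => w x ≤ (u : ℝ) := by
      intro y hy
      simp only [mem_image, mem_sigma, mem_range, mem_filter] at hy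
      obtain ⟨x, ⟨hj, hβ, hle⟩, rfl⟩ := hy
      simp only [hE, eset, mem_filter, mem_product, mem_range, hw]
      exact ⟨⟨⟨by omega, hβ⟩, by linarith⟩, by linarith⟩
    have hcard := card_le_card hsub
    rw [card_image_of_injective _ (fun x y h => by
      obtain ⟨x1, x2⟩ := x; obtain ⟨y1, y2⟩ := y; simp_all), card_sigma] at hcard
    have h4 : ∀ j ∈ range (u + 1), K * (max ((u : ℝ) - j - c) 0) ^ s ≤
        ((((sbox s B).filter fun β => ∑ i, wt a b (β i) ≤ (u : ℝ) - j).card : ℕ) : ℝ) := by
      intro j hj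
      rw [mem_range] at hj
      have hju : (j : ℝ) ≤ u := by exact_mod_cast (by omega : j ≤ u)
      have hj0 : (0 : ℝ) ≤ j := Nat.cast_nonneg j
      rcases cnt_ge ha hb B s ((u : ℝ) - j) (by linarith) (by linarith) with h | h
      · rw [hK, div_mul_eq_mul_div]; exact h
      · linarith
    have h5 := sum_le_sum h4
    have h6 : ((∑ j ∈ range (u + 1),
        ((sbox s B).filter fun β => ∑ i, wt a b (β i) ≤ (u : ℝ) - j).card : ℕ) : ℝ) ≤
        ((E.filter fun x => w x ≤ (u : ℝ)).card : ℝ) := by exact_mod_cast hcard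
    push_cast at h6
    have h7 := sum_max_pow_ge (zero_le_one' ℝ) ((u : ℝ) - c) s (u + 1) (by
      push_cast
      have : 0 ≤ c := by rw [hc]; positivity
      linarith)
    simp only [mul_one, one_mul] at h7
    rw [add_zero, div_le_iff₀ (by positivity)]
    have e : ∀ j : ℕ, (u : ℝ) - c - j = (u : ℝ) - j - c := fun j => by ring
    simp only [e] at h7
    rw [← mul_sum] at h5
    calc K * (max ((u : ℝ) - c) 0) ^ (s + 1)
        ≤ K * (((s : ℝ) + 1) * ∑ j ∈ range (u + 1), (max ((u : ℝ) - j - c) 0) ^ s) :=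
          mul_le_mul_of_nonneg_left h7 hK0
      _ = (K * ∑ j ∈ range (u + 1), (max ((u : ℝ) - j - c) 0) ^ s) * ((s : ℝ) + 1) := by ring
      _ ≤ _ := mul_le_mul_of_nonneg_right (h5.trans h6) (by positivity)
  have h8 := sum_le_sum h3
  simp only [add_zero] at h8
  have h9 := sum_max_pow_ge (zero_le_one' ℝ) ((T : ℝ) - 1 - c) (s + 1) T (by
    have : 0 ≤ c := by rw [hc]; positivity
    linarith)
  simp only [mul_one, one_mul] at h9
  rw [← sum_range_reflect] at h9
  have h10 : (1 / a + 1 / b) ^ s * (max ((T : ℝ) - 1 - c) 0) ^ (s + 2) / (s + 2).factorial ≤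
      ∑ u ∈ range T, K * (max ((u : ℝ) - c) 0) ^ (s + 1) / (s + 1) := by
    rw [← sum_div, ← mul_sum, le_div_iff₀ (by positivity), hK, Nat.factorial_succ,
      Nat.factorial_succ]
    have e : ∀ i ∈ range T, (max ((T : ℝ) - 1 - c - ((T - 1 - i : ℕ) : ℝ)) 0) ^ (s + 1) =
        (max ((i : ℝ) - c) 0) ^ (s + 1) := by
      intro i hi
      rw [mem_range] at hi
      have : ((T - 1 - i : ℕ) : ℝ) = (T : ℝ) - 1 - i := by
        rw [Nat.cast_sub (by omega), Nat.cast_sub (by omega)]; push_cast; ring
      rw [this]; congr 2; ring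
    rw [sum_congr rfl e] at h9
    push_cast at h9 ⊢
    have hK1 : (0 : ℝ) ≤ (1 / a + 1 / b) ^ s := by positivity
    have hf : (0 : ℝ) < s.factorial := by exact_mod_cast Nat.factorial_pos s
    rw [div_mul_eq_mul_div, div_mul_eq_mul_div, div_le_div_iff₀ (by positivity) hf]
    have := mul_le_mul_of_nonneg_left h9
      (mul_nonneg (mul_nonneg hK1 hf.le) (by positivity : (0:ℝ) ≤ (s:ℝ) + 1))
    linarith
  have h11 : ∑ x ∈ E, w x ≤
      ∑ x ∈ E, (((range T).filter fun u : ℕ => ¬ w x ≤ (u : ℝ)).card : ℝ) := by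
    refine sum_le_sum fun x hx => ?_
    simpa using h1 x hx
  have hN : (0 : ℝ) ≤ (E.card : ℝ) := Nat.cast_nonneg _
  linarith

end Vale.Agent.P018
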