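import Mathlib

/-!
# The numerical criterion of the determinant method
-/

namespace Vale.Agent.P018

/-- `∑_{s=0}^d min (γ^{s/(s+1)}) (π/d) < 1` with `γ = (π/d)(1 - kπ/d)`, for all `π ∈ [1, d/k]`. -/
def Crit (d k : ℕ) : Prop :=
  ∀ x : ℝ, 1 ≤ x → x ≤ (d : ℝ) / k →
    ∑ s ∈ Finset.range (d + 1),
      min ((x / d * (1 - k * x / d)) ^ ((s : ℝ) / (s + 1))) (x / d) < 1

end Vale.Agent.P018
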