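import Vale.Agent.P018.Criterion

/-!
# An explicit range for the criterion
-/

namespace Vale.Agent.P018

lemma sum_min_le_harmonic {γ g cap L : ℝ} (hγ : 0 ≤ γ) (hγg : γ ≤ g) (hg : 0 < g)
    (hcap : 0 ≤ cap) (hL : Real.log g = -L) (hL0 : 0 ≤ L) (d : ℕ) :
    ∑ s ∈ Finset.range (d + 1), min (γ ^ ((s : ℝ) / (s + 1))) cap ≤
      (L + 1) * cap + g * ((d : ℝ) + 1 + 2 * L * (1 + Real.log ((d : ℝ) + 1))) := by
  classical
  rw [← Finset.sum_filter_add_sum_filter_not _ (fun s : ℕ => (s : ℝ) + 1 ≤ L + 1 ∧ (s : ℝ) < L)]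
  refine add_le_add ?_ ?_
  · refine (Finset.sum_le_card_nsmul _ _ cap fun s _ => min_le_right _ _).trans ?_
    rw [nsmul_eq_mul]
    refine mul_le_mul_of_nonneg_right ?_ hcap
    refine le_trans ?_ (Nat.ceil_lt_add_one hL0).le
    refine Nat.cast_le.2 ((Finset.card_le_card (t := Finset.range ⌈L⌉₊) fun s hs => ?_).trans
      (Finset.card_range _).le)
    simp only [Finset.mem_filter, Finset.mem_range] at hs ⊢
    exact Nat.lt_ceil.2 hs.2.2
  · have hterm : ∀ s ∈ (Finset.range (d + 1)).filter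
        (fun s : ℕ => ¬ ((s : ℝ) + 1 ≤ L + 1 ∧ (s : ℝ) < L)),
        min (γ ^ ((s : ℝ) / (s + 1))) cap ≤ g + 2 * L * g * (((s + 1 : ℕ) : ℝ))⁻¹ := by
      intro s hs
      have hsL : L ≤ (s : ℝ) + 1 := by
        by_contra h
        push Not at h
        exact (Finset.mem_filter.1 hs).2 ⟨by linarith, by linarith⟩
      have hs1 : (0 : ℝ) < (s : ℝ) + 1 := by positivity
      refine (min_le_left _ _).trans ((Real.rpow_le_rpow hγ hγg (by positivity)).trans ?_)
      rw [Real.rpow_def_of_pos hg, hL]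
      have e : -L * ((s : ℝ) / (s + 1)) = -L + L / ((s : ℝ) + 1) := by field_simp; ring
      rw [e, Real.exp_add, ← hL, Real.exp_log hg]
      set t := L / ((s : ℝ) + 1) with ht
      have ht0 : 0 ≤ t := div_nonneg hL0 hs1.le
      have ht1 : t ≤ 1 := by rw [ht, div_le_one hs1]; exact hsL
      have habs := Real.abs_exp_sub_one_le (show |t| ≤ 1 by rwa [abs_of_nonneg ht0])
      rw [abs_of_nonneg ht0] at habs
      have := (abs_le.1 habs).2
      have h2 : 2 * L * g * (((s + 1 : ℕ) : ℝ))⁻¹ = g * (2 * t) := by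
        rw [ht]; push_cast; ring
      rw [h2]
      nlinarith
    refine ((Finset.sum_le_sum hterm).trans
      (Finset.sum_le_sum_of_subset_of_nonneg (Finset.filter_subset _ _) fun s _ _ => by positivity)).trans
      ?_
    rw [Finset.sum_add_distrib, ← Finset.mul_sum, Finset.sum_const, Finset.card_range, nsmul_eq_mul]
    have h := harmonic_le_one_add_log (d + 1)
    rw [harmonic] at h
    push_cast at h
    push_cast
    nlinarith [mul_le_mul_of_nonneg_left h (by positivity : (0 : ℝ) ≤ 2 * L * g)]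

/-- `k ≥ d / 4 + 2 (log d) ^ 2` implies the criterion, for `d ≥ 9`. -/
theorem crit_log (d k : ℕ) (hd : 9 ≤ d) (hkd : k < d)
    (hk : (d : ℝ) / 4 + 2 * Real.log d ^ 2 ≤ k) : Crit d k := by
  by_cases h2 : d ≤ 2 * k
  · exact crit_half d k hd h2 hkd
  push Not at h2
  intro x hx hxd
  set l := Real.log (d : ℝ) with hl
  have hd9 : (9 : ℝ) ≤ d := by exact_mod_cast hd
  have h2' : 2 * (k : ℝ) < d := by exact_mod_cast h2
  have hlog2 := Real.log_two_gt_d9
  have hlog2' := Real.log_two_lt_d9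
  have hl8 : 3 * Real.log 2 ≤ l := by
    rw [hl, show (3 : ℝ) * Real.log 2 = Real.log (2 ^ 3) by rw [Real.log_pow]; norm_num]
    exact Real.log_le_log (by norm_num) (by linarith)
  have hd16 : (16 : ℝ) ≤ d := by nlinarith
  have hl16 : 4 * Real.log 2 ≤ l := by
    rw [hl, show (4 : ℝ) * Real.log 2 = Real.log (2 ^ 4) by rw [Real.log_pow]; norm_num]
    exact Real.log_le_log (by norm_num) (by linarith)
  have hk0 : (0 : ℝ) < k := by nlinarith
  have hk0' : 0 < k := by exact_mod_cast hk0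
  have hk4 : 1 ≤ 4 * (k : ℝ) := by nlinarith
  set L := Real.log (4 * (k : ℝ)) with hLdef
  have hL0 : 0 ≤ L := Real.log_nonneg hk4
  have hLl : L ≤ 1.3863 + l := by
    refine (Real.log_le_log (by linarith) (show 4 * (k : ℝ) ≤ 2 ^ 2 * d by linarith)).trans ?_
    rw [Real.log_mul (by norm_num) (by linarith), Real.log_pow]
    push_cast
    linarith
  have hd1 : Real.log ((d : ℝ) + 1) ≤ 0.6932 + l := by
    refine (Real.log_le_log (by linarith) (show (d : ℝ) + 1 ≤ 2 * d by linarith)).trans ?_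
    rw [Real.log_mul (by norm_num) (by linarith)]
    linarith
  have hd10 : 0 ≤ Real.log ((d : ℝ) + 1) := Real.log_nonneg (by linarith)
  have hdk : x * k ≤ d := (le_div_iff₀ hk0).1 hxd
  have hγ : x / d * (1 - k * x / d) ≤ 1 / (4 * (k : ℝ)) := by
    have e : x / d * (1 - k * x / d) = (x * k) * (d - x * k) / ((k : ℝ) * d ^ 2) := by field_simp
    rw [e, div_le_div_iff₀ (by positivity) (by positivity)]
    nlinarith [mul_nonneg hk0.le (sq_nonneg ((d : ℝ) - 2 * (x * k)))]
  have hcap : x / d ≤ 1 / (k : ℝ) := by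
    rw [div_le_div_iff₀ (by linarith) hk0]
    linarith
  have h := sum_min_le_harmonic (gamma_nonneg hk0' (by omega) hx hxd) hγ (by positivity)
    (show (0 : ℝ) ≤ x / d by positivity)
    (by rw [one_div, Real.log_inv, hLdef]) hL0 d
  refine lt_of_le_of_lt h ?_
  refine lt_of_le_of_lt (add_le_add (mul_le_mul_of_nonneg_left hcap (by linarith)) le_rfl) ?_
  rw [mul_one_div, one_div_mul_eq_div, div_add_div _ _ hk0.ne' (by positivity), div_lt_one (by positivity)]
  have hmain : 4 * (L + 1) + ((d : ℝ) + 1 + 2 * L * (1 + Real.log ((d : ℝ) + 1))) < 4 * k := by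
    nlinarith [mul_le_mul hLl hd1 hd10 (by linarith)]
  nlinarith

end Vale.Agent.P018
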