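import Mathlib
import Vale.Agent.P018.CritDef
import Vale.Agent.P018.CritData

/-!
# Ranges in which the criterion holds
-/

namespace Vale.Agent.P018

open Finset

/-- The term bound is certified either by the power or by the cap. -/
def entryOK (D1 cn cd a b s r : ℕ) : Bool :=
  decide ((a * (cd * 1000 - cn * a)) ^ s * 100000 ^ (s + 1) ≤
      r ^ (s + 1) * (cd * 1000 * 1000 * D1) ^ s) ||
    decide (b * 100000 ≤ r * 1000 * D1)

/-- The check of a certificate. -/
def certOK (D1 D2 cn cd : ℕ) : ℕ → List (ℕ × List ℕ) → Bool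
  | a, [] => decide (cd * 1000 < cn * a)
  | a, (b, rs) :: rest =>
    decide (a ≤ b) && (List.range (D2 + 1)).all (fun s => entryOK D1 cn cd a b s (rs.getD s 0)) &&
      decide (((List.range (D2 + 1)).map fun s => rs.getD s 0).sum < 100000) &&
      certOK D1 D2 cn cd b rest

lemma rpow_frac_le {γ g r : ℝ} (hγ : 0 ≤ γ) (hγg : γ ≤ g) (hr : 0 ≤ r) (s : ℕ)
    (h : g ^ s ≤ r ^ (s + 1)) : γ ^ ((s : ℝ) / (s + 1)) ≤ r := by
  refine le_of_pow_le_pow_left₀ (Nat.succ_ne_zero s) hr ?_
  rw [← Real.rpow_natCast, ← Real.rpow_mul hγ]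
  have e : (s : ℝ) / (s + 1) * ((s + 1 : ℕ) : ℝ) = s := by
    push_cast
    field_simp
  rw [e, Real.rpow_natCast]
  exact (pow_le_pow_left₀ hγ hγg s).trans h

lemma gamma_nonneg {d k : ℕ} {x : ℝ} (hk : 0 < k) (hd : 0 < d) (hx : 1 ≤ x)
    (hxd : x ≤ (d : ℝ) / k) : 0 ≤ x / d * (1 - k * x / d) := by
  have hk' : (0 : ℝ) < k := by exact_mod_cast hk
  have hd' : (0 : ℝ) < d := by exact_mod_cast hd
  refine mul_nonneg (by positivity) (sub_nonneg.2 ?_)
  rw [div_le_one hd']
  have := (le_div_iff₀ hk').1 hxd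
  linarith

lemma cert_sound {D1 D2 cn cd : ℕ} (hD1 : 0 < D1) (hcd : 0 < cd) (hc : cd ≤ 2 * cn)
    {d k : ℕ} (h1 : D1 ≤ d) (h2 : d ≤ D2) (hk : cn * d ≤ cd * k) :
    ∀ (l : List (ℕ × List ℕ)) (a : ℕ), 1000 ≤ a → certOK D1 D2 cn cd a l = true →
      ∀ x : ℝ, (a : ℝ) / 1000 ≤ x → x ≤ (d : ℝ) / k →
        ∑ s ∈ Finset.range (d + 1),
          min ((x / d * (1 - k * x / d)) ^ ((s : ℝ) / (s + 1))) (x / d) < 1 := by
  have hd : 0 < d := hD1.trans_le h1
  have hd' : (0 : ℝ) < d := by exact_mod_cast hd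
  have hcn : 0 < cn := by omega
  have hk0 : 0 < k := by
    rcases Nat.eq_zero_or_pos k with rfl | h
    · simp at hk; omega
    · exact h
  have hk' : (0 : ℝ) < k := by exact_mod_cast hk0
  have hkR : (cn : ℝ) * d ≤ (cd : ℝ) * k := by exact_mod_cast hk
  intro l
  induction l with
  | nil =>
    intro a _ h x hx hxd
    simp only [certOK, decide_eq_true_eq] at h
    exfalso
    have h' : (cd : ℝ) * 1000 < (cn : ℝ) * a := by exact_mod_cast h
    have h3 := (le_div_iff₀ hk').1 hxd
    have hcn' : (0 : ℝ) < cn := by exact_mod_cast hcn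
    have hcd' : (0 : ℝ) < cd := by exact_mod_cast hcd
    have hxp : (0 : ℝ) ≤ x := le_trans (by positivity) hx
    have h4 : (a : ℝ) ≤ x * 1000 := (div_le_iff₀ (by norm_num)).1 hx
    have h5 : (cn : ℝ) * x * d ≤ cd * d :=
      calc (cn : ℝ) * x * d = x * (cn * d) := by ring
        _ ≤ x * (cd * k) := mul_le_mul_of_nonneg_left hkR hxp
        _ = cd * (x * k) := by ring
        _ ≤ cd * d := by gcongr
    have h6 := le_of_mul_le_mul_right h5 hd'
    nlinarith
  | cons p rest ih =>
    obtain ⟨b, rs⟩ := p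
    intro a ha h x hx hxd
    simp only [certOK, Bool.and_eq_true, decide_eq_true_eq, List.all_eq_true, List.mem_range] at h
    obtain ⟨⟨⟨hab, hent⟩, hsum⟩, hrest⟩ := h
    rcases le_or_gt x ((b : ℝ) / 1000) with hxb | hxb
    swap
    · exact ih b (ha.trans hab) hrest x hxb.le hxd
    have hx1 : 1 ≤ x := by
      refine le_trans ?_ hx
      rw [le_div_iff₀ (by norm_num)]
      exact_mod_cast (by omega : 1 * 1000 ≤ a)
    have hγ0 := gamma_nonneg hk0 hd hx1 hxd
    set γ := x / d * (1 - k * x / d) with hγ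
    set P := a * (cd * 1000 - cn * a) with hP
    set Q := cd * 1000 * 1000 * D1 with hQ
    have hγg : γ ≤ (P : ℝ) / Q := by
      have hcd' : (0 : ℝ) < cd := by exact_mod_cast hcd
      set c : ℝ := (cn : ℝ) / cd with hc'
      have hc2 : 1 / 2 ≤ c := by
        rw [hc', le_div_iff₀ hcd']
        have : (cd : ℝ) ≤ 2 * cn := by exact_mod_cast hc
        linarith
      have hck : c ≤ (k : ℝ) / d := by
        rw [hc', div_le_div_iff₀ hcd' hd']
        linarith
      have hcx : c * x ≤ 1 := by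
        have h3 := (le_div_iff₀ hk').1 hxd
        calc c * x ≤ (k : ℝ) / d * x := by gcongr
          _ ≤ 1 := by rw [div_mul_eq_mul_div, div_le_one hd']; linarith
      have hA : (a : ℝ) / 1000 * (1 - c * ((a : ℝ) / 1000)) ≥ x * (1 - c * x) := by
        have ha1 : (1 : ℝ) ≤ (a : ℝ) / 1000 := by
          rw [le_div_iff₀ (by norm_num)]; exact_mod_cast (by omega : 1 * 1000 ≤ a)
        nlinarith [mul_nonneg (sub_nonneg.2 hx) (show 0 ≤ c * (x + (a : ℝ) / 1000) - 1 by nlinarith)]
      have hPc : (cd : ℝ) * 1000 - cn * a ≤ ((cd * 1000 - cn * a : ℕ) : ℝ) := by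
        rcases le_total (cn * a) (cd * 1000) with h | h
        · rw [Nat.cast_sub h]; push_cast; exact le_rfl
        · rw [Nat.sub_eq_zero_of_le h, Nat.cast_zero, sub_nonpos]
          exact_mod_cast h
      calc γ ≤ x / d * (1 - c * x) := by
            refine mul_le_mul_of_nonneg_left ?_ (by positivity)
            have : c * x ≤ k * x / d := by
              rw [mul_div_right_comm]; gcongr
            linarith
        _ = x * (1 - c * x) / d := by ring
        _ ≤ x * (1 - c * x) / D1 :=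
            div_le_div_of_nonneg_left (mul_nonneg (by linarith) (by linarith))
              (by exact_mod_cast hD1) (by exact_mod_cast h1)
        _ ≤ (a : ℝ) / 1000 * (1 - c * ((a : ℝ) / 1000)) / D1 :=
            div_le_div_of_nonneg_right hA (Nat.cast_nonneg _)
        _ = (a : ℝ) * ((cd : ℝ) * 1000 - cn * a) / ((cd : ℝ) * 1000 * 1000 * D1) := by
            have : (D1 : ℝ) ≠ 0 := by exact_mod_cast hD1.ne'
            rw [hc']; field_simp
        _ ≤ (P : ℝ) / Q := by
            rw [hP, hQ]; push_cast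
            gcongr
    have hterm : ∀ s ∈ Finset.range (D2 + 1),
        min (γ ^ ((s : ℝ) / (s + 1))) (x / d) ≤ ((rs.getD s 0 : ℕ) : ℝ) / 100000 := by
      intro s hs
      have h3 := hent s (Finset.mem_range.1 hs)
      simp only [entryOK, Bool.or_eq_true, decide_eq_true_eq] at h3
      rcases h3 with h3 | h3
      · refine (min_le_left _ _).trans (rpow_frac_le hγ0 hγg (by positivity) s ?_)
        have h4 : (P : ℝ) ^ s * 100000 ^ (s + 1) ≤
            ((rs.getD s 0 : ℕ) : ℝ) ^ (s + 1) * (Q : ℝ) ^ s := by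
          rw [hP, hQ]; exact_mod_cast h3
        have hQ0 : (0 : ℝ) < (Q : ℝ) := by rw [hQ]; positivity
        rw [div_pow, div_pow, div_le_div_iff₀ (pow_pos hQ0 s) (by positivity)]
        exact h4
      · refine (min_le_right _ _).trans ?_
        have h4 : (b : ℝ) * 100000 ≤ ((rs.getD s 0 : ℕ) : ℝ) * 1000 * D1 := by exact_mod_cast h3
        calc x / d ≤ ((b : ℝ) / 1000) / D1 := by
              refine div_le_div₀ (by positivity) hxb (by exact_mod_cast hD1) (by exact_mod_cast h1)
          _ ≤ _ := by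
              rw [div_div, div_le_div_iff₀ (by positivity) (by norm_num)]
              linarith
    have hsum' : (∑ s ∈ Finset.range (D2 + 1), rs.getD s 0) < 100000 := hsum
    calc ∑ s ∈ Finset.range (d + 1), min (γ ^ ((s : ℝ) / (s + 1))) (x / d)
        ≤ ∑ s ∈ Finset.range (D2 + 1), min (γ ^ ((s : ℝ) / (s + 1))) (x / d) :=
          Finset.sum_le_sum_of_subset_of_nonneg
            (Finset.range_subset_range.2 (by omega))
            fun s _ _ => le_min (Real.rpow_nonneg hγ0 _) (by positivity)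
      _ ≤ ∑ s ∈ Finset.range (D2 + 1), ((rs.getD s 0 : ℕ) : ℝ) / 100000 := Finset.sum_le_sum hterm
      _ < 1 := by
          rw [← Finset.sum_div, div_lt_one (by norm_num)]
          exact_mod_cast hsum'

lemma crit_of_cert {D1 D2 cn cd : ℕ} (l : List (ℕ × List ℕ)) (hD1 : 0 < D1) (hcd : 0 < cd)
    (hc : cd ≤ 2 * cn) (hl : certOK D1 D2 cn cd 1000 l = true)
    {d k : ℕ} (h1 : D1 ≤ d) (h2 : d ≤ D2) (hk : cn * d ≤ cd * k) : Crit d k :=
  fun x hx hxd => cert_sound hD1 hcd hc h1 h2 hk l 1000 le_rfl hl x (by simpa using hx) hxd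

/-- The tail of the sum. -/
lemma sum_min_le {γ g cap lam : ℝ} (hγ : 0 ≤ γ) (hγg : γ ≤ g) (hg : 0 < g) (hg1 : g ≤ 1)
    (hcap : 0 ≤ cap) (hlam : 0 < lam) (d : ℕ) :
    ∑ s ∈ Finset.range (d + 1), min (γ ^ ((s : ℝ) / (s + 1))) cap ≤
      ((-Real.log g) / lam + 1) * cap + ((d : ℝ) + 1) * (g * Real.exp lam) := by
  classical
  set L := -Real.log g with hL
  have hL0 : 0 ≤ L := by rw [hL, neg_nonneg]; exact Real.log_nonpos hg.le hg1
  set T := ⌈L / lam⌉₊ with hT
  rw [← Finset.sum_filter_add_sum_filter_not _ (fun s : ℕ => s + 1 ≤ T)]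
  refine add_le_add ?_ ?_
  · refine (Finset.sum_le_card_nsmul _ _ cap fun s _ => min_le_right _ _).trans ?_
    rw [nsmul_eq_mul]
    refine mul_le_mul_of_nonneg_right ?_ hcap
    refine le_trans ?_ (Nat.ceil_lt_add_one (div_nonneg hL0 hlam.le)).le
    rw [← hT]
    refine Nat.cast_le.2 ((Finset.card_le_card (t := Finset.range T) fun s hs => ?_).trans
      (Finset.card_range T).le)
    simp only [Finset.mem_filter, Finset.mem_range] at hs ⊢
    omega
  · refine (Finset.sum_le_card_nsmul _ _ (g * Real.exp lam) fun s hs => ?_).trans ?_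
    · simp only [Finset.mem_filter, not_le] at hs
      refine (min_le_left _ _).trans ((Real.rpow_le_rpow hγ hγg (by positivity)).trans ?_)
      rw [Real.rpow_def_of_pos hg]
      nth_rewrite 2 [← Real.exp_log hg]
      rw [← Real.exp_add]
      refine Real.exp_le_exp.2 ?_
      have hs' : L / lam ≤ (s : ℝ) + 1 :=
        (Nat.le_ceil _).trans (by exact_mod_cast hs.2.le)
      have hs1 : (0 : ℝ) < (s : ℝ) + 1 := by positivity
      have : L / ((s : ℝ) + 1) ≤ lam := by
        rw [div_le_iff₀ hs1]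
        have := (div_le_iff₀ hlam).1 hs'
        linarith
      have e : Real.log g * ((s : ℝ) / (s + 1)) = Real.log g + L / ((s : ℝ) + 1) := by
        rw [hL]; field_simp; ring
      rw [e]
      linarith
    · rw [nsmul_eq_mul]
      refine mul_le_mul_of_nonneg_right ?_ (by positivity)
      have := (Finset.card_filter_le (Finset.range (d + 1)) fun s : ℕ => ¬ s + 1 ≤ T)
      rw [Finset.card_range] at this
      exact_mod_cast this

lemma crit_half_large {d k : ℕ} (hd : 200 ≤ d) (hk : d ≤ 2 * k) : Crit d k := by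
  intro x hx hxd
  have hd' : (200 : ℝ) ≤ d := by exact_mod_cast hd
  have hk' : (d : ℝ) ≤ 2 * k := by exact_mod_cast hk
  have hk0 : (0 : ℝ) < k := by linarith
  have hx2 : x ≤ 2 := hxd.trans (by rw [div_le_iff₀ hk0]; linarith)
  have hγ : x / d * (1 - k * x / d) ≤ 1 / (2 * d) := by
    have h1 : x / 2 ≤ k * x / d := by
      rw [div_le_div_iff₀ two_pos (by linarith)]
      nlinarith
    calc x / d * (1 - k * x / d) ≤ x / d * (1 - x / 2) := by gcongr
      _ = x * (1 - x / 2) / d := by ring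
      _ ≤ (1 / 2) / d := by
          refine div_le_div_of_nonneg_right ?_ (by linarith)
          nlinarith [sq_nonneg (x - 1)]
      _ = _ := by ring
  set lam := Real.log (3 / 2) with hlam
  have hlam1 : (1 : ℝ) / 3 ≤ lam := by
    have := Real.one_sub_inv_le_log_of_pos (show (0 : ℝ) < 3 / 2 by norm_num)
    rw [hlam]; norm_num at this ⊢; linarith
  have hg : (0 : ℝ) < 1 / (2 * d) := by positivity
  have hg1 : 1 / (2 * (d : ℝ)) ≤ 1 := by rw [div_le_one (by linarith)]; linarith
  have h := sum_min_le (gamma_nonneg (by omega) (by omega) hx hxd) hγ hg hg1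
    (show (0 : ℝ) ≤ x / d by positivity) (show (0 : ℝ) < lam by linarith) d
  refine lt_of_le_of_lt h ?_
  rw [hlam, Real.exp_log (by norm_num), ← hlam, one_div, Real.log_inv, neg_neg]
  have hlog : Real.log (2 * (d : ℝ)) ≤ 9 * 0.6932 + ((d : ℝ) / 256 - 1) := by
    have h1 : Real.log (2 * (d : ℝ)) = Real.log ((2 : ℝ) ^ 9) + Real.log ((d : ℝ) / 256) := by
      rw [← Real.log_mul (by norm_num) (by positivity)]
      congr 1; norm_num; ring
    have h2 := Real.log_le_sub_one_of_pos (show (0 : ℝ) < (d : ℝ) / 256 by positivity)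
    rw [h1, Real.log_pow]
    have := Real.log_two_lt_d9
    push_cast
    linarith
  have hlog' : Real.log (2 * (d : ℝ)) ≤ 5.2388 + (d : ℝ) / 256 := by linarith
  have hL0 : 0 ≤ Real.log (2 * (d : ℝ)) := Real.log_nonneg (by linarith)
  have h1 : (Real.log (2 * (d : ℝ)) / lam + 1) * (x / d) ≤
      (3 * (5.2388 + (d : ℝ) / 256) + 1) * (2 / d) := by
    refine mul_le_mul ?_ ?_ (by positivity) (by positivity)
    · refine add_le_add ?_ le_rfl
      rw [div_le_iff₀ (by linarith)]
      nlinarith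
    · gcongr
  have h2 : (3 * (5.2388 + (d : ℝ) / 256) + 1) * (2 / d) = 33.4328 / d + 6 / 256 := by
    field_simp; ring
  have h3 : ((d : ℝ) + 1) * ((2 * (d : ℝ))⁻¹ * (3 / 2)) = 3 / 4 + 3 / (4 * d) := by
    field_simp
    ring
  have h4 : 33.4328 / (d : ℝ) ≤ 33.4328 / 200 := by gcongr
  have h5 : 3 / (4 * (d : ℝ)) ≤ 3 / (4 * 200) := by gcongr
  rw [h3]
  linarith

theorem crit_two : Crit 2 2 :=
  crit_of_cert cert2 (D1 := 2) (D2 := 2) (cn := 2) (cd := 2) (by norm_num) (by norm_num)
    (by norm_num) (by decide +kernel) le_rfl le_rfl (by norm_num)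

theorem crit_three : Crit 3 3 :=
  crit_of_cert cert3 (D1 := 3) (D2 := 3) (cn := 3) (cd := 3) (by norm_num) (by norm_num)
    (by norm_num) (by decide +kernel) le_rfl le_rfl (by norm_num)

theorem crit_four : Crit 4 3 :=
  crit_of_cert cert4 (D1 := 4) (D2 := 4) (cn := 3) (cd := 4) (by norm_num) (by norm_num)
    (by norm_num) (by decide +kernel) le_rfl le_rfl (by norm_num)

theorem crit_five : Crit 5 4 :=
  crit_of_cert cert5 (D1 := 5) (D2 := 5) (cn := 4) (cd := 5) (by norm_num) (by norm_num)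
    (by norm_num) (by decide +kernel) le_rfl le_rfl (by norm_num)

theorem crit_six : Crit 6 4 :=
  crit_of_cert cert6 (D1 := 6) (D2 := 6) (cn := 4) (cd := 6) (by norm_num) (by norm_num)
    (by norm_num) (by decide +kernel) le_rfl le_rfl (by norm_num)

theorem crit_seven : Crit 7 4 :=
  crit_of_cert cert7 (D1 := 7) (D2 := 7) (cn := 4) (cd := 7) (by norm_num) (by norm_num)
    (by norm_num) (by decide +kernel) le_rfl le_rfl (by norm_num)

theorem crit_eight : Crit 8 5 :=
  crit_of_cert cert8 (D1 := 8) (D2 := 8) (cn := 5) (cd := 8) (by norm_num) (by norm_num)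
    (by norm_num) (by decide +kernel) le_rfl le_rfl (by norm_num)

theorem crit_half (d k : ℕ) (hd : 9 ≤ d) (hk : d ≤ 2 * k) (_hkd : k < d) : Crit d k := by
  have ok : ∀ {D1 D2 : ℕ} (l : List (ℕ × List ℕ)), 0 < D1 → certOK D1 D2 1 2 1000 l = true →
      D1 ≤ d → d ≤ D2 → Crit d k := fun l h0 hl h1 h2 =>
    crit_of_cert l h0 two_pos le_rfl hl h1 h2 (by omega)
  by_cases h9 : d = 9
  · subst h9
    exact crit_of_cert cert9 (D1 := 9) (D2 := 9) (cn := 5) (cd := 9) (by norm_num) (by norm_num)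
      (by norm_num) (by decide +kernel) le_rfl le_rfl (by omega)
  by_cases h10 : d ≤ 10
  · exact ok (D1 := 10) (D2 := 10) certBlock10 (by norm_num) (by decide +kernel) (by omega) h10
  by_cases h11 : d ≤ 11
  · exact ok (D1 := 11) (D2 := 11) certBlock11 (by norm_num) (by decide +kernel) (by omega) h11
  by_cases h13 : d ≤ 13
  · exact ok (D1 := 12) (D2 := 13) certBlock12 (by norm_num) (by decide +kernel) (by omega) h13
  by_cases h16 : d ≤ 16
  · exact ok (D1 := 14) (D2 := 16) certBlock14 (by norm_num) (by decide +kernel) (by omega) h16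
  by_cases h21 : d ≤ 21
  · exact ok (D1 := 17) (D2 := 21) certBlock17 (by norm_num) (by decide +kernel) (by omega) h21
  by_cases h29 : d ≤ 29
  · exact ok (D1 := 22) (D2 := 29) certBlock22 (by norm_num) (by decide +kernel) (by omega) h29
  by_cases h43 : d ≤ 43
  · exact ok (D1 := 30) (D2 := 43) certBlock30 (by norm_num) (by decide +kernel) (by omega) h43
  by_cases h68 : d ≤ 68
  · exact ok (D1 := 44) (D2 := 68) certBlock44 (by norm_num) (by decide +kernel) (by omega) h68
  by_cases h114 : d ≤ 114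
  · exact ok (D1 := 69) (D2 := 114) certBlock69 (by norm_num) (by decide +kernel) (by omega) h114
  by_cases h199 : d ≤ 199
  · exact ok (D1 := 115) (D2 := 199) certBlock115 (by norm_num) (by decide +kernel) (by omega) h199
  exact crit_half_large (by omega) hk

/-- The criterion is monotone in `k`. -/
theorem crit_mono {d k k' : ℕ} (hk : 0 < k) (hd : 0 < d) (hkk : k ≤ k') (h : Crit d k) :
    Crit d k' := by
  intro x hx hxd
  have hk' : (0 : ℝ) < k := by exact_mod_cast hk
  have hd' : (0 : ℝ) < d := by exact_mod_cast hd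
  have hxd' : x ≤ (d : ℝ) / k :=
    hxd.trans (div_le_div_of_nonneg_left hd'.le hk' (by exact_mod_cast hkk))
  refine lt_of_le_of_lt (Finset.sum_le_sum fun s _ => ?_) (h x hx hxd')
  refine min_le_min (Real.rpow_le_rpow (gamma_nonneg (hk.trans_le hkk) hd hx hxd) ?_
    (by positivity)) le_rfl
  have h2 : (k : ℝ) ≤ k' := by exact_mod_cast hkk
  gcongr

theorem crit_quarter : ∀ ε > (0 : ℝ), ∃ d₀ : ℕ, ∀ d k : ℕ, d₀ ≤ d →
    (1 / 4 + ε) * (d : ℝ) ≤ k → k < d → Crit d k := by
  intro ε hε
  set c := 1 / 4 + ε with hc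
  have hc0 : 0 < c := by positivity
  -- `exp lam / (4 c) < 1`
  set lam := Real.log ((1 + 4 * c) / 2) with hlam
  have h4c : 1 < 4 * c := by rw [hc]; linarith
  have hlam0 : 0 < lam := Real.log_pos (by linarith)
  have hlim : Filter.Tendsto
      (fun d : ℕ => (Real.log (4 * c * d) / lam + 1) * (4 / (d : ℝ)) +
        (1 + 1 / (d : ℝ)) * ((1 + 4 * c) / 2 / (4 * c)))
      Filter.atTop (nhds (0 + (1 + 0) * ((1 + 4 * c) / 2 / (4 * c)))) := by
    refine Filter.Tendsto.add ?_ ((tendsto_const_nhds.add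
      (tendsto_const_div_atTop_nhds_zero_nat 1)).mul_const _)
    have h1 : Filter.Tendsto (fun d : ℕ => Real.log (d : ℝ) / (d : ℝ)) Filter.atTop (nhds 0) :=
      (Real.isLittleO_log_id_atTop.tendsto_div_nhds_zero).comp tendsto_natCast_atTop_atTop
    have h2 : Filter.Tendsto (fun d : ℕ => (4 / lam) * (Real.log (d : ℝ) / (d : ℝ)) +
        (Real.log (4 * c) / lam + 1) * 4 / (d : ℝ)) Filter.atTop (nhds 0) := by
      simpa using (h1.const_mul (4 / lam)).add
        (tendsto_const_div_atTop_nhds_zero_nat ((Real.log (4 * c) / lam + 1) * 4))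
    refine h2.congr' ?_
    filter_upwards [Filter.eventually_gt_atTop 0] with d hd
    rw [Real.log_mul (x := 4 * c) (y := (d : ℝ)) (by positivity) (by exact_mod_cast hd.ne')]
    ring
  have hlt : 0 + (1 + 0) * ((1 + 4 * c) / 2 / (4 * c)) < 1 := by
    rw [zero_add, add_zero, one_mul, div_lt_one (by positivity)]
    linarith
  obtain ⟨d0, hd0⟩ := Filter.eventually_atTop.1
    ((Filter.eventually_gt_atTop 0).and (hlim.eventually (gt_mem_nhds hlt)))
  refine ⟨d0, fun d k hd hk _ x hx hxd => ?_⟩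
  obtain ⟨hdpos, hbound⟩ := hd0 d hd
  have hd' : (1 : ℝ) ≤ d := by exact_mod_cast hdpos
  have hk0 : (0 : ℝ) < k := lt_of_lt_of_le (by positivity) hk
  have hxk : x * c ≤ 1 := by
    have h1 := (le_div_iff₀ hk0).1 hxd
    have h2 : x * (c * d) ≤ x * k := mul_le_mul_of_nonneg_left hk (by linarith)
    nlinarith
  have hx4 : x ≤ 4 := by nlinarith
  have hγ : x / d * (1 - k * x / d) ≤ 1 / (4 * c * d) := by
    have h1 : c * x ≤ k * x / d := by
      rw [le_div_iff₀ (by linarith)]
      nlinarith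
    calc x / d * (1 - k * x / d) ≤ x / d * (1 - c * x) := by gcongr
      _ = x * (1 - c * x) / d := by ring
      _ ≤ (1 / (4 * c)) / d := by
          refine div_le_div_of_nonneg_right ?_ (by linarith)
          rw [le_div_iff₀ (by positivity)]
          nlinarith [sq_nonneg (2 * c * x - 1)]
      _ = _ := by ring
  have h4cd : 1 ≤ 4 * c * (d : ℝ) := one_le_mul_of_one_le_of_one_le h4c.le hd'
  have hg1 : 1 / (4 * c * (d : ℝ)) ≤ 1 := by
    rw [div_le_one (by linarith)]; exact h4cd
  have hk0' : 0 < k := by exact_mod_cast hk0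
  have h := sum_min_le (gamma_nonneg hk0' hdpos hx hxd) hγ (by positivity) hg1
    (show (0 : ℝ) ≤ x / d by positivity) hlam0 d
  refine lt_of_le_of_lt (h.trans ?_) hbound
  rw [hlam, Real.exp_log (by positivity), ← hlam, one_div, Real.log_inv, neg_neg]
  refine add_le_add ?_ (le_of_eq ?_)
  · have hL : 0 ≤ Real.log (4 * c * (d : ℝ)) := Real.log_nonneg h4cd
    gcongr
  · field_simp

end Vale.Agent.P018
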