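import Vale.Agent.P018.CurveDefs

/-!
# Counting points on a curve inside a cell

Points with integral coordinates on an irreducible curve `F (u, v) = 0` are split into classes
modulo auxiliary split primes on which the curve is smooth; in each class the `q`-adic
determinant method produces a second equation independent of `F`.
-/

namespace Vale.Agent.P018

open NumberField Finset

variable {d : ℕ} {L : Type} [Field L] [NumberField L]

/-- Size of a determinant in a complex embedding. -/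
lemma norm_det_le {n : Type*} [Fintype n] [DecidableEq n] (N : Matrix n n (𝓞 L)) (B : n → ℝ)
    (φ : L →+* ℂ) (hN : ∀ i j, ‖φ (N i j : L)‖ ≤ B j) :
    ‖φ (N.det : L)‖ ≤ (Fintype.card n).factorial * ∏ j, B j := by
  rw [Matrix.det_apply']
  simp only [map_sum, map_mul, map_prod, map_intCast]
  refine (norm_sum_le _ _).trans ?_
  have hterm : ∀ σ : Equiv.Perm n,
      ‖((Equiv.Perm.sign σ : ℤ) : ℂ) * ∏ j, φ (N (σ j) j : L)‖ ≤ ∏ j, B j := by
    intro σ
    rw [norm_mul, Complex.norm_intCast, norm_prod]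
    have hs : |(((Equiv.Perm.sign σ : ℤˣ) : ℤ) : ℝ)| = 1 := by
      rcases Int.units_eq_one_or (Equiv.Perm.sign σ) with h | h <;> simp [h]
    rw [hs, one_mul]
    exact Finset.prod_le_prod (fun j _ => norm_nonneg _) fun j _ => hN (σ j) j
  refine (Finset.sum_le_sum fun σ _ => hterm σ).trans (le_of_eq ?_)
  simp [Fintype.card_perm]

lemma det_updateRow_finsetSum {S : Type*} [CommRing S] {n : Type*} [Fintype n] [DecidableEq n]
    {ι : Type*} (N : Matrix n n S) (j : n) (c : ι → S) (w : ι → n → S) (s : Finset ι) :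
    (N.updateRow j (∑ i ∈ s, c i • w i)).det = ∑ i ∈ s, c i * (N.updateRow j (w i)).det := by
  classical
  induction s using Finset.induction_on with
  | empty =>
    rw [Finset.sum_empty, Finset.sum_empty]
    exact Matrix.det_eq_zero_of_row_eq_zero j fun i => by simp
  | insert k s hk ih =>
    rw [Finset.sum_insert hk, Finset.sum_insert hk, Matrix.det_updateRow_add,
      Matrix.det_updateRow_smul, ih]

/-- A linear relation between bounded algebraic integers can be chosen of bounded size. -/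
lemma exists_small_kernel {α : Type*} [Fintype α] {ι : Type*} [Fintype ι] [DecidableEq ι]
    (w : α → ι → 𝓞 L) (c : ι → L) (hc : c ≠ 0) (hker : ∀ z, ∑ i, c i * (w z i : L) = 0)
    {B : ℝ} (hB : 1 ≤ B) (hw : ∀ z (φ : L →+* ℂ) i, ‖φ (w z i : L)‖ ≤ B) :
    ∃ e : ι → 𝓞 L, e ≠ 0 ∧ (∀ z, ∑ i, e i * w z i = 0) ∧
      ∀ (φ : L →+* ℂ) i, ‖φ (e i : L)‖ ≤ (Fintype.card ι).factorial * B ^ Fintype.card ι := by
  classical
  let row : α ⊕ ι → ι → 𝓞 L := Sum.elim w fun j => Pi.single j 1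
  let mat : (ι → α ⊕ ι) → Matrix ι ι (𝓞 L) := fun f => Matrix.of fun i => row (f i)
  let cnt : (ι → α ⊕ ι) → ℕ := fun f => (univ.filter fun i => (f i).isLeft).card
  have hone : mat Sum.inr = 1 := by
    ext i j
    simp [mat, row, Matrix.one_apply, Pi.single_apply, eq_comm]
  obtain ⟨f, hf, hmax⟩ := Finset.exists_max_image
    (univ.filter fun f : ι → α ⊕ ι => (mat f).det ≠ 0) cnt
    ⟨Sum.inr, by simp [hone]⟩
  rw [Finset.mem_filter] at hf
  obtain ⟨j0, j, hj⟩ : ∃ j0 j, f j0 = Sum.inr j := by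
    by_contra hno
    push Not at hno
    refine hc (Matrix.eq_zero_of_mulVec_eq_zero
      (M := (algebraMap (𝓞 L) L).mapMatrix (mat f)) ?_ ?_)
    · rw [← RingHom.map_det]
      exact (map_ne_zero_iff _ (RingOfIntegers.coe_injective)).2 hf.2
    · funext i
      rcases hfi : f i with z | j
      · simp only [Matrix.mulVec, dotProduct, RingHom.mapMatrix_apply, Matrix.map_apply,
          Pi.zero_apply, mat, Matrix.of_apply, hfi, row, Sum.elim_inl]
        rw [← hker z]
        exact Finset.sum_congr rfl fun k _ => mul_comm _ _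
      · exact absurd hfi (hno i j)
  refine ⟨fun i => ((mat f).updateRow j0 (Pi.single i 1)).det, ?_, fun z => ?_, fun φ i => ?_⟩
  · intro h0
    have h1 := congrFun h0 j
    have h2 : (mat f).updateRow j0 (Pi.single j 1) = mat f := by
      rw [show (Pi.single j 1 : ι → 𝓞 L) = (mat f) j0 by
        funext b; simp [mat, row, hj]]
      exact Matrix.updateRow_eq_self _ _
    simp only [h2, Pi.zero_apply] at h1
    exact hf.2 h1
  · have h1 := det_updateRow_finsetSum (mat f) j0 (w z) (fun i => (Pi.single i 1 : ι → 𝓞 L)) univ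
    rw [← pi_eq_sum_univ' (w z)] at h1
    simp only [mul_comm _ (w z _)]
    rw [← h1]
    by_contra hne
    have h2 : mat (Function.update f j0 (Sum.inl z)) = (mat f).updateRow j0 (w z) := by
      ext a b
      by_cases h : a = j0
      · subst h; simp [mat, row]
      · simp [mat, row, h]
    have h3 := hmax (Function.update f j0 (Sum.inl z))
      (Finset.mem_filter.2 ⟨Finset.mem_univ _, by rw [h2]; exact hne⟩)
    have h4 : cnt f < cnt (Function.update f j0 (Sum.inl z)) := by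
      refine Finset.card_lt_card ⟨fun a ha => ?_, fun hsub => ?_⟩
      · simp only [Finset.mem_filter, Finset.mem_univ, true_and] at ha ⊢
        by_cases h : a = j0
        · subst h; simp
        · simpa [Function.update_of_ne h] using ha
      · have := hsub (show j0 ∈ univ.filter fun i => (Function.update f j0 (Sum.inl z) i).isLeft
          by simp)
        simp [hj] at this
    omega
  · refine (norm_det_le _ (fun _ => B) φ fun a b => ?_).trans (le_of_eq (by simp))
    have hs : ∀ j' : ι, ‖φ (((Pi.single j' 1 : ι → 𝓞 L) b : 𝓞 L) : L)‖ ≤ B := by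
      intro j'
      by_cases h : b = j'
      · subst h; simpa using hB
      · rw [Pi.single_eq_of_ne h]; simp; linarith
    by_cases h : a = j0
    · subst h; simpa using hs i
    · rw [Matrix.updateRow_ne h]
      rcases hfa : f a with z | j'
      · simpa [mat, row, hfa] using hw z φ b
      · simpa [mat, row, hfa] using hs j'

/-- Disjoint moduli of prescribed size built from few split primes, none of them small. -/
lemma exists_moduli (D : RootData d L) (C₁ : ℝ) {e η : ℝ} (he : 0 ≤ e) (hη : 0 < η)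
    (hη1 : η < 1) :
    ∃ τ : ℝ, 0 < τ ∧ ∃ K : ℕ, ∀ n K₀ : ℕ, ∃ X₁ : ℝ, ∀ X : ℝ, X₁ ≤ X → ∀ avoid : Finset ℕ,
      avoid.card ≤ K₀ → ∃ S : Fin n → Finset ℕ, (∀ i j, i ≠ j → Disjoint (S i) (S j)) ∧
        ∀ i, (S i).card ≤ K ∧ Disjoint (S i) avoid ∧
          (∀ q ∈ S i, SplitPrime d D.g q ∧ C₁ < q ∧ (q : ℝ) < X ∧ X ^ τ ≤ (q : ℝ)) ∧
          X ^ e ≤ ((∏ q ∈ S i, q : ℕ) : ℝ) ∧ ((∏ q ∈ S i, q : ℕ) : ℝ) ≤ X ^ (e + η) := by
  obtain ⟨τ, hτ, hP⟩ := exists_split_primes D η hη
  set K := ⌈e / τ⌉₊ with hK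
  refine ⟨τ, hτ, K, fun n => ?_⟩
  induction n with
  | zero =>
    exact fun K₀ => ⟨0, fun X _ avoid _ => ⟨fun i => i.elim0, fun i => i.elim0, fun i => i.elim0⟩⟩
  | succ n ih =>
    intro K₀
    obtain ⟨X₁, hX₁⟩ := hP (K + K₀)
    obtain ⟨X₂, hX₂⟩ := ih (K₀ + K)
    refine ⟨max (max X₁ X₂) (max 2 ((max C₁ 1 + 1) ^ (1 / τ))), fun X hX avoid hav => ?_⟩
    have hX2 : 2 ≤ X := le_trans (le_trans (le_max_left _ _) (le_max_right _ _)) hX
    have hXC : (max C₁ 1 + 1) ^ (1 / τ) ≤ X :=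
      le_trans (le_trans (le_max_right _ _) (le_max_right _ _)) hX
    have hXτ : max C₁ 1 + 1 ≤ X ^ τ := by
      have h0 : 0 ≤ max C₁ 1 + 1 := by have := le_max_right C₁ 1; linarith
      have h1 := Real.rpow_le_rpow (Real.rpow_nonneg h0 _) hXC hτ.le
      rwa [← Real.rpow_mul h0, one_div_mul_cancel hτ.ne', Real.rpow_one] at h1
    obtain ⟨P, hcard, hP'⟩ := hX₁ X (le_trans (le_trans (le_max_left _ _) (le_max_left _ _)) hX)
    have hc : K ≤ (P \ avoid).card := by
      have := Finset.le_card_sdiff avoid P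
      omega
    obtain ⟨S₁, hS₁, hS₁c⟩ := Finset.exists_subset_card_eq hc
    have hmem : ∀ q ∈ S₁, SplitPrime d D.g q ∧ X ^ τ ≤ (q : ℝ) ∧ (q : ℝ) ≤ X ^ η := fun q hq =>
      hP' q (Finset.mem_sdiff.1 (hS₁ hq)).1
    have hbig : X ^ e ≤ ((∏ q ∈ S₁, q : ℕ) : ℝ) := by
      push_cast
      calc X ^ e ≤ X ^ (τ * (S₁.card : ℝ)) := by
            refine Real.rpow_le_rpow_of_exponent_le (by linarith) ?_
            rw [hS₁c]
            have := (div_le_iff₀ hτ).1 (Nat.le_ceil (e / τ))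
            linarith
        _ = ∏ _q ∈ S₁, X ^ τ := by
            rw [Finset.prod_const, Real.rpow_mul (by linarith), Real.rpow_natCast]
        _ ≤ _ := Finset.prod_le_prod (fun q _ => Real.rpow_nonneg (by linarith) _)
            fun q hq => (hmem q hq).2.1
    obtain ⟨T, hTS, h1, h2⟩ := exists_subset_prod (by linarith) hη.le he S₁
      (fun q hq => (hmem q hq).2.2) hbig
    obtain ⟨S, hSd, hS⟩ := hX₂ X (le_trans (le_trans (le_max_right _ _) (le_max_left _ _)) hX)
      (avoid ∪ T) ((Finset.card_union_le _ _).trans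
        (add_le_add hav ((Finset.card_le_card hTS).trans hS₁c.le)))
    have hTi : ∀ i, Disjoint T (S i) := fun i =>
      ((Finset.disjoint_union_right.1 (hS i).2.1).2).symm
    refine ⟨Fin.cons T S, ?_, fun i => ?_⟩
    · intro i j hij
      induction i using Fin.cases with
      | zero =>
        induction j using Fin.cases with
        | zero => exact absurd rfl hij
        | succ j => simpa using hTi j
      | succ i =>
        induction j using Fin.cases with
        | zero => simpa using (hTi i).symm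
        | succ j => simpa using hSd i j fun h => hij (by rw [h])
    · induction i using Fin.cases with
      | zero =>
        simp only [Fin.cons_zero]
        refine ⟨(Finset.card_le_card hTS).trans hS₁c.le,
          Finset.disjoint_left.2 fun q hq hqa => (Finset.mem_sdiff.1 (hS₁ (hTS hq))).2 hqa,
          fun q hq => ?_, h1, h2⟩
        obtain ⟨hsp, hlo, hhi⟩ := hmem q (hTS hq)
        refine ⟨hsp, ?_, lt_of_le_of_lt hhi (Real.rpow_lt_self_of_one_lt (by linarith) hη1), hlo⟩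
        have := le_max_left C₁ 1
        linarith
      | succ i =>
        simp only [Fin.cons_succ]
        exact ⟨(hS i).1, (Finset.disjoint_union_right.1 (hS i).2.1).1, (hS i).2.2⟩

section curve

open Polynomial

/-- Bivariate evaluation respects congruences. -/
lemma dvd_evalEval_sub {O : Type*} [CommRing O] (G : Polynomial (Polynomial O)) {q x x' y y' : O}
    (hx : q ∣ x - x') (hy : q ∣ y - y') : q ∣ G.evalEval x y - G.evalEval x' y' := by
  have h1 : q ∣ G.evalEval x y - G.evalEval x y' := by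
    rw [← map_evalRingHom_eval, ← map_evalRingHom_eval]
    exact hy.trans (sub_dvd_eval_sub y y' _)
  have h2 : q ∣ G.evalEval x y' - G.evalEval x' y' := hx.trans (sub_dvd_eval_sub x x' _)
  simpa using dvd_add h1 h2

/-- Near a smooth point the second coordinate is a polynomial in the first one. -/
lemma exists_hensel {O : Type*} [CommRing O] {β : Type*} (G : Polynomial (Polynomial O)) (q : O)
    (u v : β → O) (z₀ : β) (hG : ∀ z, G.evalEval (u z) (v z) = 0)
    (hu : ∀ z, q ∣ u z - u z₀) (hv : ∀ z, q ∣ v z - v z₀)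
    (hsm : IsCoprime q ((derivative G).evalEval (u z₀) (v z₀))) :
    ∀ n : ℕ, ∃ V : Polynomial O, ∀ z, q ^ (n + 1) ∣ v z - V.eval (u z) := by
  obtain ⟨s, b, hsb⟩ := hsm
  intro n
  induction n with
  | zero => exact ⟨Polynomial.C (v z₀), fun z => by simpa using hv z⟩
  | succ n ih =>
    obtain ⟨V, hV⟩ := ih
    refine ⟨V - Polynomial.C b * G.eval V, fun z => ?_⟩
    obtain ⟨t, ht⟩ := hV z
    set w := V.eval (u z) with hw
    have hcomp : (G.eval V).eval (u z) = (G.map (evalRingHom (u z))).eval w := by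
      rw [eval_map, hw]
      exact (eval₂_hom (evalRingHom (u z)) V).symm
    obtain ⟨r, hr⟩ := binomExpansion (G.map (evalRingHom (u z))) w (v z - w)
    rw [add_sub_cancel, map_evalRingHom_eval, hG, derivative_map] at hr
    simp only [map_evalRingHom_eval] at hr
    have hwz : q ∣ w - v z₀ := by
      have h1 : q ∣ v z - w := (dvd_pow_self q (Nat.succ_ne_zero n)).trans (hV z)
      have h2 := dvd_sub (hv z) h1
      simpa using h2
    obtain ⟨e, he⟩ := dvd_evalEval_sub (derivative G) (hu z) hwz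
    refine ⟨s * t - b * e * t - b * r * t ^ 2 * q ^ n, ?_⟩
    rw [eval_sub, eval_mul, eval_C, hcomp, map_evalRingHom_eval, ← hw]
    set g := G.evalEval (u z) w
    set g' := (derivative G).evalEval (u z) w
    have hv' : v z = w + q ^ (n + 1) * t := by linear_combination ht
    rw [hv'] at hr ⊢
    linear_combination (-b) * hr - q ^ (n + 1) * t * b * he - q ^ (n + 1) * t * hsb

/-- Inside a cell on which the curve is smooth a second relation holds. -/
lemma exists_cell_relation {β : Type*} (G : Polynomial (Polynomial (𝓞 L))) (u : β → ℤ)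
    (v : β → 𝓞 L) (Q : ℕ) (z₀ : β) (E : Finset (ℕ × ℕ)) {a b g C X : ℝ} (hC : 1 ≤ C)
    (hX : 1 ≤ X) (hQ : X ^ g ≤ Q)
    (hE : (∑ e ∈ E, (a * e.1 + b * e.2)) + 1 ≤ g * ((E.card.choose 2 : ℕ) : ℝ))
    (hsize : (E.card.factorial : ℝ) * C ^ (∑ e ∈ E, (e.1 + e.2)) < X)
    (hub : ∀ z, |(u z : ℝ)| ≤ C * X ^ a)
    (hvb : ∀ z (φ : L →+* ℂ), ‖φ (v z : L)‖ ≤ C * X ^ b)
    (hG : ∀ z, G.evalEval (u z : 𝓞 L) (v z) = 0)
    (hu : ∀ z, (Q : ℤ) ∣ u z - u z₀) (hv : ∀ z, (Q : 𝓞 L) ∣ v z - v z₀)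
    (hsm : IsCoprime (Q : 𝓞 L) ((derivative G).evalEval (u z₀ : 𝓞 L) (v z₀))) :
    ∃ c : ℕ × ℕ → L, (∃ e ∈ E, c e ≠ 0) ∧
      ∀ z, (comb E c).evalEval (u z : L) (v z : L) = 0 := by
  classical
  have hX0 : (0 : ℝ) < X := by linarith
  have hu' : ∀ z, (Q : 𝓞 L) ∣ (u z : 𝓞 L) - (u z₀ : 𝓞 L) := by
    intro z
    have h := map_dvd (Int.castRingHom (𝓞 L)) (hu z)
    simpa using h
  set S := E.card.choose 2 with hS
  obtain ⟨V, hV⟩ := exists_hensel G (Q : 𝓞 L) (fun z => (u z : 𝓞 L)) v z₀ hG hu' hv hsm S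
  have hdet : ∀ f : E → β, Matrix.det (Matrix.of fun (l e : E) =>
      (u (f l) : 𝓞 L) ^ (e : ℕ × ℕ).1 * v (f l) ^ (e : ℕ × ℕ).2) = 0 := by
    intro f
    set N₀ : Matrix E E (𝓞 L) := Matrix.of fun (l e : E) =>
      (u (f l) : 𝓞 L) ^ (e : ℕ × ℕ).1 * v (f l) ^ (e : ℕ × ℕ).2 with hN₀
    choose y hy using fun l : E => hu' (f l)
    let P : E → MvPolynomial Unit (𝓞 L) := fun e => Polynomial.aeval (MvPolynomial.X ())
      (Polynomial.X ^ (e : ℕ × ℕ).1 * V ^ (e : ℕ × ℕ).2)
    have h1 := det_dvd P (fun _ => (u z₀ : 𝓞 L)) (fun l _ => y l) (Q : 𝓞 L) E.card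
    have hexp : E.card * Fintype.card E -
        (E.card + Fintype.card Unit).choose (Fintype.card Unit + 1) = S := by
      rw [Fintype.card_coe, Fintype.card_unit, hS, Nat.choose_succ_succ' E.card 1,
        Nat.choose_one_right, show (1 : ℕ) + 1 = 2 from rfl]
      have : 2 * E.card.choose 2 + E.card = E.card * E.card := by
        clear hE hsize
        induction E.card with
        | zero => simp
        | succ m ih =>
          rw [Nat.choose_succ_succ' m 1, Nat.choose_one_right]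
          linarith
      omega
    rw [hexp] at h1
    have hPe : ∀ l e : E, MvPolynomial.eval (fun _ => (u z₀ : 𝓞 L) + (Q : 𝓞 L) * y l) (P e) =
        (u (f l) : 𝓞 L) ^ (e : ℕ × ℕ).1 * V.eval (u (f l) : 𝓞 L) ^ (e : ℕ × ℕ).2 := by
      intro l e
      have hul : (u z₀ : 𝓞 L) + (Q : 𝓞 L) * y l = (u (f l) : 𝓞 L) := by
        linear_combination -(hy l)
      simp only [P, map_mul, map_pow, Polynomial.aeval_X, hul, MvPolynomial.eval_X]
      have e1 : MvPolynomial.eval (fun _ : Unit => (u (f l) : 𝓞 L))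
          (Polynomial.aeval (MvPolynomial.X () : MvPolynomial Unit (𝓞 L)) V) =
          V.eval (u (f l) : 𝓞 L) := by
        rw [← MvPolynomial.aeval_eq_eval, ← AlgHom.coe_toRingHom]
        show (MvPolynomial.aeval (fun _ : Unit => (u (f l) : 𝓞 L)))
          (Polynomial.aeval (MvPolynomial.X () : MvPolynomial Unit (𝓞 L)) V) = _
        rw [← Polynomial.aeval_algHom_apply, MvPolynomial.aeval_X, Polynomial.coe_aeval_eq_eval]
      rw [e1]
    have h2 : (Matrix.of fun l e : E => MvPolynomial.eval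
        (fun _ => (u z₀ : 𝓞 L) + (Q : 𝓞 L) * y l) (P e)) =
        Matrix.of fun (l e : E) =>
          (u (f l) : 𝓞 L) ^ (e : ℕ × ℕ).1 * V.eval (u (f l) : 𝓞 L) ^ (e : ℕ × ℕ).2 := by
      funext l e
      exact hPe l e
    rw [h2] at h1
    have hQS : (Q : 𝓞 L) ^ S ∣ N₀.det := by
      set π := Ideal.Quotient.mk (Ideal.span {(Q : 𝓞 L) ^ S})
      have hm : π.mapMatrix N₀ = π.mapMatrix (Matrix.of fun (l e : E) =>
          (u (f l) : 𝓞 L) ^ (e : ℕ × ℕ).1 * V.eval (u (f l) : 𝓞 L) ^ (e : ℕ × ℕ).2) := by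
        ext l e
        simp only [RingHom.mapMatrix_apply, Matrix.map_apply, hN₀, Matrix.of_apply, map_mul,
          map_pow]
        congr 2
        rw [Ideal.Quotient.eq, Ideal.mem_span_singleton]
        exact (pow_dvd_pow _ (Nat.le_succ S)).trans (hV (f l))
      have h3 := congrArg Matrix.det hm
      rw [← RingHom.map_det, ← RingHom.map_det, Ideal.Quotient.eq,
        Ideal.mem_span_singleton] at h3
      simpa using dvd_add h3 h1
    obtain ⟨x, hx⟩ := hQS
    suffices x = 0 by rw [hx, this, mul_zero]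
    refine eq_zero_of_norm_lt_one x fun φ => ?_
    have hbound := norm_det_le N₀
      (fun e : E => (C * X ^ a) ^ (e : ℕ × ℕ).1 * (C * X ^ b) ^ (e : ℕ × ℕ).2) φ fun l e => by
        simp only [hN₀, Matrix.of_apply, map_mul, map_pow, map_intCast, norm_mul, norm_pow,
          Complex.norm_intCast]
        exact mul_le_mul (pow_le_pow_left₀ (abs_nonneg _) (hub _) _)
          (pow_le_pow_left₀ (norm_nonneg _) (hvb _ φ) _) (by positivity) (by positivity)
    have hprod : ∏ e : E, (C * X ^ a) ^ (e : ℕ × ℕ).1 * (C * X ^ b) ^ (e : ℕ × ℕ).2 =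
        C ^ (∑ e ∈ E, (e.1 + e.2)) * X ^ (∑ e ∈ E, (a * e.1 + b * e.2)) := by
      rw [Finset.prod_coe_sort E (fun e => (C * X ^ a) ^ e.1 * (C * X ^ b) ^ e.2),
        Real.rpow_sum_of_pos hX0, ← Finset.prod_pow_eq_pow_sum, ← Finset.prod_mul_distrib]
      refine Finset.prod_congr rfl fun e _ => ?_
      rw [mul_pow, mul_pow, pow_add, Real.rpow_add hX0, Real.rpow_mul hX0.le,
        Real.rpow_mul hX0.le, Real.rpow_natCast, Real.rpow_natCast]
      ring
    rw [hprod, Fintype.card_coe, hx] at hbound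
    simp only [map_mul, map_pow, map_natCast, norm_mul, norm_pow, Complex.norm_natCast] at hbound
    set cost := ∑ e ∈ E, (a * (e.1 : ℝ) + b * e.2) with hcost
    have hQS' : X ^ (g * (S : ℝ)) ≤ (Q : ℝ) ^ S := by
      rw [Real.rpow_mul hX0.le, Real.rpow_natCast]
      exact pow_le_pow_left₀ (Real.rpow_nonneg hX0.le _) hQ _
    by_contra hcon
    push Not at hcon
    have h3 := hQS'.trans ((le_mul_of_one_le_right (by positivity) hcon).trans hbound)
    have h4 : X ^ (cost + 1) ≤ X ^ (g * (S : ℝ)) := Real.rpow_le_rpow_of_exponent_le hX hE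
    rw [Real.rpow_add hX0, Real.rpow_one] at h4
    have h5 := mul_lt_mul_of_pos_right hsize (Real.rpow_pos_of_pos hX0 cost)
    linarith
  obtain ⟨c, hc, hker⟩ := exists_kernel
    (fun (z : β) (e : E) => (u z : L) ^ (e : ℕ × ℕ).1 * (v z : L) ^ (e : ℕ × ℕ).2) (fun f => by
      have h := congrArg (algebraMap (𝓞 L) L) (hdet f)
      rw [RingHom.map_det, map_zero] at h
      rw [← h]
      congr 1)
  obtain ⟨e₀, he₀⟩ := Function.ne_iff.1 hc
  refine ⟨fun e => if he : e ∈ E then c ⟨e, he⟩ else 0, ⟨e₀, e₀.2, by simpa using he₀⟩,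
    fun z => ?_⟩
  rw [evalEval_comb, ← Finset.sum_coe_sort E, ← hker z]
  refine Finset.sum_congr rfl fun e _ => ?_
  simp [mul_assoc]

lemma coeff_coeff_comb {K : Type*} [Field K] (E : Finset (ℕ × ℕ)) (c : ℕ × ℕ → K) (i j : ℕ) :
    ((comb E c).coeff i).coeff j = if (j, i) ∈ E then c (j, i) else 0 := by
  classical
  simp only [comb, Polynomial.finsetSum_coeff, Polynomial.coeff_C_mul_X_pow]
  rw [← Finset.sum_ite_eq' E (j, i) c]
  refine Finset.sum_congr rfl fun e _ => ?_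
  obtain ⟨e1, e2⟩ := e
  by_cases h1 : i = e2 <;> by_cases h2 : j = e1 <;>
    simp_all [eq_comm, Polynomial.coeff_C_mul, Polynomial.coeff_X_pow]

lemma bDeg_comb {K : Type*} [Field K] (E : Finset (ℕ × ℕ)) (c : ℕ × ℕ → K) {δ : ℕ}
    (h : ∀ e ∈ E, e.1 ≤ δ ∧ e.2 ≤ δ) : BDeg δ (comb E c) := by
  refine ⟨natDegree_le_iff_coeff_eq_zero.2 fun i hi => ?_,
    fun i => natDegree_le_iff_coeff_eq_zero.2 fun j hj => ?_⟩
  · ext j
    rw [coeff_coeff_comb, coeff_zero, if_neg]
    intro hm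
    have := (h _ hm).2
    simp only at this
    omega
  · rw [coeff_coeff_comb, if_neg]
    intro hm
    have := (h _ hm).1
    simp only at this
    omega

/-- Zeros of `F` and of a polynomial not divisible by `F`, with bounded fibres. -/
lemma card_le_eliminant {β : Type*} {F P : Polynomial (Polynomial L)} (hF : Irreducible F)
    (hdeg : F.natDegree ≠ 0) (hnd : ¬ F ∣ P) {δ B₁ : ℕ} (hFd : BDeg δ F) (hPd : BDeg δ P)
    (W : Finset β) (u : β → ℤ) (v : β → L) (hFz : ∀ z ∈ W, F.evalEval (u z : L) (v z) = 0)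
    (hPz : ∀ z ∈ W, P.evalEval (u z : L) (v z) = 0)
    (hfib : ∀ u₀, (W.filter fun z => u z = u₀).card ≤ B₁) :
    W.card ≤ B₁ * (2 * δ * δ) := by
  classical
  obtain ⟨r, hr0, hrd, hr⟩ := exists_eliminant_biv hF hdeg hnd hFd hPd
  refine (Finset.card_le_mul_card_image W B₁ (f := u) fun a _ => hfib a).trans
    (Nat.mul_le_mul_left _ ?_)
  have h : (W.image u).card ≤ r.roots.toFinset.card := by
    refine Finset.card_le_card_of_injOn (fun a : ℤ => (a : L)) ?_
      (fun a _ b _ hab => Int.cast_injective hab)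
    intro a ha
    obtain ⟨z, hz, rfl⟩ := Finset.mem_image.1 ha
    rw [Finset.mem_coe, Multiset.mem_toFinset, Polynomial.mem_roots hr0]
    exact hr _ _ (hFz z hz) (hPz z hz)
  exact h.trans ((Multiset.toFinset_card_le _).trans ((Polynomial.card_roots' r).trans hrd))

/-- The norm is bounded by the conjugates. -/
lemma natAbs_norm_le (x : 𝓞 L) {B : ℝ} (h : ∀ φ : L →+* ℂ, ‖φ (x : L)‖ ≤ B) :
    ((Algebra.norm ℤ x).natAbs : ℝ) ≤ B ^ Fintype.card (L →ₐ[ℚ] ℂ) := by
  have h2 : ((Algebra.norm ℤ x : ℤ) : ℂ) = ∏ σ : L →ₐ[ℚ] ℂ, σ (x : L) := by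
    rw [← Algebra.norm_eq_prod_embeddings ℚ ℂ (x : L), ← Algebra.coe_norm_int]
    simp
  rw [Nat.cast_natAbs, Int.cast_abs, ← Complex.norm_intCast, h2, norm_prod]
  calc ∏ σ : L →ₐ[ℚ] ℂ, ‖σ (x : L)‖ ≤ ∏ _σ : L →ₐ[ℚ] ℂ, B :=
        Finset.prod_le_prod (fun σ _ => norm_nonneg _) fun σ _ => h σ.toRingHom
    _ = _ := by simp

/-- An element divides its norm. -/
lemma dvd_natAbs_norm (x : 𝓞 L) : x ∣ ((Algebra.norm ℤ x).natAbs : 𝓞 L) := by
  have h := Ideal.absNorm_mem (Ideal.span {x})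
  rwa [Ideal.absNorm_span_singleton, Ideal.mem_span_singleton] at h

/-- Points on a curve `F (u, v) = 0`, with `|u| ≪ X ^ a` and `|v| ≪ X ^ b`. -/
theorem curve_count (D : RootData d L) {k : ℕ} (hk : 1 ≤ k) {R : ℤ} (hR : R ≠ 0)
    {A M a b g η : ℝ} (ha : 0 ≤ a) (hb : 0 ≤ b) (hg : 0 ≤ g) (hη : 0 < η) (hη1 : η < 1)
    (E : Finset (ℕ × ℕ))
    (hE : (∑ e ∈ E, (a * e.1 + b * e.2)) + 1 ≤ g * ((E.card.choose 2 : ℕ) : ℝ))
    {C₀ : ℝ} (hC₀ : 1 ≤ C₀) (C₁ C₂ : ℝ) (B₀ δ B₁ K₀ : ℕ) :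
    ∃ Cst X₁ : ℝ, 0 ≤ Cst ∧ ∀ X : ℝ, X₁ ≤ X → ∀ S₀ : Finset ℕ, S₀.card ≤ K₀ →
      ∀ Z : Finset (Pt d L), D.Good k R C₀ C₁ X A M B₀ Z →
      ∀ [DecidableEq (Option (Fin d) → L)], Rel δ 1 univ (Z.image D.coord) →
      ∀ (u : Pt d L → ℤ) (v : Pt d L → 𝓞 L),
      (∀ z ∈ Z, |(u z : ℝ)| ≤ C₂ * X ^ a) →
      (∀ z ∈ Z, ∀ φ : L →+* ℂ, ‖φ (v z : L)‖ ≤ C₂ * X ^ b) →
      (∀ S : Finset ℕ, Disjoint S S₀ → (∀ q ∈ S, SplitPrime d D.g q ∧ C₁ < q ∧ (q : ℝ) < X) →
        ∀ z ∈ Z, ∀ z' ∈ Z, Pt.Cong (∏ q ∈ S, q) z z' →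
          ((∏ q ∈ S, q : ℕ) : ℤ) ∣ u z - u z' ∧ ((∏ q ∈ S, q : ℕ) : 𝓞 L) ∣ v z - v z') →
      ∀ F : Polynomial (Polynomial L), Irreducible F → F.natDegree ≠ 0 → BDeg δ F →
      IndepMod E F →
      (∀ z ∈ Z, F.evalEval (u z : L) (v z : L) = 0) →
      (∀ u₀ : ℤ, (Z.filter fun z => u z = u₀).card ≤ B₁) →
      (Z.card : ℝ) ≤ Cst * X ^ (g + η) := by
  classical
  obtain ⟨τ, hτ, K, hmod⟩ := exists_moduli D C₁ hg hη hη1
  set C := max C₂ 1 with hC
  have hC1 : 1 ≤ C := le_max_right _ _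
  set Kb : ℕ := (δ + 1) * (δ + 1) with hKb
  set T₀ : ℝ := (a + b + 2) * δ with hT₀
  have hT₀0 : 0 ≤ T₀ := by positivity
  set T₁ : ℝ := ((Kb : ℝ) + 1) * T₀ + 2 with hT₁
  set deg := Fintype.card (L →ₐ[ℚ] ℂ) with hdeg'
  set n₀ : ℕ := ⌊T₁ * deg / τ⌋₊ + 1 with hn₀
  obtain ⟨X₂, hX₂⟩ := hmod n₀ K₀
  set δE := max δ (E.sup fun e => max e.1 e.2) with hδE
  set cK : ℕ := ((2 ^ (d + 1) * δ + 2) ^ (d + 1)) ^ K with hcK
  refine ⟨((B₁ * (2 * δ * δ) : ℕ) : ℝ) + (n₀ : ℝ) * ((cK : ℝ) * ((B₁ * (2 * δE * δE) : ℕ) : ℝ)),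
    max (max X₂ (max 2 C)) (max (max (Kb.factorial : ℝ) ((Kb * δ : ℕ) : ℝ))
      ((E.card.factorial : ℝ) * C ^ (∑ e ∈ E, (e.1 + e.2)) + 1)), by positivity, ?_⟩
  intro X hX S₀ hS₀ Z hZ _ hrel u v hu hv hcong F hF hFdeg hFδ hind hzero hfib
  simp only [max_le_iff] at hX
  obtain ⟨⟨hXmod, hX2, hXC⟩, ⟨hXK, hXKδ⟩, hXE⟩ := hX
  have hX1 : 1 ≤ X := by linarith
  have hX0 : 0 < X := by linarith
  have hge : 1 ≤ X ^ (g + η) := Real.one_le_rpow hX1 (by linarith)
  have hub : ∀ z ∈ Z, |(u z : ℝ)| ≤ C * X ^ a := fun z hz => (hu z hz).trans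
    (mul_le_mul_of_nonneg_right (le_max_left _ _) (Real.rpow_nonneg hX0.le _))
  have hvb : ∀ z ∈ Z, ∀ φ : L →+* ℂ, ‖φ (v z : L)‖ ≤ C * X ^ b := fun z hz φ => (hv z hz φ).trans
    (mul_le_mul_of_nonneg_right (le_max_left _ _) (Real.rpow_nonneg hX0.le _))
  have hfib' : ∀ W ⊆ Z, ∀ u₀, (W.filter fun z => u z = u₀).card ≤ B₁ := fun W hW u₀ =>
    (Finset.card_le_card (Finset.filter_subset_filter _ hW)).trans (hfib u₀)
  -- monomials in the box of `F`
  set box : Finset (ℕ × ℕ) := range (δ + 1) ×ˢ range (F.natDegree + 1) with hbox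
  have hboxmem : ∀ e ∈ box, e.1 ≤ δ ∧ e.2 ≤ δ := by
    intro e he
    simp only [hbox, Finset.mem_product, Finset.mem_range] at he
    have := hFδ.1
    omega
  have hboxcard : box.card ≤ Kb := by
    rw [hbox, Finset.card_product, Finset.card_range, Finset.card_range]
    exact Nat.mul_le_mul_left _ (by have := hFδ.1; omega)
  have hmono : ∀ z ∈ Z, ∀ φ : L →+* ℂ, ∀ i j : ℕ, i ≤ δ → j ≤ δ →
      |(u z : ℝ)| ^ i * ‖φ (v z : L)‖ ^ j ≤ X ^ T₀ := by
    intro z hz φ i j hi hj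
    calc |(u z : ℝ)| ^ i * ‖φ (v z : L)‖ ^ j ≤ (X ^ (a + 1)) ^ i * (X ^ (b + 1)) ^ j := by
          refine mul_le_mul (pow_le_pow_left₀ (abs_nonneg _) ((hub z hz).trans ?_) _)
            (pow_le_pow_left₀ (norm_nonneg _) ((hvb z hz φ).trans ?_) _) (by positivity)
            (by positivity)
          all_goals
            rw [Real.rpow_add hX0, Real.rpow_one, mul_comm]
            exact mul_le_mul_of_nonneg_left hXC (Real.rpow_nonneg hX0.le _)
      _ ≤ X ^ T₀ := by
          rw [← Real.rpow_natCast _ i, ← Real.rpow_natCast _ j, ← Real.rpow_mul hX0.le,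
            ← Real.rpow_mul hX0.le, ← Real.rpow_add hX0]
          refine Real.rpow_le_rpow_of_exponent_le hX1 ?_
          have hi' : (i : ℝ) ≤ δ := by exact_mod_cast hi
          have hj' : (j : ℝ) ≤ δ := by exact_mod_cast hj
          rw [hT₀]
          nlinarith [mul_le_mul_of_nonneg_left hi' (by linarith : 0 ≤ a + 1),
            mul_le_mul_of_nonneg_left hj' (by linarith : 0 ≤ b + 1)]
  -- a multiple of `F` of bounded height
  have hFbox : F = comb box fun e => (F.coeff e.2).coeff e.1 := by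
    ext i j
    rw [coeff_coeff_comb]
    split
    · rfl
    · rename_i hmem
      simp only [hbox, Finset.mem_product, Finset.mem_range, not_and_or, not_lt] at hmem
      rcases hmem with h | h
      · exact coeff_eq_zero_of_natDegree_lt (by have := hFδ.2 i; omega)
      · rw [coeff_eq_zero_of_natDegree_lt (show F.natDegree < i by omega), coeff_zero]
  obtain ⟨co, hco, hcoker, hcosize⟩ := exists_small_kernel (L := L)
    (fun (z : Z) (e : box) => ((u z.1 : 𝓞 L)) ^ (e : ℕ × ℕ).1 * v z.1 ^ (e : ℕ × ℕ).2)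
    (fun e : box => (F.coeff (e : ℕ × ℕ).2).coeff (e : ℕ × ℕ).1)
    (by
      intro h0
      apply hF.ne_zero
      rw [hFbox, comb]
      refine Finset.sum_eq_zero fun e he => ?_
      have h1 := congrFun h0 ⟨e, he⟩
      simp only [Pi.zero_apply] at h1
      simp [h1])
    (by
      intro z
      have h1 := hzero z.1 z.2
      rw [hFbox, evalEval_comb, ← Finset.sum_coe_sort box] at h1
      rw [← h1]
      refine Finset.sum_congr rfl fun e _ => ?_
      simp [mul_assoc])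
    (Real.one_le_rpow hX1 hT₀0)
    (by
      intro z φ e
      simpa [Complex.norm_intCast] using hmono z.1 z.2 φ _ _ (hboxmem _ e.2).1 (hboxmem _ e.2).2)
  obtain ⟨e₁, he₁⟩ := Function.ne_iff.1 hco
  let cO : ℕ × ℕ → 𝓞 L := fun e => if he : e ∈ box then co ⟨e, he⟩ else 0
  let G : Polynomial (Polynomial (𝓞 L)) :=
    ∑ e ∈ box, Polynomial.C (Polynomial.C (cO e) * Polynomial.X ^ e.1) * Polynomial.X ^ e.2
  set Gm := G.map (mapRingHom (algebraMap (𝓞 L) L)) with hGm
  have hGmcomb : Gm = comb box fun e => (cO e : L) := by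
    simp [hGm, G, comb, Polynomial.map_sum]
  have hGval : ∀ x y : 𝓞 L,
      Gm.evalEval (x : L) (y : L) = ((G.evalEval x y : 𝓞 L) : L) := fun x y =>
    map_mapRingHom_evalEval _ _ _ _
  have hG0 : ∀ z ∈ Z, G.evalEval (u z : 𝓞 L) (v z) = 0 := by
    intro z hz
    rw [evalEval_finsetSum, ← Finset.sum_coe_sort box]
    refine Eq.trans (Finset.sum_congr rfl fun e _ => ?_) (hcoker ⟨z, hz⟩)
    simp [cO, evalEval, mul_assoc]
  have hGm0 : ∀ z ∈ Z, Gm.evalEval (u z : L) (v z : L) = 0 := by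
    intro z hz
    have h := hGval (u z : 𝓞 L) (v z)
    simpa [hG0 z hz] using h
  have hGmne : Gm ≠ 0 := by
    intro h0
    have h1 := congrArg (fun p => (p.coeff (e₁ : ℕ × ℕ).2).coeff (e₁ : ℕ × ℕ).1) h0
    simp only [hGmcomb, coeff_coeff_comb, Prod.mk.eta, coeff_zero] at h1
    rw [if_pos e₁.2] at h1
    simp [cO] at h1
    exact he₁ h1
  have hGmδ : BDeg δ Gm := by
    rw [hGmcomb]
    exact bDeg_comb _ _ hboxmem
  have hGmn : Gm.natDegree ≤ F.natDegree := by
    rw [hGmcomb, natDegree_le_iff_coeff_eq_zero]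
    intro i hi
    ext j
    rw [coeff_coeff_comb, coeff_zero, if_neg]
    intro hm
    simp only [hbox, Finset.mem_product, Finset.mem_range] at hm
    omega
  have hsmallcase : ∀ W ⊆ Z, ∀ P : Polynomial (Polynomial L), ¬ F ∣ P → BDeg δ P →
      (∀ z ∈ W, P.evalEval (u z : L) (v z : L) = 0) → W.card ≤ B₁ * (2 * δ * δ) :=
    fun W hW P hP hPd hPz => card_le_eliminant hF hFdeg hP hFδ hPd W u (fun z => (v z : L))
      (fun z hz => hzero z (hW hz)) hPz (hfib' W hW)
  by_cases hdiv : F ∣ Gm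
  swap
  · have h := hsmallcase Z subset_rfl Gm hdiv hGmδ hGm0
    calc (Z.card : ℝ) ≤ ((B₁ * (2 * δ * δ) : ℕ) : ℝ) * X ^ (g + η) :=
          le_trans (by exact_mod_cast h) (le_mul_of_one_le_right (Nat.cast_nonneg _) hge)
      _ ≤ _ := by
          refine mul_le_mul_of_nonneg_right (le_add_of_nonneg_right ?_) (by linarith)
          positivity
  -- the derivative of the multiple
  have hn : Gm.natDegree = F.natDegree := le_antisymm hGmn (natDegree_le_of_dvd hdiv hGmne)
  have hDer0 : derivative Gm ≠ 0 := by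
    intro h0
    exact hFdeg (hn ▸ derivative_eq_zero.1 h0)
  have hDerlt : (derivative Gm).natDegree < F.natDegree :=
    hn ▸ natDegree_derivative_lt (by rw [hn]; exact hFdeg)
  have hDerndvd : ¬ F ∣ derivative Gm := fun h => by
    have := natDegree_le_of_dvd h hDer0
    omega
  have hDerδ : BDeg δ (derivative Gm) := by
    refine ⟨hDerlt.le.trans hFδ.1, fun i => ?_⟩
    rw [coeff_derivative]
    have hcast : ((i : Polynomial L) + 1) = Polynomial.C ((i : L) + 1) := by simp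
    rw [hcast]
    exact (natDegree_mul_C_le _ _).trans (hGmδ.2 _)
  let av : Pt d L → 𝓞 L := fun z => (derivative G).evalEval (u z : 𝓞 L) (v z)
  let Nv : Pt d L → ℕ := fun z => (Algebra.norm ℤ (av z)).natAbs
  have hav : ∀ z ∈ Z, ∀ φ : L →+* ℂ, ‖φ (av z : L)‖ ≤ X ^ T₁ := by
    intro z hz φ
    have hexp : av z = ∑ e : box, co e * (((e : ℕ × ℕ).2 : 𝓞 L) *
        ((u z : 𝓞 L) ^ (e : ℕ × ℕ).1 * v z ^ ((e : ℕ × ℕ).2 - 1))) := by
      simp only [av, G, derivative_sum, evalEval_finsetSum]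
      rw [← Finset.sum_coe_sort box]
      refine Finset.sum_congr rfl fun e _ => ?_
      rw [derivative_C_mul_X_pow]
      simp [cO, evalEval]
      ring
    have hterm : ∀ e : box, ‖φ ((co e * (((e : ℕ × ℕ).2 : 𝓞 L) *
        ((u z : 𝓞 L) ^ (e : ℕ × ℕ).1 * v z ^ ((e : ℕ × ℕ).2 - 1))) : 𝓞 L) : L)‖ ≤
        (δ : ℝ) * ((Kb.factorial : ℝ) * (X ^ T₀) ^ Kb * X ^ T₀) := by
      intro e
      obtain ⟨h1, h2⟩ := hboxmem _ e.2
      simp only [map_mul, map_pow, map_intCast, map_natCast, norm_mul, norm_pow,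
        Complex.norm_intCast, Complex.norm_natCast]
      have h3 : ‖φ (co e : L)‖ ≤ (Kb.factorial : ℝ) * (X ^ T₀) ^ Kb := by
        refine (hcosize φ e).trans ?_
        rw [Fintype.card_coe]
        exact mul_le_mul (by exact_mod_cast Nat.factorial_le hboxcard)
          (pow_le_pow_right₀ (Real.one_le_rpow hX1 hT₀0) hboxcard) (by positivity) (by positivity)
      have h4 := hmono z hz φ (e : ℕ × ℕ).1 ((e : ℕ × ℕ).2 - 1) h1 (by omega)
      calc ‖φ (co e : L)‖ * (((e : ℕ × ℕ).2 : ℝ) *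
            (|(u z : ℝ)| ^ (e : ℕ × ℕ).1 * ‖φ (v z : L)‖ ^ ((e : ℕ × ℕ).2 - 1)))
          ≤ ((Kb.factorial : ℝ) * (X ^ T₀) ^ Kb) * ((δ : ℝ) * X ^ T₀) :=
            mul_le_mul h3 (mul_le_mul (by exact_mod_cast h2) h4 (by positivity) (by positivity))
              (by positivity) (by positivity)
        _ = _ := by ring
    rw [hexp]
    simp only [map_sum]
    refine (norm_sum_le _ _).trans ((Finset.sum_le_sum fun e _ => hterm e).trans ?_)
    rw [Finset.sum_const, Finset.card_univ, Fintype.card_coe, nsmul_eq_mul]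
    calc (box.card : ℝ) * ((δ : ℝ) * ((Kb.factorial : ℝ) * (X ^ T₀) ^ Kb * X ^ T₀))
        ≤ ((Kb * δ : ℕ) : ℝ) * ((Kb.factorial : ℝ) * ((X ^ T₀) ^ Kb * X ^ T₀)) := by
          rw [Nat.cast_mul, mul_assoc (Kb : ℝ), mul_assoc (Kb.factorial : ℝ)]
          exact mul_le_mul_of_nonneg_right (by exact_mod_cast hboxcard) (by positivity)
      _ ≤ X * (X * ((X ^ T₀) ^ Kb * X ^ T₀)) :=
          mul_le_mul hXKδ (mul_le_mul_of_nonneg_right hXK (by positivity)) (by positivity) hX0.le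
      _ = X ^ T₁ := by
          rw [← Real.rpow_natCast _ Kb, ← Real.rpow_mul hX0.le, hT₁, ← Real.rpow_add hX0,
            Real.rpow_add hX0 _ 2]
          rw [show ((Kb : ℝ) + 1) * T₀ = T₀ * Kb + T₀ by ring, Real.rpow_two]
          ring
  obtain ⟨S, hSd, hS⟩ := hX₂ X hXmod S₀ hS₀
  let Bad := Z.filter fun z => av z = 0
  let Good : Fin n₀ → Finset (Pt d L) := fun i =>
    Z.filter fun z => ∀ q ∈ S i, ¬ q ∣ Nv z
  have hcover : Z ⊆ Bad ∪ univ.biUnion Good := by
    intro z hz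
    by_cases h0 : av z = 0
    · exact Finset.mem_union_left _ (Finset.mem_filter.2 ⟨hz, h0⟩)
    refine Finset.mem_union_right _ ?_
    by_contra hno
    simp only [Finset.mem_biUnion, Finset.mem_univ, true_and, Good, Finset.mem_filter, hz,
      not_exists] at hno
    push Not at hno
    choose p hp hpN using hno
    have hN0 : Nv z ≠ 0 := Int.natAbs_ne_zero.2 (Algebra.norm_ne_zero_iff.2 h0)
    have hinj : Function.Injective p := by
      intro i j hij
      by_contra hne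
      exact Finset.disjoint_left.1 (hSd i j hne) (hp i) (hij ▸ hp j)
    have hdvd : (∏ i, p i) ∣ Nv z := by
      have h1 := Finset.prod_primes_dvd (s := univ.image p) (Nv z)
        (fun q hq => by
          obtain ⟨i, -, rfl⟩ := Finset.mem_image.1 hq
          exact ((hS i).2.2.1 _ (hp i)).1.1.prime)
        (fun q hq => by
          obtain ⟨i, -, rfl⟩ := Finset.mem_image.1 hq
          exact hpN i)
      rwa [Finset.prod_image (fun i _ j _ h => hinj h)] at h1
    have h1 : X ^ (τ * n₀) ≤ X ^ (T₁ * deg) := by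
      calc X ^ (τ * n₀) = ∏ _i : Fin n₀, X ^ τ := by
            rw [Finset.prod_const, Finset.card_univ, Fintype.card_fin, Real.rpow_mul hX0.le,
              Real.rpow_natCast]
        _ ≤ ((∏ i, p i : ℕ) : ℝ) := by
            push_cast
            exact Finset.prod_le_prod (fun i _ => Real.rpow_nonneg hX0.le _)
              fun i _ => ((hS i).2.2.1 _ (hp i)).2.2.2
        _ ≤ (Nv z : ℝ) := by exact_mod_cast Nat.le_of_dvd (Nat.pos_of_ne_zero hN0) hdvd
        _ ≤ X ^ (T₁ * deg) := by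
            rw [Real.rpow_mul hX0.le, Real.rpow_natCast]
            exact natAbs_norm_le (av z) (hav z hz)
    rw [Real.rpow_le_rpow_left_iff (by linarith)] at h1
    have h2 := (div_lt_iff₀ hτ).1 (Nat.lt_floor_add_one (T₁ * deg / τ))
    have h3 : ((n₀ : ℕ) : ℝ) = (⌊T₁ * deg / τ⌋₊ : ℝ) + 1 := by rw [hn₀]; push_cast; ring
    rw [h3] at h1
    linarith
  have hBad : Bad.card ≤ B₁ * (2 * δ * δ) := by
    refine hsmallcase Bad (Finset.filter_subset _ _) (derivative Gm) hDerndvd hDerδ fun z hz => ?_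
    obtain ⟨-, h0⟩ := Finset.mem_filter.1 hz
    have h1 := map_mapRingHom_evalEval (algebraMap (𝓞 L) L) (derivative G) (u z : 𝓞 L) (v z)
    rw [← derivative_map, show (derivative G).evalEval (u z : 𝓞 L) (v z) = 0 from h0,
      map_zero, map_intCast] at h1
    exact h1
  have hδE1 : ∀ e ∈ E, e.1 ≤ δE ∧ e.2 ≤ δE := fun e he => by
    have h1 : max e.1 e.2 ≤ E.sup fun e => max e.1 e.2 :=
      Finset.le_sup (f := fun e : ℕ × ℕ => max e.1 e.2) he
    omega
  have hGood : ∀ i, ((Good i).card : ℝ) ≤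
      (cK : ℝ) * ((B₁ * (2 * δE * δE) : ℕ) : ℝ) * X ^ (g + η) := by
    intro i
    obtain ⟨hSK, hSdis, hSq, hQlo, hQhi⟩ := hS i
    set Q := ∏ q ∈ S i, q with hQ
    obtain ⟨PS, hPS, hcov, hPW⟩ := exists_refinement D (S i) (fun q hq => (hSq q hq).1) δ 1 Z
      (by convert hrel using 2)
    have hsub : Good i ⊆ PS.biUnion fun U => U ∩ Good i := by
      intro z hz
      obtain ⟨U, hU, hzU⟩ := hcov z (Finset.mem_filter.1 hz).1
      exact Finset.mem_biUnion.2 ⟨U, hU, Finset.mem_inter.2 ⟨hzU, hz⟩⟩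
    have hcell : ∀ U ∈ PS, (U ∩ Good i).card ≤ B₁ * (2 * δE * δE) := by
      intro U hU
      rcases (U ∩ Good i).eq_empty_or_nonempty with h | ⟨z₀, hz₀⟩
      · simp [h]
      have hWZ : ∀ z ∈ U ∩ Good i, z ∈ Z := fun z hz =>
        (Finset.mem_filter.1 (Finset.mem_inter.1 hz).2).1
      have hcw : ∀ z ∈ U ∩ Good i, ((Q : ℕ) : ℤ) ∣ u z - u z₀ ∧
          ((Q : ℕ) : 𝓞 L) ∣ v z - v z₀ := fun z hz =>
        hcong (S i) hSdis (fun q hq => ⟨(hSq q hq).1, (hSq q hq).2.1, (hSq q hq).2.2.1⟩)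
          z (hWZ z hz) z₀ (hWZ z₀ hz₀)
          ((hPW U hU).2 z (Finset.mem_inter.1 hz).1 z₀ (Finset.mem_inter.1 hz₀).1)
      have hsm : IsCoprime ((Q : ℕ) : 𝓞 L) (av z₀) := by
        have h1 : Nat.Coprime Q (Nv z₀) := Nat.Coprime.prod_left fun q hq =>
          ((hSq q hq).1.1.coprime_iff_not_dvd).2
            ((Finset.mem_filter.1 (Finset.mem_inter.1 hz₀).2).2 q hq)
        have h2 := (Nat.isCoprime_iff_coprime.2 h1).map (Int.castRingHom (𝓞 L))
        simp only [map_natCast] at h2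
        exact h2.of_isCoprime_of_dvd_right (dvd_natAbs_norm (av z₀))
      obtain ⟨c, hc, hcz⟩ := exists_cell_relation (β := {z // z ∈ U ∩ Good i}) G (fun z => u z.1)
        (fun z => v z.1) Q ⟨z₀, hz₀⟩ E hC1 hX1 hQlo hE (by linarith)
        (fun z => hub z.1 (hWZ z.1 z.2)) (fun z => hvb z.1 (hWZ z.1 z.2))
        (fun z => hG0 z.1 (hWZ z.1 z.2)) (fun z => (hcw z.1 z.2).1) (fun z => (hcw z.1 z.2).2)
        hsm
      exact card_le_eliminant hF hFdeg (hind c hc) (hFδ.mono (le_max_left _ _))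
        (bDeg_comb E c hδE1) (U ∩ Good i) u (fun z => (v z : L))
        (fun z hz => hzero z (hWZ z hz)) (fun z hz => hcz ⟨z, hz⟩) (hfib' _ hWZ)
    have h1 : (Good i).card ≤ PS.card * (B₁ * (2 * δE * δE)) :=
      (Finset.card_le_card hsub).trans (Finset.card_biUnion_le.trans
        ((Finset.sum_le_sum hcell).trans (le_of_eq (by rw [Finset.sum_const, smul_eq_mul]))))
    have h2 : PS.card ≤ cK * Q := by
      refine hPS.trans ?_
      rw [pow_one]
      exact Nat.mul_le_mul_right _ (Nat.pow_le_pow_right (Nat.one_le_pow _ _ (by omega)) hSK)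
    calc ((Good i).card : ℝ) ≤ ((cK * Q * (B₁ * (2 * δE * δE)) : ℕ) : ℝ) := by
          exact_mod_cast h1.trans (Nat.mul_le_mul_right _ h2)
      _ = (cK : ℝ) * ((B₁ * (2 * δE * δE) : ℕ) : ℝ) * (Q : ℝ) := by push_cast; ring
      _ ≤ _ := mul_le_mul_of_nonneg_left hQhi (by positivity)
  calc (Z.card : ℝ) ≤ ((Bad ∪ univ.biUnion Good).card : ℝ) := by
        exact_mod_cast Finset.card_le_card hcover
    _ ≤ (Bad.card : ℝ) + ∑ i, ((Good i).card : ℝ) := by
        exact_mod_cast (Finset.card_union_le _ _).trans (Nat.add_le_add_left Finset.card_biUnion_le _)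
    _ ≤ ((B₁ * (2 * δ * δ) : ℕ) : ℝ) * X ^ (g + η) +
        ∑ _i : Fin n₀, (cK : ℝ) * ((B₁ * (2 * δE * δE) : ℕ) : ℝ) * X ^ (g + η) :=
        add_le_add (le_trans (by exact_mod_cast hBad)
          (le_mul_of_one_le_right (Nat.cast_nonneg _) hge)) (Finset.sum_le_sum fun i _ => hGood i)
    _ = _ := by
        rw [Finset.sum_const, Finset.card_univ, Fintype.card_fin, nsmul_eq_mul]
        ring

end curve

end Vale.Agent.P018
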