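import Vale.Agent.P018.Relations

/-!
# Residues of point sets satisfying polynomial relations
-/

namespace Vale.Agent.P018

open Finset MvPolynomial

variable {ι : Type*} [DecidableEq ι]

omit [DecidableEq ι] in
lemma eval_eq_of_vars {κ : Type*} [Field κ] (P : MvPolynomial ι κ) (z z' : ι → κ)
    (h : ∀ i ∈ P.vars, z i = z' i) : eval z P = eval z' P :=
  eval₂Hom_congr' rfl (fun i hi _ => h i hi) rfl

/-- Projection forgetting all coordinates outside `M`. -/
noncomputable def proj {κ : Type*} [Zero κ] (M : Finset ι) (z : ι → κ) : ι → κ :=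
  fun i => if i ∈ M then z i else 0

lemma proj_mem {κ : Type*} [Zero κ] {M : Finset ι} (z : ι → κ) {i : ι} (hi : i ∈ M) :
    proj M z i = z i := if_pos hi

lemma eq_of_proj_eq {κ : Type*} [Zero κ] {M : Finset ι} {y : ι} {a b : ι → κ}
    (h : proj (M.erase y) a = proj (M.erase y) b)
    (hy : a y = b y) : ∀ i ∈ M, a i = b i := by
  intro i hi
  by_cases h0 : i = y
  · subst h0; exact hy
  · have h1 := congrFun h i
    rwa [proj_mem _ (Finset.mem_erase.2 ⟨h0, hi⟩), proj_mem _ (Finset.mem_erase.2 ⟨h0, hi⟩)] at h1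

/-- In a fibre of the projection at most `|cand|` points. -/
lemma card_fiber_le {κ : Type*} [DecidableEq κ] [DecidableEq (ι → κ)] [Zero κ] {M : Finset ι}
    (y : ι) {Z : Finset (ι → κ)} (hinj : Set.InjOn (fun (z : ι → κ) (i : M) => z i) (Z : Set (ι → κ)))
    (w : ι → κ) (cand : Finset κ)
    (hc : ∀ z ∈ Z, proj (M.erase y) z = w → z y ∈ cand) :
    (Z.filter fun z => proj (M.erase y) z = w).card ≤ cand.card := by
  refine Finset.card_le_card_of_injOn (fun z : ι → κ => z y) ?_ ?_
  · intro z hz
    rw [Finset.mem_coe, Finset.mem_filter] at hz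
    exact hc z hz.1 hz.2
  · intro a ha b hb hab
    rw [Finset.mem_coe, Finset.mem_filter] at ha hb
    refine hinj ha.1 hb.1 (funext fun i => ?_)
    exact eq_of_proj_eq (ha.2.trans hb.2.symm) hab i i.2

lemma rel_proj {κ : Type*} [Field κ] [DecidableEq (ι → κ)] {δ D : ℕ} {M : Finset ι}
    {W : Finset (ι → κ)} (hr : Rel δ D M W) : Rel δ D M (W.image (proj M)) := by
  intro U hU hUc
  obtain ⟨P, h0, hv, hd, hz⟩ := hr U hU hUc
  refine ⟨P, h0, hv, hd, fun z hzz => ?_⟩
  obtain ⟨w, hw, rfl⟩ := Finset.mem_image.1 hzz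
  rw [eval_eq_of_vars P (proj M w) w (fun i hi => proj_mem w (hU (hv hi)))]
  exact hz w hw

/-- Roots of the relations of a point at which some leading coefficient does not vanish. -/
lemma exists_candidates {κ : Type*} [Field κ] [DecidableEq κ] {δ : ℕ} {M' : Finset ι} (y : ι)
    (hy : y ∉ M') (S : Finset (Finset ι)) (P : Finset ι → MvPolynomial ι κ)
    (hv : ∀ s ∈ S, s ⊆ M' ∧ (P s).vars ⊆ insert y s) (hd : ∀ s ∈ S, (P s).totalDegree ≤ δ)
    (w : ι → κ) :
    ∃ cand : Finset κ, cand.card ≤ S.card * δ ∧ ∀ z : ι → κ, proj M' z = w → ∀ s ∈ S,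
      eval z (P s) = 0 → eval z (rename Subtype.val (splitVar y (P s)).leadingCoeff) ≠ 0 →
      z y ∈ cand := by
  classical
  refine ⟨S.biUnion fun s => (Polynomial.map (eval fun i : {i // i ≠ y} => w i)
    (splitVar y (P s))).roots.toFinset, ?_, ?_⟩
  · refine Finset.card_biUnion_le.trans ((Finset.sum_le_sum (g := fun _ => δ) fun s hs => ?_).trans
      (le_of_eq (by simp)))
    refine (Multiset.toFinset_card_le _).trans ((Polynomial.card_roots' _).trans
      (Polynomial.natDegree_map_le.trans ?_))
    rw [natDegree_splitVar]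
    exact (degreeOf_le_totalDegree _ _).trans (hd s hs)
  · intro z hzw s hs hz hne
    have hcoef : ∀ n, eval (fun i : {i // i ≠ y} => w i) ((splitVar y (P s)).coeff n) =
        eval (fun i : {i // i ≠ y} => z i) ((splitVar y (P s)).coeff n) := by
      intro n
      refine eval_eq_of_vars _ _ _ fun i hi => ?_
      have h1 : (i : ι) ∈ (P s).vars :=
        mem_supported.1 (mem_supported_coeff_splitVar y (P s) n) hi
      have h2 : (i : ι) ∈ s := (Finset.mem_insert.1 ((hv s hs).2 h1)).resolve_left i.2
      rw [← hzw, proj_mem z ((hv s hs).1 h2)]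
    have hmap : Polynomial.map (eval fun i : {i // i ≠ y} => w i) (splitVar y (P s)) =
        Polynomial.map (eval fun i : {i // i ≠ y} => z i) (splitVar y (P s)) := by
      ext n
      rw [Polynomial.coeff_map, Polynomial.coeff_map, hcoef n]
    rw [Finset.mem_biUnion]
    refine ⟨s, hs, ?_⟩
    rw [Multiset.mem_toFinset, Polynomial.mem_roots', hmap, Polynomial.IsRoot.def,
      ← eval_splitVar y z (P s)]
    refine ⟨?_, hz⟩
    intro h0
    apply hne
    have h1 := congrArg (fun p : Polynomial κ => p.coeff (splitVar y (P s)).natDegree) h0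
    simp only [Polynomial.coeff_map, Polynomial.coeff_zero] at h1
    rw [eval_rename]
    exact h1

/-- A point set with values in a `q`-element set whose `D + 1`-tuples of coordinates all satisfy
relations of degree `≤ δ` has at most `O(q ^ D)` elements. -/
theorem card_le_of_rel {κ : Type*} [Field κ] [DecidableEq κ] (δ : ℕ) (F : Finset κ)
    (hF : 1 ≤ F.card) :
    ∀ (m : ℕ) (M : Finset ι) (D : ℕ) (Z : Finset (ι → κ)), M.card = m →
      (∀ z ∈ Z, ∀ i ∈ M, z i ∈ F) →
      (Set.InjOn (fun (z : ι → κ) (i : M) => z i) (Z : Set (ι → κ))) →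
      Rel δ D M Z →
      Z.card ≤ (2 ^ M.card * δ + 2) ^ m * F.card ^ D := by
  classical
  intro m
  induction m with
  | zero =>
    intro M D Z hM _ hinj _
    rw [Finset.card_eq_zero] at hM
    have : Z.card ≤ 1 := by
      rw [Finset.card_le_one]
      intro a ha b hb
      refine hinj ha hb (funext fun i => absurd i.2 ?_)
      simp [hM]
    simp only [pow_zero, one_mul]
    exact this.trans (Nat.one_le_pow _ _ hF)
  | succ m ih =>
    intro M D Z hM hFv hinj hrel
    by_cases hsmall : M.card ≤ D
    · have h1 : Z.card ≤ (Fintype.piFinset fun _ : M => F).card := by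
        refine Finset.card_le_card_of_injOn (fun z i => z i) ?_ hinj
        intro z hz
        rw [Finset.mem_coe, Fintype.mem_piFinset]
        exact fun i => hFv z hz i i.2
      rw [Fintype.card_piFinset, Finset.prod_const, Finset.card_univ, Fintype.card_coe] at h1
      calc Z.card ≤ F.card ^ M.card := h1
        _ ≤ 1 * F.card ^ D := by rw [one_mul]; exact Nat.pow_le_pow_right hF hsmall
        _ ≤ _ := Nat.mul_le_mul_right _ (Nat.one_le_pow _ _ (by omega))
    push Not at hsmall
    obtain ⟨y, hy⟩ : M.Nonempty := Finset.card_pos.1 (by omega)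
    have hM'c : (M.erase y).card = m := by rw [Finset.card_erase_of_mem hy]; omega
    have hM'M : M.erase y ⊆ M := Finset.erase_subset _ _
    have hproj : ∀ (D' : ℕ) (W : Finset (ι → κ)), W ⊆ Z → Rel δ D' (M.erase y) W →
        (W.image (proj (M.erase y))).card ≤
          (2 ^ (M.erase y).card * δ + 2) ^ m * F.card ^ D' := by
      intro D' W hW hr
      refine ih _ D' _ hM'c ?_ ?_ (rel_proj hr)
      · intro z hz i hi
        obtain ⟨w, hw, rfl⟩ := Finset.mem_image.1 hz
        rw [proj_mem w hi]
        exact hFv w (hW hw) i (hM'M hi)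
      · intro a ha b hb hab
        rw [Finset.mem_coe, Finset.mem_image] at ha hb
        obtain ⟨a', _, rfl⟩ := ha
        obtain ⟨b', _, rfl⟩ := hb
        funext i
        by_cases hiM : i ∈ M.erase y
        · exact congrFun hab ⟨i, hiM⟩
        · simp [proj, hiM]
    have hS : ∀ S : Finset ι, ∃ P : MvPolynomial ι κ, S ∈ (M.erase y).powersetCard D →
        P ≠ 0 ∧ P.vars ⊆ insert y S ∧ P.totalDegree ≤ δ ∧ ∀ z ∈ Z, eval z P = 0 := by
      intro S
      by_cases hS : S ∈ (M.erase y).powersetCard D
      · rw [Finset.mem_powersetCard] at hS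
        obtain ⟨P, hP⟩ := hrel (insert y S) (Finset.insert_subset hy (hS.1.trans hM'M)) (by
          rw [Finset.card_insert_of_notMem (fun h => Finset.ne_of_mem_erase (hS.1 h) rfl), hS.2])
        exact ⟨P, fun _ => hP⟩
      · exact ⟨0, fun h => absurd h hS⟩
    choose P hP using hS
    have hlead0 : ∀ S ∈ (M.erase y).powersetCard D,
        rename Subtype.val (splitVar y (P S)).leadingCoeff ≠ 0 := by
      intro S hS h0
      have h1 : (splitVar y (P S)).leadingCoeff = 0 :=
        rename_injective _ Subtype.val_injective (by rw [map_zero]; exact h0)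
      rw [Polynomial.leadingCoeff_eq_zero] at h1
      exact (hP S hS).1 ((map_eq_zero_iff _ (splitVar y).injective).1 h1)
    have hleadv : ∀ S ∈ (M.erase y).powersetCard D,
        (rename Subtype.val (splitVar y (P S)).leadingCoeff).vars ⊆ S := by
      intro S hS
      refine vars_rename_val _ _ (supported_mono ?_ (mem_supported_coeff_splitVar y (P S) _))
      intro x hx
      exact (Finset.mem_insert.1 ((hP S hS).2.1 hx)).resolve_left x.2
    set Good := Z.filter fun z => ∃ S ∈ (M.erase y).powersetCard D,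
      eval z (rename Subtype.val (splitVar y (P S)).leadingCoeff) ≠ 0 with hGood
    set Bad := Z.filter fun z => ¬ ∃ S ∈ (M.erase y).powersetCard D,
      eval z (rename Subtype.val (splitVar y (P S)).leadingCoeff) ≠ 0 with hBad
    have hGZ : Good ⊆ Z := Finset.filter_subset _ _
    have hBZ : Bad ⊆ Z := Finset.filter_subset _ _
    have hG : Good.card ≤ 2 ^ (M.erase y).card * δ *
        ((2 ^ (M.erase y).card * δ + 2) ^ m * F.card ^ D) := by
      refine (Finset.card_le_mul_card_image (f := proj (M.erase y)) Good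
        (2 ^ (M.erase y).card * δ) fun w _ => ?_).trans
        (Nat.mul_le_mul_left _ (hproj D Good hGZ fun U hU hUc => ?_))
      · obtain ⟨cand, hc, hmem⟩ := exists_candidates (δ := δ) (M' := M.erase y) y
          (Finset.notMem_erase _ _) ((M.erase y).powersetCard D) P
          (fun s hs => ⟨(Finset.mem_powersetCard.1 hs).1, (hP s hs).2.1⟩)
          (fun s hs => (hP s hs).2.2.1) w
        refine (card_fiber_le y (hinj.mono (Finset.coe_subset.2 hGZ)) w cand ?_).trans
          (hc.trans (Nat.mul_le_mul_right _ ?_))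
        · intro z hz hzw
          obtain ⟨hzZ, S, hS, hne⟩ := Finset.mem_filter.1 hz
          exact hmem z hzw S hS ((hP S hS).2.2.2 z hzZ) hne
        · rw [Finset.card_powersetCard]; exact Nat.choose_le_two_pow _ _
      · obtain ⟨Q, h0, hv, hd, hz⟩ := hrel U (hU.trans hM'M) hUc
        exact ⟨Q, h0, hv, hd, fun z hz' => hz z (hGZ hz')⟩
    have hB : Bad.card ≤ (2 ^ (M.erase y).card * δ + 2) ^ m * F.card ^ D := by
      rcases Nat.eq_zero_or_pos D with hD | hD
      · have : Bad = ∅ := by
          rw [hBad, Finset.filter_eq_empty_iff]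
          intro z _
          have h0 : (∅ : Finset ι) ∈ (M.erase y).powersetCard D := by simp [hD]
          refine not_not_intro ⟨∅, h0, ?_⟩
          have h1 := hleadv ∅ h0
          rw [Finset.subset_empty, vars_eq_empty_iff_eq_C] at h1
          rw [h1, eval_C]
          intro h2
          exact hlead0 ∅ h0 (by rw [h1, h2, map_zero])
        simp [this]
      obtain ⟨D', rfl⟩ : ∃ D', D = D' + 1 := ⟨D - 1, by omega⟩
      have hr : Rel δ D' (M.erase y) Bad := by
        intro U hU hUc
        have hU' : U ∈ (M.erase y).powersetCard (D' + 1) := Finset.mem_powersetCard.2 ⟨hU, hUc⟩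
        refine ⟨_, hlead0 U hU', hleadv U hU', (totalDegree_rename_le _ _).trans
          ((totalDegree_coeff_splitVar y _ _).trans (hP U hU').2.2.1), fun z hz => ?_⟩
        have := (Finset.mem_filter.1 hz).2
        push Not at this
        exact this U hU'
      refine (Finset.card_le_mul_card_image (f := proj (M.erase y)) Bad F.card fun w _ => ?_).trans
        ((Nat.mul_le_mul_left _ (hproj D' Bad hBZ hr)).trans (le_of_eq (by ring)))
      exact card_fiber_le y (hinj.mono (Finset.coe_subset.2 hBZ)) w F
        fun z hz _ => hFv z (hBZ hz) y hy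
    have h2 : 2 ^ (M.erase y).card ≤ 2 ^ M.card :=
      Nat.pow_le_pow_right (by omega) (Finset.card_le_card hM'M)
    have h3 : 2 ^ (M.erase y).card * δ ≤ 2 ^ M.card * δ := Nat.mul_le_mul_right _ h2
    have hle : (2 ^ (M.erase y).card * δ + 2) ^ m * (2 ^ (M.erase y).card * δ + 1) ≤
        (2 ^ M.card * δ + 2) ^ (m + 1) := by
      rw [pow_succ]
      exact Nat.mul_le_mul (Nat.pow_le_pow_left (by omega) _) (by omega)
    calc Z.card = Good.card + Bad.card := (Finset.card_filter_add_card_filter_not _).symm
      _ ≤ _ := Nat.add_le_add hG hB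
      _ = (2 ^ (M.erase y).card * δ + 2) ^ m * (2 ^ (M.erase y).card * δ + 1) * F.card ^ D := by
          ring
      _ ≤ _ := Nat.mul_le_mul_right _ hle

/-- Residues modulo a valuation of a point set satisfying relations. -/
theorem card_residues_le {L : Type*} [Field L] [Fintype ι] (V : ValuationSubring L) (δ D : ℕ)
    (Z : Finset (ι → L)) (hrel : Rel δ D univ Z) (hZ : ∀ z ∈ Z, ∀ i, z i ∈ V)
    (F : Finset (IsLocalRing.ResidueField V)) (hF : 1 ≤ F.card)
    (red : (ι → L) → (ι → IsLocalRing.ResidueField V))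
    (hred : ∀ z ∈ Z, ∀ i, ∀ hv : z i ∈ V, red z i = IsLocalRing.residue V ⟨z i, hv⟩)
    (hval : ∀ z ∈ Z, ∀ i, red z i ∈ F) [DecidableEq (IsLocalRing.ResidueField V)] :
    (Z.image red).card ≤
      (2 ^ Fintype.card ι * δ + 2) ^ Fintype.card ι * F.card ^ D := by
  classical
  refine card_le_of_rel δ F hF (Fintype.card ι) univ D _ Finset.card_univ ?_ ?_ ?_
  · intro z hz i _
    obtain ⟨w, hw, rfl⟩ := Finset.mem_image.1 hz
    exact hval w hw i
  · intro a _ b _ hab
    funext i
    exact congrFun hab ⟨i, Finset.mem_univ _⟩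
  · intro U hU hUc
    obtain ⟨P, hP0, hPv, hPd, hPz⟩ := hrel U hU hUc
    obtain ⟨m0, hm0, hmax⟩ := Finset.exists_max_image P.support (fun m => V.valuation (P.coeff m))
      (by rwa [MvPolynomial.support_nonempty])
    have hc0 : P.coeff m0 ≠ 0 := mem_support_iff.1 hm0
    have hmem : ∀ m, P.coeff m * (P.coeff m0)⁻¹ ∈ V := by
      intro m
      rw [← V.valuation_le_one_iff, map_mul, map_inv₀,
        mul_inv_le_iff₀ (zero_lt_iff.2 ((V.valuation.ne_zero_iff).2 hc0)), one_mul]
      by_cases h : m ∈ P.support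
      · exact hmax m h
      · rw [notMem_support_iff.1 h]; simp
    let Q : MvPolynomial ι (IsLocalRing.ResidueField V) := ∑ m ∈ P.support,
      monomial m (IsLocalRing.residue V ⟨_, hmem m⟩)
    have hQc : ∀ m ∈ P.support, Q.coeff m = IsLocalRing.residue V ⟨_, hmem m⟩ := by
      intro m hm
      simp only [Q, coeff_sum, coeff_monomial]
      rw [Finset.sum_ite_eq' P.support m]
      simp [hm]
    have hQs : Q.support ⊆ P.support := by
      intro m hm
      rw [mem_support_iff] at hm
      by_contra h
      apply hm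
      simp only [Q, coeff_sum, coeff_monomial]
      rw [Finset.sum_ite_eq' P.support m]
      simp [h]
    refine ⟨Q, ?_, ?_, ?_, ?_⟩
    · intro h0
      have h1 := hQc m0 hm0
      rw [h0, coeff_zero] at h1
      have : (⟨_, hmem m0⟩ : V) = 1 := Subtype.ext (mul_inv_cancel₀ hc0)
      rw [this, map_one] at h1
      exact zero_ne_one h1
    · intro i hi
      rw [mem_vars_iff_mem_support] at hi
      obtain ⟨m, hm, him⟩ := hi
      exact hPv ((mem_vars_iff_mem_support i).2 ⟨m, hQs hm, him⟩)
    · exact le_trans (Finset.sup_mono hQs) hPd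
    · intro z hz
      obtain ⟨w, hw, rfl⟩ := Finset.mem_image.1 hz
      have e : ∀ i, red w i = IsLocalRing.residue V ⟨w i, hZ w hw i⟩ := fun i => hred w hw i _
      have h1 : (∑ m ∈ P.support, (⟨_, hmem m⟩ : V) * ∏ i, (⟨w i, hZ w hw i⟩ : V) ^ m i) = 0 := by
        apply Subtype.ext
        push_cast
        have h2 := hPz w hw
        rw [eval_eq'] at h2
        have h3 : ∀ m ∈ P.support, P.coeff m * (P.coeff m0)⁻¹ * ∏ i, w i ^ m i =
            (P.coeff m0)⁻¹ * (P.coeff m * ∏ i, w i ^ m i) := fun m _ => by ring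
        rw [Finset.sum_congr rfl h3, ← Finset.mul_sum, h2, mul_zero]
      have h2 := congrArg (IsLocalRing.residue V) h1
      simp only [map_sum, map_mul, map_prod, map_pow, map_zero, ← e] at h2
      simp only [Q, map_sum, eval_monomial]
      rw [← h2]
      refine Finset.sum_congr rfl fun m _ => ?_
      congr 1
      exact Finsupp.prod_fintype _ _ (fun i => pow_zero _)

end Vale.Agent.P018
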