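import Mathlib

/-!
# Interface definitions for the determinant method in `(n, ρ₁, …, ρ_d)`

`L` is a number field containing the roots `θ i` of the monic polynomial `g`.
A point is a triple `(m, c, μ)` with `m` an integer, `c` the coefficient vector of
`ρ = ∑ c l θ^l` and `μ i * ρ_i ^ k = R * (m - θ i)` with `μ i` an algebraic integer.
-/

namespace Vale.Agent.P018

open NumberField Polynomial

/-- A monic integer polynomial of degree `d`, split in the number field `L`, with its roots. -/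
structure RootData (d : ℕ) (L : Type) [Field L] [NumberField L] where
  g : ℤ[X]
  monic : g.Monic
  natDegree_eq : g.natDegree = d
  θ : Fin d → 𝓞 L
  inj : Function.Injective θ
  split : g.map (algebraMap ℤ (𝓞 L)) = ∏ i, (Polynomial.X - Polynomial.C (θ i))
  indep : ∀ (i : Fin d) (c : Fin d → ℤ), (∑ l, (c l : 𝓞 L) * θ i ^ (l : ℕ)) = 0 → c = 0

/-- A point of the auxiliary variety. -/
structure Pt (d : ℕ) (L : Type) [Field L] [NumberField L] where
  m : ℤ
  c : Fin d → ℤ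
  μ : Fin d → 𝓞 L

namespace RootData

variable {d : ℕ} {L : Type} [Field L] [NumberField L] (D : RootData d L)

/-- The `i`-th conjugate of `ρ`. -/
noncomputable def ρ (z : Pt d L) (i : Fin d) : 𝓞 L :=
  ∑ l, (z.c l : 𝓞 L) * D.θ i ^ (l : ℕ)

/-- The coordinate vector `(m, ρ₁, …, ρ_d)` in `L`. -/
noncomputable def coord (z : Pt d L) : Option (Fin d) → L
  | none => (z.m : L)
  | some i => (D.ρ z i : L)

/-- The algebraic constraints on a point. -/
structure IsPt (k : ℕ) (R : ℤ) (z : Pt d L) : Prop where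
  rel : ∀ i, z.μ i * D.ρ z i ^ k = (R : 𝓞 L) * ((z.m : 𝓞 L) - D.θ i)
  ne : ∀ i, D.ρ z i ≠ 0

/-- Archimedean size conditions: `|m| ≤ C X`, `|ρ_i| ≤ C X^A`, `|μ_i| ≤ C X^M`, `|c_l| ≤ C X^A`
in every embedding. -/
structure Bdd (C X A M : ℝ) (z : Pt d L) : Prop where
  m_le : |(z.m : ℝ)| ≤ C * X
  c_le : ∀ l, |(z.c l : ℝ)| ≤ C * X ^ A
  ρ_le : ∀ (φ : L →+* ℂ) i, ‖φ (D.ρ z i : L)‖ ≤ C * X ^ A
  μ_le : ∀ (φ : L →+* ℂ) i, ‖φ (z.μ i : L)‖ ≤ C * X ^ M

/-- `Q` is coprime to every conjugate of `ρ`. -/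
def Coprime (Q : ℕ) (z : Pt d L) : Prop :=
  ∀ i, IsCoprime (Q : 𝓞 L) (D.ρ z i)

end RootData

/-- Two points lie in the same cell modulo `Q`. -/
def Pt.Cong {d : ℕ} {L : Type} [Field L] [NumberField L] (Q : ℕ) (z z' : Pt d L) : Prop :=
  (Q : ℤ) ∣ z.m - z'.m ∧ ∀ l, (Q : ℤ) ∣ z.c l - z'.c l

/-- A prime `q` splits `g` completely with distinct roots. -/
def SplitPrime (d : ℕ) (g : ℤ[X]) (q : ℕ) : Prop :=
  q.Prime ∧ ∃ r : Fin d → ZMod q, Function.Injective r ∧
    g.map (Int.castRingHom (ZMod q)) = ∏ i, (Polynomial.X - Polynomial.C (r i))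

end Vale.Agent.P018
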