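import Mathlib

/-!
# Power-free values of polynomials: local densities
-/

namespace Vale.Agent.P018

open Polynomial

/-- The number of residues `a` modulo `q` with `f a ≡ 0 (mod q)`. -/
noncomputable def rho (f : ℤ[X]) (q : ℕ) : ℕ :=
  ((Finset.range q).filter fun a : ℕ => (q : ℤ) ∣ f.eval (a : ℤ)).card

lemma rho_le_self (f : ℤ[X]) (q : ℕ) : rho f q ≤ q :=
  (Finset.card_filter_le _ _).trans (by simp)

lemma dvd_eval_mod (f : ℤ[X]) (q n : ℕ) :
    (q : ℤ) ∣ f.eval ((n % q : ℕ) : ℤ) ↔ (q : ℤ) ∣ f.eval (n : ℤ) := by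
  have h1 : (q : ℤ) ∣ (n : ℤ) - ((n % q : ℕ) : ℤ) := by
    refine ⟨((n / q : ℕ) : ℤ), ?_⟩
    have := Nat.mod_add_div n q
    have h2 : ((n % q : ℕ) : ℤ) + (q : ℤ) * ((n / q : ℕ) : ℤ) = (n : ℤ) := by exact_mod_cast this
    linarith
  exact (dvd_iff_dvd_of_dvd_sub (h1.trans (sub_dvd_eval_sub _ _ f))).symm

lemma exists_bezout (f : ℤ[X]) (hd : 1 ≤ f.natDegree) (hf : Irreducible (f.map (Int.castRingHom ℚ))) :
    ∃ (a b : ℤ[X]) (R : ℤ), R ≠ 0 ∧ f * a + derivative f * b = C R := by
  have hinj : Function.Injective (Int.castRingHom ℚ) := Int.cast_injective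
  obtain ⟨a, b, -, -, e⟩ := exists_mul_add_mul_eq_C_resultant f (derivative f) le_rfl le_rfl
    (Or.inl (by omega))
  refine ⟨a, b, _, ?_, e⟩
  intro h
  have hco : IsCoprime (f.map (Int.castRingHom ℚ)) (derivative f |>.map (Int.castRingHom ℚ)) := by
    rw [← derivative_map]
    exact hf.separable
  have h2 := resultant_ne_zero _ _ hco
  apply h2
  rw [natDegree_map_eq_of_injective hinj, natDegree_map_eq_of_injective hinj,
    resultant_map_map, h, map_zero]

lemma rho_prime_le_natDegree (f : ℤ[X]) (a b : ℤ[X]) (R : ℤ)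
    (e : f * a + derivative f * b = C R) {p : ℕ} (hp : p.Prime) (hR : ¬ (p : ℤ) ∣ R) :
    rho f p ≤ f.natDegree := by
  have : Fact p.Prime := ⟨hp⟩
  set g := f.map (Int.castRingHom (ZMod p)) with hg
  have hg0 : g ≠ 0 := by
    intro h0
    apply hR
    have := congrArg (Polynomial.map (Int.castRingHom (ZMod p))) e
    rw [Polynomial.map_add, Polynomial.map_mul, Polynomial.map_mul, ← derivative_map, ← hg, h0,
      map_C, derivative_zero, zero_mul, zero_mul, add_zero] at this
    have h3 : ((R : ZMod p)) = 0 := C_eq_zero.1 this.symm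
    exact (ZMod.intCast_zmod_eq_zero_iff_dvd R p).1 h3
  calc rho f p ≤ g.roots.toFinset.card := by
        refine Finset.card_le_card_of_injOn (fun a : ℕ => (a : ZMod p)) ?_ ?_
        · intro x hx
          simp only [Finset.coe_filter, Set.mem_ofPred_eq] at hx
          rw [Finset.mem_coe, Multiset.mem_toFinset, mem_roots hg0, IsRoot.def]
          have : (x : ZMod p) = ((x : ℤ) : ZMod p) := by simp
          beta_reduce
          rw [this, hg, eval_intCast_map]
          simpa using (ZMod.intCast_zmod_eq_zero_iff_dvd _ p).2 hx.2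
        · intro x hx y hy hxy
          simp only [Finset.coe_filter, Set.mem_ofPred_eq, Finset.mem_range] at hx hy
          have := (ZMod.natCast_eq_natCast_iff' x y p).1 hxy
          rwa [Nat.mod_eq_of_lt hx.1, Nat.mod_eq_of_lt hy.1] at this
    _ ≤ Multiset.card g.roots := Multiset.toFinset_card_le _
    _ ≤ g.natDegree := card_roots' g
    _ ≤ f.natDegree := natDegree_map_le

lemma rho_pow_le_rho (f : ℤ[X]) (a b : ℤ[X]) (R : ℤ)
    (e : f * a + derivative f * b = C R) {p : ℕ} (hp : p.Prime) (hR : ¬ (p : ℤ) ∣ R)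
    {k : ℕ} (hk : k ≠ 0) : rho f (p ^ k) ≤ rho f p := by
  refine Finset.card_le_card_of_injOn (fun a : ℕ => a % p) ?_ ?_
  · intro x hx
    simp only [Finset.coe_filter, Set.mem_ofPred_eq, Finset.mem_range] at hx ⊢
    refine ⟨Nat.mod_lt _ hp.pos, (dvd_eval_mod f p x).2 ?_⟩
    refine dvd_trans ?_ hx.2
    push_cast
    exact dvd_pow_self _ hk
  · intro x hx y hy hxy
    simp only [Finset.coe_filter, Set.mem_ofPred_eq, Finset.mem_range] at hx hy
    set t : ℤ := (x : ℤ) - y with ht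
    obtain ⟨c, hc⟩ := binomExpansion f (y : ℤ) t
    have hxy' : (y : ℤ) + t = x := by rw [ht]; ring
    rw [hxy'] at hc
    have hpt : (p : ℤ) ∣ t := by
      have := (ZMod.natCast_eq_natCast_iff' y x p).2 hxy.symm
      rw [← ZMod.intCast_zmod_eq_zero_iff_dvd, ht]
      push_cast
      rw [this, sub_self]
    have hpk : ((p : ℤ)) ^ k ∣ t * ((derivative f).eval (y : ℤ) + c * t) := by
      have h1 : ((p ^ k : ℕ) : ℤ) ∣ f.eval (x : ℤ) - f.eval (y : ℤ) := dvd_sub hx.2 hy.2
      push_cast at h1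
      have h2 : f.eval (x : ℤ) - f.eval (y : ℤ) = t * ((derivative f).eval (y : ℤ) + c * t) := by
        rw [hc]; ring
      rwa [h2] at h1
    have hnd : ¬ (p : ℤ) ∣ (derivative f).eval (y : ℤ) + c * t := by
      intro hdiv
      have h1 : (p : ℤ) ∣ (derivative f).eval (y : ℤ) :=
        (dvd_add_left (dvd_mul_of_dvd_right hpt c)).1 hdiv
      have h2 : (p : ℤ) ∣ f.eval (y : ℤ) := by
        refine dvd_trans ?_ hy.2
        push_cast
        exact dvd_pow_self _ hk
      apply hR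
      have h3 := congrArg (Polynomial.eval (y : ℤ)) e
      simp only [eval_add, eval_mul, eval_C] at h3
      rw [← h3]
      exact dvd_add (dvd_mul_of_dvd_left h2 _) (dvd_mul_of_dvd_left h1 _)
    have hp' : Prime (p : ℤ) := Nat.prime_iff_prime_int.1 hp
    have hco : IsCoprime ((p : ℤ) ^ k) ((derivative f).eval (y : ℤ) + c * t) :=
      ((hp'.coprime_iff_not_dvd).2 hnd).pow_left
    have h4 : ((p : ℤ) ^ k) ∣ t := hco.dvd_of_dvd_mul_right hpk
    have h5 : ((x : ℤ) - y).natAbs < ((p : ℤ) ^ k).natAbs := by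
      rw [Int.natAbs_pow, Int.natAbs_natCast]
      omega
    have h6 := Int.eq_zero_of_dvd_of_natAbs_lt_natAbs h4 h5
    omega

lemma exists_rho_bound (f : ℤ[X]) (hd : 1 ≤ f.natDegree)
    (hf : Irreducible (f.map (Int.castRingHom ℚ))) {k : ℕ} (hk : k ≠ 0) :
    ∃ C : ℕ, ∀ p : ℕ, p.Prime → rho f (p ^ k) ≤ C := by
  obtain ⟨a, b, R, hR, e⟩ := exists_bezout f hd hf
  refine ⟨max f.natDegree (R.natAbs ^ k), fun p hp => ?_⟩
  by_cases hdiv : (p : ℤ) ∣ R
  · have h1 : p ≤ R.natAbs :=
      Nat.le_of_dvd (Int.natAbs_pos.2 hR) (Int.natCast_dvd.1 hdiv)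
    exact (rho_le_self f _).trans ((Nat.pow_le_pow_left h1 k).trans (le_max_right _ _))
  · exact ((rho_pow_le_rho f a b R e hp hdiv hk).trans
      (rho_prime_le_natDegree f a b R e hp hdiv)).trans (le_max_left _ _)

end Vale.Agent.P018
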