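import Mathlib
import Vale.Agent.P018.Defs

/-!
# A polynomial whose prime divisors split `g`
-/

namespace Vale.Agent.P018

open NumberField Polynomial

variable {d : ℕ} {L : Type} [Field L] [NumberField L]

lemma exists_multiple_aeval (α : 𝓞 L) (hgen : Algebra.adjoin ℚ {(α : L)} = ⊤) (y : 𝓞 L) :
    ∃ (b : ℤ) (G : ℤ[X]), b ≠ 0 ∧ (b : 𝓞 L) * y = aeval α G := by
  have hm : (y : L) ∈ Algebra.adjoin ℚ {(α : L)} := hgen ▸ Algebra.mem_top
  rw [Algebra.adjoin_singleton_eq_range_aeval] at hm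
  obtain ⟨P, hP⟩ := hm
  obtain ⟨b, hb, hbP⟩ := IsLocalization.integerNormalization_spec (nonZeroDivisors ℤ) P
  refine ⟨b, IsLocalization.integerNormalization (nonZeroDivisors ℤ) P,
    mem_nonZeroDivisors_iff_ne_zero.1 hb, ?_⟩
  apply RingOfIntegers.ext
  have h2 := congrArg (Polynomial.aeval (α : L)) hbP
  rw [Polynomial.aeval_map_algebraMap, map_zsmul] at h2
  have h3 : Polynomial.aeval (α : L) P = (y : L) := hP
  rw [h3, zsmul_eq_mul] at h2
  change algebraMap (𝓞 L) L ((b : 𝓞 L) * y) = algebraMap (𝓞 L) L _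
  rw [map_mul, map_intCast, ← Polynomial.aeval_algebraMap_apply]
  exact h2.symm

lemma exists_intMultiple {A : Type} [CommRing A] [IsDomain A] [CharZero A] (x : A)
    (hx : IsIntegral ℤ x) (h0 : x ≠ 0) : ∃ (b : ℤ) (y : A), b ≠ 0 ∧ x * y = (b : A) := by
  have hsum := X_mul_divX_add (minpoly ℤ x)
  refine ⟨(minpoly ℤ x).coeff 0, -aeval x (minpoly ℤ x).divX, ?_, ?_⟩
  · intro hc
    rw [hc, map_zero, add_zero] at hsum
    have hm : (minpoly ℤ x).divX.Monic := by
      have h1 := minpoly.monic hx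
      rw [← hsum] at h1
      exact monic_X.of_mul_monic_left h1
    have h2 : aeval x (minpoly ℤ x).divX = 0 := by
      have h1 := congrArg (aeval x) hsum
      rw [minpoly.aeval, map_mul, aeval_X] at h1
      exact (mul_eq_zero.1 h1).resolve_left h0
    have h3 := natDegree_le_natDegree (minpoly.min ℤ x hm h2)
    have h4 := minpoly.natDegree_pos hx
    rw [natDegree_divX_eq_natDegree_tsub_one] at h3
    omega
  · have h := congrArg (aeval x) hsum
    rw [minpoly.aeval, map_add, map_mul, aeval_X, aeval_C, algebraMap_int_eq, eq_intCast] at h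
    linear_combination -h

lemma exists_generator : ∃ α : 𝓞 L, Algebra.adjoin ℚ {(α : L)} = ⊤ := by
  obtain ⟨x, hx⟩ := Field.exists_primitive_element ℚ L
  have halg : IsAlgebraic ℤ x :=
    (IsFractionRing.isAlgebraic_iff ℤ ℚ L).2 (Algebra.IsAlgebraic.isAlgebraic x)
  obtain ⟨y, hy0, hyint⟩ := IsAlgebraic.exists_integral_multiple halg
  refine ⟨⟨y • x, hyint⟩, ?_⟩
  have h1 : Algebra.adjoin ℚ {x} = ⊤ := by
    have := IntermediateField.adjoin_simple_toSubalgebra_of_isAlgebraic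
      (Algebra.IsAlgebraic.isAlgebraic (R := ℚ) x)
    rw [hx, IntermediateField.top_toSubalgebra] at this
    exact this.symm
  rw [eq_top_iff, ← h1]
  refine Algebra.adjoin_le ?_
  intro z hz
  rw [Set.mem_singleton_iff] at hz
  rw [hz]
  have h3 := Subalgebra.smul_mem _ (Algebra.subset_adjoin (R := ℚ) (Set.mem_singleton (y • x)))
    (y : ℚ)⁻¹
  rw [← Int.cast_smul_eq_zsmul ℚ y x, smul_smul, inv_mul_cancel₀ (by exact_mod_cast hy0),
    one_smul] at h3
  rw [← Int.cast_smul_eq_zsmul ℚ y x] at hyint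
  simpa [Int.cast_smul_eq_zsmul] using h3

lemma splitPrime_of_hom {A : Type} [CommRing A] (g : ℤ[X]) (a : Fin d → A) (b0 c : ℤ) (z : A)
    (hz : (∏ i, ∏ j ∈ Finset.univ.erase i, (a i - a j)) * z = (c : A))
    (hident : ∏ i, (C (b0 : A) * X - C (a i)) =
      C (((b0 ^ d : ℤ)) : A) * g.map (algebraMap ℤ A))
    {q : ℕ} [Fact q.Prime] (ψ : A →+* ZMod q) (hb0q : (b0 : ZMod q) ≠ 0)
    (hcq : (c : ZMod q) ≠ 0) : SplitPrime d g q := by
  classical
  refine ⟨Fact.out, fun i => (b0 : ZMod q)⁻¹ * ψ (a i), fun i j hij => ?_, ?_⟩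
  · by_contra hne
    have h1 : ψ (a i - a j) = 0 := by
      rw [map_sub, sub_eq_zero]
      exact mul_left_cancel₀ (inv_ne_zero hb0q) hij
    have h2 : ψ (∏ i, ∏ j ∈ Finset.univ.erase i, (a i - a j)) = 0 := by
      rw [map_prod]
      refine Finset.prod_eq_zero (Finset.mem_univ i) ?_
      rw [map_prod]
      exact Finset.prod_eq_zero (Finset.mem_erase.2 ⟨Ne.symm hne, Finset.mem_univ j⟩) h1
    have h3 := congrArg ψ hz
    rw [map_mul, h2, zero_mul, map_intCast] at h3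
    exact hcq h3.symm
  · have h1 := congrArg (Polynomial.map ψ) hident
    rw [Polynomial.map_mul, Polynomial.map_prod, map_map, Polynomial.map_C,
      show ψ.comp (algebraMap ℤ A) = Int.castRingHom (ZMod q) from Subsingleton.elim _ _] at h1
    simp only [Polynomial.map_sub, Polynomial.map_mul, Polynomial.map_C, Polynomial.map_X] at h1
    simp only [map_pow, map_intCast ψ, Int.cast_pow] at h1
    have h2 : ∏ i, (C (b0 : ZMod q) * X - C (ψ (a i))) =
        C ((b0 : ZMod q) ^ d) * ∏ i, (X - C ((b0 : ZMod q)⁻¹ * ψ (a i))) := by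
      calc ∏ i, (C (b0 : ZMod q) * X - C (ψ (a i)))
          = ∏ i, C (b0 : ZMod q) * (X - C ((b0 : ZMod q)⁻¹ * ψ (a i))) := by
            refine Finset.prod_congr rfl fun i _ => ?_
            rw [mul_sub, ← C_mul, ← mul_assoc, mul_inv_cancel₀ hb0q, one_mul]
        _ = _ := by
            rw [Finset.prod_mul_distrib, Finset.prod_const, Finset.card_univ, Fintype.card_fin,
              ← C_pow]
    rw [h2] at h1
    rw [← C_pow] at h1
    exact (mul_left_cancel₀ (C_ne_zero.2 (pow_ne_zero _ hb0q)) h1).symm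

lemma exists_ring_data (D : RootData d L) {A : Type} [CommRing A] [IsDomain A] [CharZero A]
    (ι : A →+* 𝓞 L) (hι : Function.Injective ι) (hint : ∀ x : A, IsIntegral ℤ x)
    (a : Fin d → A) (b0 : ℤ) (hb0 : b0 ≠ 0) (ha : ∀ i, ι (a i) = (b0 : 𝓞 L) * D.θ i) :
    ∃ (c : ℤ) (z : A), c ≠ 0 ∧
      (∏ i, ∏ j ∈ Finset.univ.erase i, (a i - a j)) * z = (c : A) ∧
      ∏ i, (C (b0 : A) * X - C (a i)) = C (((b0 ^ d : ℤ)) : A) * D.g.map (algebraMap ℤ A) := by
  classical
  have hainj : Function.Injective a := fun i j hij => by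
    have h1 := congrArg ι hij
    rw [ha, ha] at h1
    exact D.inj (mul_left_cancel₀ (Int.cast_ne_zero.2 hb0) h1)
  have hΔ0 : (∏ i, ∏ j ∈ Finset.univ.erase i, (a i - a j)) ≠ 0 :=
    Finset.prod_ne_zero_iff.2 fun i _ => Finset.prod_ne_zero_iff.2
      fun j hj h => (Finset.mem_erase.1 hj).1 (hainj (sub_eq_zero.1 h)).symm
  obtain ⟨c, z, hc, hz⟩ := exists_intMultiple _ (hint _) hΔ0
  refine ⟨c, z, hc, hz, ?_⟩
  apply Polynomial.map_injective ι hι
  rw [Polynomial.map_mul, Polynomial.map_C, Polynomial.map_prod, map_map,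
    show ι.comp (algebraMap ℤ A) = algebraMap ℤ (𝓞 L) from Subsingleton.elim _ _, D.split]
  simp only [Polynomial.map_sub, Polynomial.map_mul, Polynomial.map_C, Polynomial.map_X, ha]
  simp only [map_intCast ι]
  calc ∏ i, (C (b0 : 𝓞 L) * X - C ((b0 : 𝓞 L) * D.θ i))
      = ∏ i, C (b0 : 𝓞 L) * (X - C (D.θ i)) :=
        Finset.prod_congr rfl fun i _ => by rw [C_mul]; ring
    _ = _ := by
        rw [Finset.prod_mul_distrib, Finset.prod_const, Finset.card_univ, Fintype.card_fin,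
          ← C_pow, Int.cast_pow]

lemma exists_scaled (D : RootData d L) (α : 𝓞 L) (hgen : Algebra.adjoin ℚ {(α : L)} = ⊤) :
    ∃ b0 : ℤ, b0 ≠ 0 ∧ ∀ i, (b0 : 𝓞 L) * D.θ i ∈ Algebra.adjoin ℤ ({α} : Set (𝓞 L)) := by
  classical
  choose b G hb hG using fun i => exists_multiple_aeval α hgen (D.θ i)
  refine ⟨∏ i, b i, Finset.prod_ne_zero_iff.2 fun i _ => hb i, fun i => ?_⟩
  rw [← Finset.prod_erase_mul _ b (Finset.mem_univ i), Int.cast_mul, mul_assoc, hG]
  refine mul_mem (intCast_mem _ _) ?_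
  rw [Algebra.adjoin_singleton_eq_range_aeval]
  exact ⟨G i, rfl⟩

theorem exists_splitting_poly (D : RootData d L) :
    ∃ (h : ℤ[X]) (B : ℤ), h.Monic ∧ 1 ≤ h.natDegree ∧ Irreducible (h.map (Int.castRingHom ℚ)) ∧
      B ≠ 0 ∧ ∀ q : ℕ, q.Prime → ¬ (q : ℤ) ∣ B → ∀ n : ℤ, (q : ℤ) ∣ h.eval n →
        SplitPrime d D.g q := by
  obtain ⟨α, hgen⟩ := exists_generator (L := L)
  obtain ⟨b0, hb00, hmem⟩ := exists_scaled D α hgen
  obtain ⟨c, z, hc, hz, hident⟩ := exists_ring_data D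
    (A := Algebra.adjoin ℤ ({α} : Set (𝓞 L))) (Algebra.adjoin ℤ ({α} : Set (𝓞 L))).val.toRingHom
    Subtype.val_injective
    (fun x => (isIntegral_algHom_iff (Algebra.adjoin ℤ ({α} : Set (𝓞 L))).val
      Subtype.val_injective).1 (RingOfIntegers.isIntegral _))
    (fun i => ⟨_, hmem i⟩) b0 hb00 (fun i => rfl)
  set a : Fin d → Algebra.adjoin ℤ ({α} : Set (𝓞 L)) := fun i => ⟨_, hmem i⟩
  have hαint : IsIntegral ℤ α := RingOfIntegers.isIntegral α
  refine ⟨minpoly ℤ α, b0 * c, minpoly.monic hαint, minpoly.natDegree_pos hαint,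
    (IsPrimitive.Int.irreducible_iff_irreducible_map_cast
      (minpoly.monic hαint).isPrimitive).1 (minpoly.irreducible hαint),
    mul_ne_zero hb00 hc, fun q hq hqB n hn => ?_⟩
  have : Fact q.Prime := ⟨hq⟩
  have hev : (minpoly ℤ α).eval₂ (Int.castRingHom (ZMod q)) (n : ZMod q) = 0 := by
    rw [← eval_map, eval_intCast_map]
    simpa using (ZMod.intCast_zmod_eq_zero_iff_dvd _ q).2 hn
  exact splitPrime_of_hom D.g a b0 c z hz hident
    ((AdjoinRoot.lift (Int.castRingHom (ZMod q)) (n : ZMod q) hev).comp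
      (minpoly.equivAdjoin hαint).symm.toRingEquiv.toRingHom)
    (fun h0 => hqB (((ZMod.intCast_zmod_eq_zero_iff_dvd _ q).1 h0).mul_right c))
    (fun h0 => hqB (((ZMod.intCast_zmod_eq_zero_iff_dvd _ q).1 h0).mul_left b0))

end Vale.Agent.P018
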