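import Mathlib
import Vale.Agent.P018.Defs
import Vale.Agent.P018.Local
import Vale.Agent.P018.SplitLift
import Vale.Agent.P003.Mertens

/-!
# Many split primes of polynomial size
-/

namespace Vale.Agent.P018

open NumberField Polynomial

lemma eval_bounds (h : ℤ[X]) (hm : h.Monic) :
    ∃ C : ℝ, 1 ≤ C ∧ (∀ x : ℝ, 1 ≤ x → |h.eval₂ (Int.castRingHom ℝ) x| ≤ C * x ^ h.natDegree) ∧
      ∀ x : ℝ, 2 * C ≤ x → x ^ h.natDegree / 2 ≤ |h.eval₂ (Int.castRingHom ℝ) x| := by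
  set e := h.natDegree with he
  set C : ℝ := 1 + ∑ i ∈ Finset.range e, |((h.coeff i : ℤ) : ℝ)| with hC
  have hC1 : 1 ≤ C := le_add_of_nonneg_right (by positivity)
  have hev : ∀ x : ℝ, h.eval₂ (Int.castRingHom ℝ) x =
      x ^ e + ∑ i ∈ Finset.range e, ((h.coeff i : ℤ) : ℝ) * x ^ i := by
    intro x
    rw [eval₂_eq_sum_range, Finset.sum_range_succ, add_comm]
    congr 1
    · simp [he, hm.coeff_natDegree]
  refine ⟨C, hC1, fun x hx => ?_, fun x hx => ?_⟩
  · rw [hev]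
    refine (abs_add_le _ _).trans ?_
    rw [hC, add_mul, one_mul, abs_of_nonneg (show (0 : ℝ) ≤ x ^ e by positivity)]
    refine add_le_add le_rfl ((Finset.abs_sum_le_sum_abs _ _).trans ?_)
    rw [Finset.sum_mul]
    refine Finset.sum_le_sum fun i hi => ?_
    rw [abs_mul, abs_of_nonneg (show (0 : ℝ) ≤ x ^ i by positivity)]
    exact mul_le_mul_of_nonneg_left (pow_le_pow_right₀ hx (Finset.mem_range.1 hi).le) (abs_nonneg _)
  · rw [hev]
    have hx1 : 1 ≤ x := by linarith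
    have h1 : |∑ i ∈ Finset.range e, ((h.coeff i : ℤ) : ℝ) * x ^ i| * x ≤ (C - 1) * x ^ e := by
      rw [hC, add_sub_cancel_left, Finset.sum_mul]
      refine (mul_le_mul_of_nonneg_right (Finset.abs_sum_le_sum_abs _ _) (by linarith)).trans ?_
      rw [Finset.sum_mul]
      refine Finset.sum_le_sum fun i hi => ?_
      rw [abs_mul, abs_of_nonneg (show (0 : ℝ) ≤ x ^ i by positivity), mul_assoc, ← pow_succ]
      exact mul_le_mul_of_nonneg_left (pow_le_pow_right₀ hx1 (Finset.mem_range.1 hi)) (abs_nonneg _)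
    have h2 : |∑ i ∈ Finset.range e, ((h.coeff i : ℤ) : ℝ) * x ^ i| ≤ x ^ e / 2 := by
      have hxe : 0 ≤ x ^ e := by positivity
      by_contra hcon
      push Not at hcon
      have := mul_lt_mul_of_pos_right hcon (show (0 : ℝ) < x by linarith)
      nlinarith
    have h3 := abs_le.1 h2
    exact le_trans (by linarith) (le_abs_self _)

lemma sum_geom_le (q : ℕ) (hq : 2 ≤ q) (J : ℕ) :
    ∑ j ∈ Finset.Ico 1 J, (1 : ℝ) / (q : ℝ) ^ j ≤ 2 / q := by
  have hq' : (2 : ℝ) ≤ q := by exact_mod_cast hq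
  have h : ∀ J, 1 ≤ J → ∑ j ∈ Finset.Ico 1 J, (1 : ℝ) / (q : ℝ) ^ j ≤ 2 / q - 2 / (q : ℝ) ^ J := by
    intro J hJ
    induction J, hJ using Nat.le_induction with
    | base => simp
    | succ n hn ih =>
      rw [Finset.sum_Ico_succ_top hn]
      have h2 : 2 / (q : ℝ) ^ (n + 1) ≤ 1 / (q : ℝ) ^ n := by
        rw [pow_succ, div_le_div_iff₀ (by positivity) (by positivity)]
        have : (0 : ℝ) < (q : ℝ) ^ n := by positivity
        nlinarith
      have h3 : 2 / (q : ℝ) ^ n = 1 / (q : ℝ) ^ n + 1 / (q : ℝ) ^ n := by ring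
      linarith
  rcases Nat.eq_zero_or_pos J with rfl | hJ
  · simp only [zero_le_one, Finset.Ico_eq_empty_of_le, Finset.sum_empty]
    positivity
  · have := h J hJ
    have : (0 : ℝ) ≤ 2 / (q : ℝ) ^ J := by positivity
    linarith

lemma count_prog_le (h : ℤ[X]) (n0 M q : ℕ) (hq : 0 < q) (hcop : Nat.Coprime M q) (N : ℕ)
    (T : Finset ℕ) (hT : ∀ t ∈ T, t ≤ N ∧ (q : ℤ) ∣ h.eval ((n0 + M * t : ℕ) : ℤ)) :
    T.card ≤ rho h q * (N / q + 1) := by
  calc T.card ≤ (((Finset.range q).filter fun a : ℕ => (q : ℤ) ∣ h.eval (a : ℤ)) ×ˢ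
        Finset.range (N / q + 1)).card := by
        refine Finset.card_le_card_of_injOn (fun t => ((n0 + M * t) % q, t / q)) ?_ ?_
        · intro t ht
          obtain ⟨h1, h2⟩ := hT t ht
          simp only [Finset.coe_product, Set.mem_prod, Finset.coe_filter, Set.mem_ofPred_eq,
            Finset.mem_range, Finset.coe_range, Set.mem_Iio]
          exact ⟨⟨Nat.mod_lt _ hq, (dvd_eval_mod h q _).2 h2⟩,
            Nat.lt_succ_of_le (Nat.div_le_div_right h1)⟩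
        · intro x _ y _ hxy
          simp only [Prod.mk.injEq] at hxy
          have h1 : M * x ≡ M * y [MOD q] :=
            Nat.ModEq.add_left_cancel' n0 hxy.1
          have h2 : x ≡ y [MOD q] :=
            Nat.ModEq.cancel_left_of_coprime (Nat.coprime_comm.1 hcop) h1
          rw [← Nat.mod_add_div x q, ← Nat.mod_add_div y q, hxy.2, show x % q = y % q from h2]
    _ = _ := by rw [Finset.card_product, Finset.card_range, rho]

open Classical in
lemma sum_log_le (W : ℕ → ℕ) (T : Finset ℕ) (P : Finset ℕ) (J : ℕ)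
    (hP : ∀ q ∈ P, q.Prime) (hW : ∀ t ∈ T, 0 < W t ∧ W t < 2 ^ J ∧ (W t).primeFactors ⊆ P) :
    ∑ t ∈ T, Real.log (W t) ≤
      ∑ q ∈ P, Real.log q *
        ∑ j ∈ Finset.Ico 1 J, (((T.filter fun t => q ^ j ∣ W t).card : ℕ) : ℝ) := by
  have h1 : ∀ t ∈ T, Real.log (W t) = ∑ q ∈ P, Real.log q *
      ∑ j ∈ Finset.Ico 1 J, (if q ^ j ∣ W t then (1 : ℝ) else 0) := by
    intro t ht
    obtain ⟨h0, hJ, hsub⟩ := hW t ht
    rw [Real.log_nat_eq_sum_factorization, Finsupp.sum_of_support_subset _ (s := P)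
      (by rwa [Nat.support_factorization]) _ (fun p _ => by simp)]
    refine Finset.sum_congr rfl fun q hq => ?_
    have hlt : W t < q ^ J := hJ.trans_le (Nat.pow_le_pow_left (hP q hq).two_le J)
    rw [Nat.factorization_eq_card_pow_dvd_of_lt (hP q hq) h0 hlt, Finset.sum_boole, mul_comm]
  rw [Finset.sum_congr rfl h1, Finset.sum_comm]
  refine le_of_eq (Finset.sum_congr rfl fun q _ => ?_)
  rw [← Finset.mul_sum, Finset.sum_comm]
  congr 1
  refine Finset.sum_congr rfl fun j _ => ?_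
  rw [Finset.sum_boole]

/-- The data of the progression on which only good primes divide `h`. -/
structure ProgData (h : ℤ[X]) (B : ℤ) where
  n0 : ℕ
  M : ℕ
  W : ℕ → ℕ
  Cw : ℝ
  T0 : ℕ
  hM : 0 < M
  hdvd : ∀ t q : ℕ, q ∣ W t → (q : ℤ) ∣ h.eval ((n0 + M * t : ℕ) : ℤ)
  hgood : ∀ t q : ℕ, q.Prime → q ∣ W t → Nat.Coprime M q ∧ ¬ (q : ℤ) ∣ B ∧
    ∀ j : ℕ, j ≠ 0 → rho h (q ^ j) ≤ h.natDegree
  hup : ∀ t : ℕ, 1 ≤ t → (W t : ℝ) ≤ Cw * (t : ℝ) ^ h.natDegree
  hlow : ∀ t : ℕ, T0 ≤ t → (t : ℝ) ^ h.natDegree ≤ Cw * W t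

lemma exists_progData (h : ℤ[X]) (hm : h.Monic) (hd : 1 ≤ h.natDegree)
    (hirr : Irreducible (h.map (Int.castRingHom ℚ))) {B : ℤ} (hB : B ≠ 0) :
    Nonempty (ProgData h B) := by
  obtain ⟨u, v, R0, hR0, hbez⟩ := exists_bezout h hd hirr
  obtain ⟨n0, hn0⟩ : ∃ n0 : ℕ, h.eval (n0 : ℤ) ≠ 0 := by
    by_contra! hall
    exact hm.ne_zero (eq_zero_of_infinite_isRoot h (Set.infinite_of_injective_forall_mem
      (f := fun n : ℕ => (n : ℤ)) Nat.cast_injective fun n => hall n))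
  set z0 := h.eval (n0 : ℤ) with hz0
  set R' := R0 * B * z0 with hR'
  set M := (R' * z0).natAbs with hM
  have hMpos : 0 < M := Int.natAbs_pos.2 (mul_ne_zero (mul_ne_zero (mul_ne_zero hR0 hB) hn0) hn0)
  have hcong : ∀ t : ℕ, R' * z0 ∣ h.eval ((n0 + M * t : ℕ) : ℤ) - z0 := by
    intro t
    refine dvd_trans ?_ (sub_dvd_eval_sub _ _ h)
    push_cast
    rw [add_sub_cancel_left]
    exact ((Int.dvd_natAbs_self).trans (dvd_of_eq (by rw [hM]))).mul_right _
  choose x hx using hcong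
  set W : ℕ → ℕ := fun t => (1 + R' * x t).natAbs with hW
  have hWeq : ∀ t : ℕ, h.eval ((n0 + M * t : ℕ) : ℤ) = z0 * (1 + R' * x t) := fun t => by
    linear_combination hx t
  obtain ⟨C1, hC1, hup1, hlow1⟩ := eval_bounds h hm
  have habs : ∀ t : ℕ, |h.eval₂ (Int.castRingHom ℝ) ((n0 + M * t : ℕ) : ℝ)| =
      |(z0 : ℝ)| * (W t : ℝ) := by
    intro t
    have h1 : h.eval₂ (Int.castRingHom ℝ) ((n0 + M * t : ℕ) : ℝ) =
        ((h.eval ((n0 + M * t : ℕ) : ℤ) : ℤ) : ℝ) := by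
      rw [← eval_map, ← Int.cast_natCast (R := ℝ), eval_intCast_map]; rfl
    rw [h1, hWeq, hW, Nat.cast_natAbs, Int.cast_abs, Int.cast_mul, abs_mul]
  have hz1 : (1 : ℝ) ≤ |(z0 : ℝ)| := by exact_mod_cast Int.one_le_abs hn0
  refine ⟨⟨n0, M, W, max (C1 * ((n0 : ℝ) + M) ^ h.natDegree) (2 * |(z0 : ℝ)|), ⌈2 * C1⌉₊, hMpos,
    fun t q hq => ?_, fun t q hqp hq => ?_, fun t ht => ?_, fun t ht => ?_⟩⟩
  · rw [hWeq]
    exact (Int.natCast_dvd.2 hq).mul_left _
  · have h1 : (q : ℤ) ∣ 1 + R' * x t := Int.natCast_dvd.2 hq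
    have h2 : ¬ (q : ℤ) ∣ R' := by
      intro h2
      have h3 : (q : ℤ) ∣ 1 := (dvd_add_left (h2.mul_right (x t))).1 h1
      exact hqp.one_lt.ne' (by exact_mod_cast Int.eq_one_of_dvd_one (by positivity) h3)
    have hqR0 : ¬ (q : ℤ) ∣ R0 := fun h3 => h2 ((h3.mul_right B).mul_right z0)
    refine ⟨(Nat.coprime_comm.1 ((Nat.Prime.coprime_iff_not_dvd hqp).2 ?_)),
      fun h3 => h2 ((h3.mul_left R0).mul_right z0),
      fun j hj => (rho_pow_le_rho h u v R0 hbez hqp hqR0 hj).trans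
        (rho_prime_le_natDegree h u v R0 hbez hqp hqR0)⟩
    intro h3
    rw [hM, ← Int.natCast_dvd] at h3
    rcases (Nat.prime_iff_prime_int.1 hqp).dvd_or_dvd h3 with h4 | h4
    · exact h2 h4
    · exact h2 (h4.mul_left _)
  · have ht' : (1 : ℝ) ≤ t := by exact_mod_cast ht
    have hy : (1 : ℝ) ≤ ((n0 + M * t : ℕ) : ℝ) := by
      have : 1 ≤ n0 + M * t := le_add_left (Nat.one_le_iff_ne_zero.2 (Nat.mul_ne_zero hMpos.ne' (by omega)))
      exact_mod_cast this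
    calc (W t : ℝ) ≤ |(z0 : ℝ)| * (W t : ℝ) := le_mul_of_one_le_left (Nat.cast_nonneg _) hz1
      _ ≤ C1 * ((n0 + M * t : ℕ) : ℝ) ^ h.natDegree := habs t ▸ hup1 _ hy
      _ ≤ C1 * (((n0 : ℝ) + M) * t) ^ h.natDegree := by
          have h0 : (0 : ℝ) ≤ n0 := Nat.cast_nonneg _
          gcongr
          push_cast
          nlinarith
      _ = (C1 * ((n0 : ℝ) + M) ^ h.natDegree) * (t : ℝ) ^ h.natDegree := by rw [mul_pow]; ring
      _ ≤ _ := mul_le_mul_of_nonneg_right (le_max_left _ _) (by positivity)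
  · have ht' : 2 * C1 ≤ (t : ℝ) := (Nat.le_ceil _).trans (by exact_mod_cast ht)
    have hty : (t : ℝ) ≤ ((n0 + M * t : ℕ) : ℝ) := by
      have : t ≤ n0 + M * t := le_add_left (Nat.le_mul_of_pos_left t hMpos)
      exact_mod_cast this
    have h1 := hlow1 _ (ht'.trans hty)
    rw [habs] at h1
    calc (t : ℝ) ^ h.natDegree ≤ ((n0 + M * t : ℕ) : ℝ) ^ h.natDegree := by gcongr
      _ ≤ (2 * |(z0 : ℝ)|) * W t := by linarith
      _ ≤ _ := mul_le_mul_of_nonneg_right (le_max_right _ _) (Nat.cast_nonneg _)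

lemma log_le_eight {x : ℝ} (hx : 1 ≤ x) : Real.log x ≤ 8 * x ^ ((1 : ℝ) / 8) := by
  have := Real.log_le_rpow_div (show (0 : ℝ) ≤ x by linarith) (show (0 : ℝ) < 1 / 8 by norm_num)
  linarith [show x ^ ((1 : ℝ) / 8) / (1 / 8) = 8 * x ^ ((1 : ℝ) / 8) by ring]

open Classical in
lemma count_contribution (h : ℤ[X]) {B : ℤ} (P : ProgData h B) (N J q : ℕ) (hq : q.Prime)
    (T : Finset ℕ) (hTN : ∀ t ∈ T, t ≤ N) :
    ∑ j ∈ Finset.Ico 1 J, (((T.filter fun t => q ^ j ∣ P.W t).card : ℕ) : ℝ) ≤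
      (h.natDegree : ℝ) * (2 * N / q + J) := by
  calc ∑ j ∈ Finset.Ico 1 J, (((T.filter fun t => q ^ j ∣ P.W t).card : ℕ) : ℝ)
      ≤ ∑ j ∈ Finset.Ico 1 J, (h.natDegree : ℝ) * ((N : ℝ) * (1 / (q : ℝ) ^ j) + 1) := by
        refine Finset.sum_le_sum fun j hj => ?_
        have hj0 : j ≠ 0 := by simp only [Finset.mem_Ico] at hj; omega
        rcases Finset.eq_empty_or_nonempty (T.filter fun t => q ^ j ∣ P.W t) with he | ⟨t, ht⟩
        · rw [he]; simp only [Finset.card_empty, Nat.cast_zero]; positivity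
        · obtain ⟨hc, -, hrho⟩ := P.hgood t q hq ((dvd_pow_self q hj0).trans (Finset.mem_filter.1 ht).2)
          have h1 := count_prog_le h P.n0 P.M (q ^ j) (pow_pos hq.pos j) (Nat.Coprime.pow_right j hc) N
            (T.filter fun t => q ^ j ∣ P.W t) fun s hs =>
              ⟨hTN s (Finset.mem_filter.1 hs).1, P.hdvd s _ (Finset.mem_filter.1 hs).2⟩
          refine (Nat.cast_le.2 (h1.trans (Nat.mul_le_mul_right _ (hrho j hj0)))).trans ?_
          push_cast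
          gcongr
          refine Nat.cast_div_le.trans (le_of_eq ?_)
          push_cast
          ring
    _ ≤ _ := by
        rw [← Finset.mul_sum, Finset.sum_add_distrib, ← Finset.mul_sum, Finset.sum_const,
          nsmul_eq_mul, mul_one]
        gcongr
        · calc (N : ℝ) * ∑ j ∈ Finset.Ico 1 J, 1 / (q : ℝ) ^ j ≤ N * (2 / q) :=
              mul_le_mul_of_nonneg_left (sum_geom_le q hq.two_le J) (Nat.cast_nonneg _)
            _ = _ := by ring
        · simp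

lemma arith_core {e L' N y Jr ly S : ℝ} {K : ℝ} (he : 1 ≤ e) (hL : 0 ≤ L') (hN : 0 ≤ N)
    (hy : 0 ≤ y) (hJ : 0 ≤ Jr) (hly : ly ≤ L' / 8) (hS : S ≤ ly + 2) (hK : 0 ≤ K)
    (hJy : Jr * y * L' ≤ K * N) :
    e * (2 * N * S + Jr * (y * L')) ≤ e * N * L' / 4 + e * (4 + K) * N := by
  have h1 : 2 * N * S ≤ 2 * N * (L' / 8 + 2) := mul_le_mul_of_nonneg_left (by linarith) (by linarith)
  calc e * (2 * N * S + Jr * (y * L')) ≤ e * (2 * N * (L' / 8 + 2) + K * N) :=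
        mul_le_mul_of_nonneg_left (by linarith [mul_assoc Jr y L']) (by linarith)
    _ = _ := by ring

lemma bound_small {e : ℕ} (he : 1 ≤ e) {N J : ℕ} {A l : ℝ} (hN : 3 ≤ N) (hA : 0 ≤ A)
    (hl : l = Real.log (N : ℝ)) (hJlog : (J : ℝ) ≤ 2 * A * l) (Pr : Finset ℕ)
    (hPrp : ∀ q ∈ Pr, q.Prime) :
    ∑ q ∈ Pr.filter (fun q => ¬ N < q ^ 8), Real.log q * ((e : ℝ) * (2 * N / q + J)) ≤
      (e : ℝ) * N * l / 4 + (e : ℝ) * (4 + 2 * A * 64) * N := by
  have heR : (1 : ℝ) ≤ e := by exact_mod_cast he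
  have hNr : (3 : ℝ) ≤ N := by exact_mod_cast hN
  have hl0 : 0 ≤ l := hl ▸ Real.log_natCast_nonneg N
  set y := Nat.sqrt (Nat.sqrt (Nat.sqrt N)) with hy
  have hy8 : ∀ q : ℕ, q ≤ y ↔ q ^ 8 ≤ N := fun q => by
    rw [hy, Nat.le_sqrt', Nat.le_sqrt', Nat.le_sqrt', ← pow_mul, ← pow_mul]
  set r := (N : ℝ) ^ ((1 : ℝ) / 8) with hr
  have hr1 : 1 ≤ r := Real.one_le_rpow (by linarith) (by norm_num)
  have hr8 : r ^ 8 = N := by
    rw [hr, ← Real.rpow_natCast, ← Real.rpow_mul (by linarith)]; norm_num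
  have hyr : (y : ℝ) ≤ r := by
    refine le_of_pow_le_pow_left₀ (by norm_num : (8 : ℕ) ≠ 0) (by linarith) ?_
    rw [hr8]
    exact_mod_cast (hy8 y).1 le_rfl
  have hy1 : 1 ≤ y := (hy8 1).2 (by simp; omega)
  have hlr : l ≤ 8 * r := hl ▸ log_le_eight (by linarith)
  have hr4 : r ^ 4 ≤ (N : ℝ) := by rw [← hr8]; exact pow_le_pow_right₀ hr1 (by norm_num)
  have hly : Real.log (y : ℝ) ≤ l / 8 := by
    have h1 : ((y : ℝ)) ^ 8 ≤ N := by exact_mod_cast (hy8 y).1 le_rfl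
    have h2 := Real.log_le_log (pow_pos (by exact_mod_cast hy1) 8) h1
    rw [Real.log_pow, ← hl] at h2
    push_cast at h2
    linarith
  set cnt : ℕ → ℝ := fun q => Real.log q * ((e : ℝ) * (2 * N / q + J)) with hcnt
  have h1 : ∑ q ∈ Pr.filter (fun q => ¬ N < q ^ 8), cnt q ≤ ∑ q ∈ Nat.primesLE y, cnt q := by
    refine Finset.sum_le_sum_of_subset_of_nonneg (fun q hq => ?_) fun q _ _ =>
      mul_nonneg (Real.log_natCast_nonneg q) (by positivity)
    obtain ⟨h1, h2⟩ := Finset.mem_filter.1 hq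
    exact Nat.mem_primesLE.2 ⟨(hy8 q).2 (by omega), hPrp q h1⟩
  refine h1.trans ?_
  have h2 : ∑ q ∈ Nat.primesLE y, cnt q ≤
      (e : ℝ) * (2 * N * Vale.P003.logSum y + (J : ℝ) * ((y : ℝ) * l)) := by
    have h3 : ∑ q ∈ Nat.primesLE y, cnt q = (e : ℝ) * (2 * N * Vale.P003.logSum y) +
        (e : ℝ) * J * ∑ q ∈ Nat.primesLE y, Real.log (q : ℝ) := by
      rw [Vale.P003.logSum, Finset.mul_sum, Finset.mul_sum, Finset.mul_sum,
        ← Finset.sum_add_distrib]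
      exact Finset.sum_congr rfl fun q _ => by rw [hcnt]; ring
    have h4 : ∑ q ∈ Nat.primesLE y, Real.log (q : ℝ) ≤ (y : ℝ) * l := by
      refine (Finset.sum_le_card_nsmul _ _ l fun q hq => ?_).trans ?_
      · obtain ⟨hqy, hqp⟩ := Nat.mem_primesLE.1 hq
        rw [hl]
        refine Real.log_le_log (by exact_mod_cast hqp.pos) ?_
        have : q ≤ q ^ 8 := Nat.le_self_pow (by norm_num) q
        exact_mod_cast this.trans ((hy8 q).1 hqy)
      · rw [nsmul_eq_mul]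
        refine mul_le_mul_of_nonneg_right ?_ (by linarith)
        have : (Nat.primesLE y).card ≤ (Finset.Icc 1 y).card := Finset.card_le_card fun q hq => by
          obtain ⟨h1, h2⟩ := Nat.mem_primesLE.1 hq
          exact Finset.mem_Icc.2 ⟨h2.one_le, h1⟩
        rw [Nat.card_Icc, Nat.add_sub_cancel] at this
        exact_mod_cast this
    rw [h3, mul_add]
    refine add_le_add le_rfl ?_
    rw [mul_assoc]
    exact mul_le_mul_of_nonneg_left (mul_le_mul_of_nonneg_left h4 (Nat.cast_nonneg _)) (by linarith)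
  refine h2.trans (arith_core (ly := Real.log (y : ℝ)) heR (by linarith) (by linarith)
    (Nat.cast_nonneg _) (Nat.cast_nonneg _) hly ?_ (by positivity) ?_)
  · have h5 := Vale.P003.logSum_le hy1
    have h6 : Real.log 4 ≤ 2 := by
      rw [show (4 : ℝ) = 2 ^ 2 by norm_num, Real.log_pow]
      have := Real.log_two_lt_d9
      push_cast
      linarith
    linarith
  · calc (J : ℝ) * y * l ≤ (2 * A * (8 * r)) * r * (8 * r) := by
          gcongr
          exact hJlog.trans (mul_le_mul_of_nonneg_left hlr (by positivity))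
      _ = 2 * A * 64 * r ^ 3 := by ring
      _ ≤ 2 * A * 64 * N := by
          refine mul_le_mul_of_nonneg_left ((pow_le_pow_right₀ hr1 (by norm_num : 3 ≤ 4)).trans hr4)
            (by positivity)

lemma bound_big {e K : ℕ} {N J : ℕ} {A l C : ℝ} (hN : 3 ≤ N) (hA : 0 ≤ A)
    (hl : l = Real.log (N : ℝ)) (hJlog : (J : ℝ) ≤ 2 * A * l)
    (hlogW : Real.log (C * (N : ℝ) ^ e) ≤ A * l) (S : Finset ℕ)
    (hS : ∀ q ∈ S, q.Prime ∧ N < q ^ 8 ∧ (q : ℝ) ≤ C * (N : ℝ) ^ e) (hcard : S.card ≤ K) :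
    ∑ q ∈ S, Real.log q * ((e : ℝ) * (2 * N / q + J)) ≤
      (K : ℝ) * e * A * (2 + 3 * A) * 64 * N := by
  have hNr : (3 : ℝ) ≤ N := by exact_mod_cast hN
  have hl0 : 0 ≤ l := hl ▸ Real.log_natCast_nonneg N
  set r := (N : ℝ) ^ ((1 : ℝ) / 8) with hr
  have hr1 : 1 ≤ r := Real.one_le_rpow (by linarith) (by norm_num)
  have hr8 : r ^ 8 = N := by
    rw [hr, ← Real.rpow_natCast, ← Real.rpow_mul (by linarith)]; norm_num
  have hlr : l ≤ 8 * r := hl ▸ log_le_eight (by linarith)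
  have hr4 : r ^ 4 ≤ (N : ℝ) := by rw [← hr8]; exact pow_le_pow_right₀ hr1 (by norm_num)
  refine (Finset.sum_le_card_nsmul _ _ (A * l * ((e : ℝ) * (2 * N / r + J))) fun q hq => ?_).trans ?_
  · obtain ⟨hp, hq8, hqC⟩ := hS q hq
    have hrq : r ≤ q := by
      refine le_of_pow_le_pow_left₀ (by norm_num : (8 : ℕ) ≠ 0) (Nat.cast_nonneg _) ?_
      rw [hr8]
      exact_mod_cast hq8.le
    refine mul_le_mul ((Real.log_le_log (by exact_mod_cast hp.pos) hqC).trans hlogW) ?_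
      (by positivity) (by positivity)
    gcongr
  · rw [nsmul_eq_mul]
    have h1 : l * (2 * N / r + J) ≤ (2 + 3 * A) * 64 * N := by
      have h2 : l * (2 * N / r) ≤ 16 * N := by
        calc l * (2 * N / r) ≤ 8 * r * (2 * N / r) := by gcongr
          _ = 16 * N := by field_simp; ring
      have h3 : l * J ≤ 2 * A * 64 * N := by
        calc l * J ≤ 8 * r * (2 * A * (8 * r)) := by
              gcongr
              exact hJlog.trans (mul_le_mul_of_nonneg_left hlr (by positivity))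
          _ = 2 * A * 64 * r ^ 2 := by ring
          _ ≤ 2 * A * 64 * N := mul_le_mul_of_nonneg_left
              ((pow_le_pow_right₀ hr1 (by norm_num : 2 ≤ 4)).trans hr4) (by positivity)
      have hA0 : 0 ≤ A := by positivity
      rw [mul_add]
      nlinarith
    calc (S.card : ℝ) * (A * l * ((e : ℝ) * (2 * N / r + J)))
        ≤ (K : ℝ) * (A * l * ((e : ℝ) * (2 * N / r + J))) := by gcongr
      _ = (K : ℝ) * e * A * (l * (2 * N / r + J)) := by ring
      _ ≤ (K : ℝ) * e * A * ((2 + 3 * A) * 64 * N) :=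
          mul_le_mul_of_nonneg_left h1 (by positivity)
      _ = _ := by ring

lemma bound_low {h : ℤ[X]} {B : ℤ} (P : ProgData h B) (hd : 1 ≤ h.natDegree) {N : ℕ} {C l : ℝ}
    (hN : 3 ≤ N) (hNT : 2 * (P.T0 + 1) ≤ N) (hC : 1 ≤ C) (hPC : P.Cw ≤ C)
    (hl : l = Real.log (N : ℝ))
    (hpos : 0 ≤ (h.natDegree : ℝ) * (l - Real.log 2) - Real.log C) :
    (N : ℝ) / 2 * ((h.natDegree : ℝ) * (l - Real.log 2) - Real.log C) ≤
      ∑ t ∈ Finset.Ioc (N / 2) N, Real.log (P.W t) := by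
  have hNr : (3 : ℝ) ≤ N := by exact_mod_cast hN
  set e := h.natDegree with he
  have h1 : (Finset.Ioc (N / 2) N).card • ((e : ℝ) * (l - Real.log 2) - Real.log C) ≤
      ∑ t ∈ Finset.Ioc (N / 2) N, Real.log (P.W t) := by
    refine Finset.card_nsmul_le_sum _ _ _ fun t ht => ?_
    simp only [Finset.mem_Ioc] at ht
    have ht2 : (N : ℝ) / 2 ≤ t := by
      have : N ≤ 2 * t := by omega
      have : (N : ℝ) ≤ 2 * t := by exact_mod_cast this
      linarith
    have hN2 : (0 : ℝ) < (N : ℝ) / 2 := by linarith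
    have h2 := (P.hlow t (by omega)).trans
      (mul_le_mul_of_nonneg_right hPC (Nat.cast_nonneg _))
    have h3' := (pow_le_pow_left₀ hN2.le ht2 e).trans h2
    have hW0 : (P.W t : ℝ) ≠ 0 := fun h0 => by
      rw [h0, mul_zero] at h3'
      exact absurd h3' (not_le.2 (pow_pos hN2 e))
    have h3 := Real.log_le_log (pow_pos hN2 e) h3'
    rw [Real.log_mul (by linarith) hW0, Real.log_pow,
      Real.log_div (by linarith) two_ne_zero, ← hl] at h3
    linarith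
  refine le_trans ?_ h1
  rw [nsmul_eq_mul]
  refine mul_le_mul_of_nonneg_right ?_ hpos
  rw [Nat.card_Ioc]
  have : N ≤ 2 * (N - N / 2) := by omega
  have : (N : ℝ) ≤ 2 * ((N - N / 2 : ℕ) : ℝ) := by exact_mod_cast this
  linarith

lemma final_arith {e A l N K lC D sum S1 S2 : ℝ} (he : 0 ≤ e) (hA : 0 ≤ A) (hN : 0 ≤ N)
    (hD : D = e * Real.log 2 + lC + 2 * e * (4 + 3 * A * 64) + 2 * K * e * A * (2 + 3 * A) * 64)
    (hlow : N / 2 * (e * (l - Real.log 2) - lC) ≤ sum) (hsum : sum ≤ S1 + S2)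
    (h2 : S2 ≤ e * N * l / 4 + e * (4 + 2 * A * 64) * N)
    (h1 : S1 ≤ K * e * A * (2 + 3 * A) * 64 * N) :
    N * (e * l) ≤ N * (2 * D) := by
  subst hD
  nlinarith [mul_nonneg (mul_nonneg he hA) hN]

theorem many_prime_divisors (h : ℤ[X]) (hm : h.Monic) (hd : 1 ≤ h.natDegree)
    (hirr : Irreducible (h.map (Int.castRingHom ℚ))) {B : ℤ} (hB : B ≠ 0) :
    ∃ C : ℝ, 1 ≤ C ∧ ∀ K : ℕ, ∃ N₀ : ℕ, ∀ N : ℕ, N₀ ≤ N → ∃ S : Finset ℕ, K ≤ S.card ∧
      ∀ q ∈ S, q.Prime ∧ ¬ (q : ℤ) ∣ B ∧ (∃ n : ℤ, (q : ℤ) ∣ h.eval n) ∧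
        N < q ^ 8 ∧ (q : ℝ) ≤ C * (N : ℝ) ^ h.natDegree := by
  classical
  obtain ⟨P⟩ := exists_progData h hm hd hirr hB
  set e := h.natDegree with he
  set C := max 1 P.Cw with hC
  have hC1 : (1 : ℝ) ≤ C := le_max_left _ _
  refine ⟨C, hC1, fun K => ?_⟩
  have heR : (1 : ℝ) ≤ e := by exact_mod_cast hd
  set Lc := Real.log C + 2 with hLc
  have hlogC : 0 ≤ Real.log C := Real.log_nonneg hC1
  set A : ℝ := (e : ℝ) + Lc with hA
  -- the final constant
  set D : ℝ := (e : ℝ) * Real.log 2 + Real.log C + 2 * (e : ℝ) * (4 + 3 * A * 64)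
    + 2 * (K : ℝ) * e * A * (2 + 3 * A) * 64 with hD
  obtain ⟨N₀, hN₀⟩ := Filter.eventually_atTop.1
    ((Filter.eventually_ge_atTop (max 3 (2 * (P.T0 + 1)))).and
      ((Real.tendsto_log_atTop.comp tendsto_natCast_atTop_atTop).eventually_gt_atTop (2 * D)))
  refine ⟨N₀, fun N hN => ?_⟩
  obtain ⟨hN3, hlogN⟩ := hN₀ N hN
  have hNT : 2 * (P.T0 + 1) ≤ N := (le_max_right _ _).trans hN3
  have hN3' : 3 ≤ N := (le_max_left _ _).trans hN3
  simp only [Function.comp_apply] at hlogN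
  have hNr : (3 : ℝ) ≤ N := by exact_mod_cast hN3'
  set l := Real.log (N : ℝ) with hl
  have hl1 : 1 ≤ l := by
    rw [hl, Real.le_log_iff_exp_le (by linarith)]
    exact (Real.exp_one_lt_d9.le.trans (by norm_num)).trans hNr
  set T := Finset.Ioc (N / 2) N with hT
  set J := Nat.log 2 (⌊C * (N : ℝ) ^ e⌋₊) + 1 with hJ
  have hW : ∀ t ∈ T, 0 < P.W t ∧ P.W t ≤ ⌊C * (N : ℝ) ^ e⌋₊ := by
    intro t ht
    simp only [hT, Finset.mem_Ioc] at ht
    constructor
    · have h1 := P.hlow t (by omega)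
      rcases Nat.eq_zero_or_pos (P.W t) with h0 | h0
      · exfalso
        rw [h0, Nat.cast_zero, mul_zero] at h1
        have : (0 : ℝ) < (t : ℝ) ^ h.natDegree := pow_pos (by exact_mod_cast (show 0 < t by omega)) _
        linarith
      · exact h0
    · refine Nat.le_floor ((P.hup t (by omega)).trans ?_)
      refine mul_le_mul (le_max_right _ _) ?_ (by positivity) (by linarith)
      exact pow_le_pow_left₀ (Nat.cast_nonneg _) (by exact_mod_cast ht.2) _
  set Pr := T.biUnion fun t => (P.W t).primeFactors with hPr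
  have hPrp : ∀ q ∈ Pr, q.Prime := by
    intro q hq
    obtain ⟨t, -, htq⟩ := Finset.mem_biUnion.1 hq
    exact Nat.prime_of_mem_primeFactors htq
  set S := Pr.filter fun q => N < q ^ 8 with hS
  refine ⟨S, ?_, fun q hq => ?_⟩
  swap
  · obtain ⟨hqP, hq8⟩ := Finset.mem_filter.1 hq
    obtain ⟨t, ht, htq⟩ := Finset.mem_biUnion.1 hqP
    obtain ⟨hp, hdvd, -⟩ := Nat.mem_primeFactors.1 htq
    obtain ⟨-, hqB, -⟩ := P.hgood t q hp hdvd
    refine ⟨hp, hqB, ⟨_, P.hdvd t q hdvd⟩, hq8, ?_⟩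
    have h1 : q ≤ ⌊C * (N : ℝ) ^ e⌋₊ :=
      (Nat.le_of_dvd (hW t ht).1 hdvd).trans (hW t ht).2
    exact (Nat.cast_le.2 h1).trans (Nat.floor_le (by positivity))
  by_contra hcard
  push Not at hcard
  -- bound from above
  have hJlog : (J : ℝ) ≤ 2 * A * l := by
    have hfl : (1 : ℕ) ≤ ⌊C * (N : ℝ) ^ e⌋₊ := by
      refine Nat.le_floor ?_
      push_cast
      exact one_le_mul_of_one_le_of_one_le hC1 (one_le_pow₀ (by linarith))
    have h1 : ((2 : ℝ)) ^ (Nat.log 2 ⌊C * (N : ℝ) ^ e⌋₊) ≤ C * (N : ℝ) ^ e := by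
      refine le_trans ?_ (Nat.floor_le (by positivity))
      exact_mod_cast Nat.pow_log_le_self 2 (x := ⌊C * (N : ℝ) ^ e⌋₊) (by omega)
    have h2 := Real.log_le_log (by positivity) h1
    rw [Real.log_pow, Real.log_mul (by linarith) (by positivity), Real.log_pow, ← hl] at h2
    have h3 := Real.log_two_gt_d9
    have h4 : (0 : ℝ) ≤ (Nat.log 2 ⌊C * (N : ℝ) ^ e⌋₊ : ℝ) := Nat.cast_nonneg _
    rw [hJ, Nat.cast_add, Nat.cast_one, hA, hLc]
    nlinarith [mul_le_mul_of_nonneg_left hl1 hlogC]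
  have hlogW : Real.log (C * (N : ℝ) ^ e) ≤ A * l := by
    rw [Real.log_mul (by linarith) (by positivity), Real.log_pow, ← hl, hA, hLc]
    nlinarith [mul_le_mul_of_nonneg_left hl1 hlogC]
  have hA0 : 0 ≤ A := by positivity
  set cnt : ℕ → ℝ := fun q => Real.log q * ((e : ℝ) * (2 * N / q + J)) with hcnt
  have hsum : ∑ t ∈ T, Real.log (P.W t) ≤ ∑ q ∈ Pr, cnt q := by
    refine (sum_log_le P.W T Pr J hPrp fun t ht => ⟨(hW t ht).1, ?_, ?_⟩).trans ?_
    · refine (hW t ht).2.trans_lt ?_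
      rw [hJ]
      exact Nat.lt_pow_succ_log_self one_lt_two _
    · exact Finset.subset_biUnion_of_mem (fun t => (P.W t).primeFactors) ht
    · refine Finset.sum_le_sum fun q hq => mul_le_mul_of_nonneg_left ?_ (Real.log_natCast_nonneg q)
      refine count_contribution h P N J q (hPrp q hq) T fun t ht => ?_
      simp only [hT, Finset.mem_Ioc] at ht
      omega
  have hsmall := bound_small (e := e) hd hN3' hA0 hl hJlog Pr hPrp
  have hbig := bound_big (e := e) hN3' hA0 hl hJlog hlogW S (fun q hq => by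
    obtain ⟨hqP, hq8⟩ := Finset.mem_filter.1 hq
    obtain ⟨t, ht, htq⟩ := Finset.mem_biUnion.1 hqP
    obtain ⟨hp, hdvd, -⟩ := Nat.mem_primeFactors.1 htq
    exact ⟨hp, hq8, (Nat.cast_le.2 ((Nat.le_of_dvd (hW t ht).1 hdvd).trans (hW t ht).2)).trans
      (Nat.floor_le (by positivity))⟩) hcard.le
  have hD1 : (e : ℝ) * Real.log 2 + Real.log C ≤ D := by
    rw [hD]
    have h2 : (0 : ℝ) ≤ 2 * (e : ℝ) * (4 + 3 * A * 64) := by positivity
    have h3 : (0 : ℝ) ≤ 2 * (K : ℝ) * e * A * (2 + 3 * A) * 64 := by positivity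
    linarith
  have hel : l ≤ (e : ℝ) * l := le_mul_of_one_le_left (by linarith) heR
  have hD0 : (0 : ℝ) ≤ D := le_trans (by positivity) hD1
  have hlow := bound_low P hd hN3' hNT hC1 (le_max_right _ _) hl (by linarith)
  rw [← Finset.sum_filter_add_sum_filter_not Pr (fun q => N < q ^ 8), ← hS] at hsum
  have hfinal : (N : ℝ) * ((e : ℝ) * l) ≤ N * (2 * D) :=
    final_arith (by positivity) hA0 (by linarith) hD hlow hsum hsmall hbig
  have := le_of_mul_le_mul_left hfinal (by linarith)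
  linarith

theorem exists_split_primes {d : ℕ} {L : Type} [Field L] [NumberField L] (D : RootData d L) :
    ∀ η > (0 : ℝ), ∃ τ > (0 : ℝ), ∀ K : ℕ, ∃ X₀ : ℝ, ∀ X : ℝ, X₀ ≤ X →
      ∃ S : Finset ℕ, K ≤ S.card ∧
        ∀ q ∈ S, SplitPrime d D.g q ∧ X ^ τ ≤ (q : ℝ) ∧ (q : ℝ) ≤ X ^ η := by
  intro η hη
  obtain ⟨h, B, hm, hd, hirr, hB, hsplit⟩ := exists_splitting_poly D
  obtain ⟨C, hC, hmany⟩ := many_prime_divisors h hm hd hirr hB
  set e := h.natDegree with he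
  have he0 : (0 : ℝ) < e := by exact_mod_cast (show 0 < e by omega)
  set a : ℝ := η / (2 * e) with ha
  have ha0 : 0 < a := by rw [ha]; positivity
  refine ⟨a / 16, by linarith, fun K => ?_⟩
  obtain ⟨N₀, hN₀⟩ := hmany K
  obtain ⟨X₀, hX₀⟩ := Filter.eventually_atTop.1
    ((Filter.eventually_ge_atTop (1 : ℝ)).and
      (((tendsto_rpow_atTop ha0).eventually_ge_atTop ((N₀ : ℝ) + 2)).and
        ((tendsto_rpow_atTop (half_pos hη)).eventually_ge_atTop C)))
  refine ⟨X₀, fun X hX => ?_⟩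
  obtain ⟨hX1, hXa, hXC⟩ := hX₀ X hX
  set N := ⌊X ^ a⌋₊ with hN
  obtain ⟨S, hS, hSq⟩ := hN₀ N (Nat.le_floor (by linarith))
  refine ⟨S, hS, fun q hq => ?_⟩
  obtain ⟨hqp, hqB, ⟨n, hn⟩, hq8, hqC⟩ := hSq q hq
  have hX0 : 0 ≤ X := by linarith
  have hNle : (N : ℝ) ≤ X ^ a := Nat.floor_le (by positivity)
  have hNge : X ^ a ≤ (N : ℝ) + 1 := (Nat.lt_floor_add_one _).le
  refine ⟨hsplit q hqp hqB n hn, ?_, ?_⟩
  · refine le_of_pow_le_pow_left₀ (by norm_num : (16 : ℕ) ≠ 0) (Nat.cast_nonneg _) ?_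
    rw [← Real.rpow_natCast, ← Real.rpow_mul hX0, show a / 16 * ((16 : ℕ) : ℝ) = a by push_cast; ring]
    have h1 : N + 1 ≤ q ^ 16 :=
      le_trans hq8 (Nat.pow_le_pow_right hqp.pos (by norm_num))
    exact hNge.trans (by exact_mod_cast h1)
  · refine hqC.trans ?_
    calc C * (N : ℝ) ^ e ≤ X ^ (η / 2) * (X ^ a) ^ e := by gcongr
      _ = X ^ η := by
          rw [← Real.rpow_natCast, ← Real.rpow_mul hX0, ← Real.rpow_add (by linarith)]
          congr 1
          rw [ha]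
          field_simp
          ring

end Vale.Agent.P018
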