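import Vale.Agent.P018.Defs
import Vale.Agent.P018.Residues
import Vale.Agent.P018.SplitPrimes

/-!
# Refining cells by split primes
-/

namespace Vale.Agent.P018

open NumberField Finset MvPolynomial

variable {d : ℕ} {L : Type} [Field L] [NumberField L]

/-- Reduction of a point modulo `q`. -/
def Pt.red (q : ℕ) (z : Pt d L) : ZMod q × (Fin d → ZMod q) := ((z.m : ZMod q), fun l => (z.c l : ZMod q))

lemma exists_residue_map (D : RootData d L) {q : ℕ} (hq : SplitPrime d D.g q) :
    ∃ (V : ValuationSubring L) (hV : ∀ x : 𝓞 L, (x : L) ∈ V) (ι : ZMod q →+* IsLocalRing.ResidueField V)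
      (r : Fin d → ZMod q), Function.Injective ι ∧ Function.Injective r ∧
      ∀ i, IsLocalRing.residue V ⟨_, hV (D.θ i)⟩ = ι (r i) := by
  classical
  obtain ⟨hqp, r, hr, hrg⟩ := hq
  have : Fact q.Prime := ⟨hqp⟩
  have hunit : ¬ IsUnit (q : 𝓞 L) := by
    intro h
    have h1 := h.map (Algebra.norm ℤ)
    have h2 : Algebra.norm ℤ (q : 𝓞 L) = (q : ℤ) ^ Module.finrank ℤ (𝓞 L) := by
      rw [show (q : 𝓞 L) = algebraMap ℤ (𝓞 L) (q : ℤ) by simp, Algebra.norm_algebraMap]
    rw [h2, isUnit_pow_iff (Module.finrank_pos).ne', Int.isUnit_iff_natAbs_eq] at h1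
    exact hqp.ne_one (by simpa using h1)
  obtain ⟨P, hPmax, hle⟩ := Ideal.exists_le_maximal (Ideal.span {(q : 𝓞 L)})
    (fun h => hunit (Ideal.span_singleton_eq_top.1 h))
  have hqP : (q : 𝓞 L) ∈ P := hle (Ideal.mem_span_singleton_self _)
  have hq0 : (q : 𝓞 L) ≠ 0 := by exact_mod_cast hqp.ne_zero
  let v : IsDedekindDomain.HeightOneSpectrum (𝓞 L) :=
    ⟨P, hPmax.isPrime, fun h => hq0 (by rw [h] at hqP; exact hqP)⟩
  let V : ValuationSubring L := (v.valuation L).valuationSubring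
  have hV : ∀ x : 𝓞 L, (x : L) ∈ V := fun x => v.valuation_le_one x
  let inc : 𝓞 L →+* V := (algebraMap (𝓞 L) L).codRestrict V.toSubring hV
  let red : 𝓞 L →+* IsLocalRing.ResidueField V := (IsLocalRing.residue V).comp inc
  have hqred : red (q : 𝓞 L) = 0 := by
    simp only [red, RingHom.comp_apply, IsLocalRing.residue_eq_zero_iff,
      IsLocalRing.mem_maximalIdeal, mem_nonunits_iff]
    intro hu
    obtain ⟨w, hw⟩ := isUnit_iff_exists_inv.1 hu
    have h1 : v.valuation L ((q : 𝓞 L) : L) < 1 := (v.valuation_lt_one_iff_mem _).2 hqP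
    have h2 := congrArg (fun x : V => v.valuation L (x : L)) hw
    simp only [MulMemClass.coe_mul, map_mul, OneMemClass.coe_one, map_one] at h2
    have h3 : v.valuation L (w : L) ≤ 1 := w.2
    have h4 : v.valuation L ((q : 𝓞 L) : L) * v.valuation L (w : L) < 1 :=
      mul_lt_one_of_lt_of_le h1 h3
    exact h4.ne h2
  have hchar : CharP (IsLocalRing.ResidueField V) q := by
    rw [CharP.charP_iff_prime_eq_zero hqp, ← map_natCast red]
    exact hqred
  let ι : ZMod q →+* IsLocalRing.ResidueField V := ZMod.castHom dvd_rfl _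
  refine ⟨V, hV, ι, ?_⟩
  have hroots : (D.g.map (algebraMap ℤ (IsLocalRing.ResidueField V))) =
      ∏ i, (Polynomial.X - Polynomial.C (ι (r i))) := by
    rw [show algebraMap ℤ (IsLocalRing.ResidueField V) = ι.comp (Int.castRingHom (ZMod q)) from
      RingHom.ext_int _ _, ← Polynomial.map_map, hrg, Polynomial.map_prod]
    simp
  have hθ : ∀ i, ∃ j, red (D.θ i) = ι (r j) := by
    intro i
    have h1 : (D.g.map (algebraMap ℤ (IsLocalRing.ResidueField V))).eval (red (D.θ i)) = 0 := by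
      rw [show algebraMap ℤ (IsLocalRing.ResidueField V) = red.comp (algebraMap ℤ (𝓞 L)) from
        RingHom.ext_int _ _, ← Polynomial.map_map, D.split, Polynomial.map_prod,
        Polynomial.eval_prod]
      refine Finset.prod_eq_zero (Finset.mem_univ i) ?_
      simp
    rw [hroots, Polynomial.eval_prod, Finset.prod_eq_zero_iff] at h1
    obtain ⟨j, -, hj⟩ := h1
    exact ⟨j, by simpa [sub_eq_zero] using hj⟩
  choose j hj using hθ
  have hι : Function.Injective ι := ι.injective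
  refine ⟨fun i => r (j i), hι, ?_, fun i => by rw [← hj i]; rfl⟩
  have hmaps : ∏ i, (Polynomial.X - Polynomial.C (ι (r (j i)))) =
      ∏ i, (Polynomial.X - Polynomial.C (ι (r i))) := by
    rw [← hroots, show algebraMap ℤ (IsLocalRing.ResidueField V) = red.comp (algebraMap ℤ (𝓞 L))
      from RingHom.ext_int _ _, ← Polynomial.map_map, D.split, Polynomial.map_prod]
    refine Finset.prod_congr rfl fun i _ => ?_
    simp [hj i]
  have key : ∀ w : Fin d → IsLocalRing.ResidueField V,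
      (∏ i, (Polynomial.X - Polynomial.C (w i))).roots = Finset.univ.val.map w := fun w => by
    rw [Finset.prod_eq_multiset_prod,
      ← Polynomial.roots_multiset_prod_X_sub_C (Finset.univ.val.map w), Multiset.map_map]
    rfl
  have hms := congrArg Polynomial.roots hmaps
  rw [key, key] at hms
  have hnd : (Finset.univ.val.map fun i => ι (r (j i))).Nodup := by
    rw [hms]; exact (Finset.univ : Finset (Fin d)).nodup.map (hι.comp hr)
  intro a b hab
  exact (Multiset.inj_on_of_nodup_map hnd) a (Finset.mem_univ a) b (Finset.mem_univ b)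
    (congrArg ι hab)

/-- Residues modulo a split prime of a set satisfying relations. -/
theorem card_red_le (D : RootData d L) {q : ℕ} (hq : SplitPrime d D.g q) (δ Dm : ℕ)
    (W : Finset (Pt d L)) [DecidableEq (Option (Fin d) → L)]
    (hrel : Rel δ Dm univ (W.image D.coord)) [DecidableEq (ZMod q × (Fin d → ZMod q))] :
    (W.image (Pt.red q)).card ≤ (2 ^ (d + 1) * δ + 2) ^ (d + 1) * q ^ Dm := by
  classical
  have : Fact q.Prime := ⟨hq.1⟩
  obtain ⟨V, hV, ι, r, hι, hr, hθ⟩ := exists_residue_map D hq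
  let inc : 𝓞 L →+* V := (algebraMap (𝓞 L) L).codRestrict V.toSubring hV
  let red : 𝓞 L →+* IsLocalRing.ResidueField V := (IsLocalRing.residue V).comp inc
  let redV : (Option (Fin d) → L) → Option (Fin d) → IsLocalRing.ResidueField V := fun z i =>
    if h : z i ∈ V then IsLocalRing.residue V ⟨z i, h⟩ else 0
  let Φ : ZMod q × (Fin d → ZMod q) → Option (Fin d) → IsLocalRing.ResidueField V := fun u o =>
    o.elim (ι u.1) (fun i => ι (∑ l, u.2 l * r i ^ (l : ℕ)))
  have hΦ : Function.Injective Φ := by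
    rintro ⟨u1, u2⟩ ⟨v1, v2⟩ h
    have h1 := hι (congrFun h none)
    have h2 : ∀ i, ∑ l, (u2 - v2) l * r i ^ (l : ℕ) = 0 := by
      intro i
      have := hι (congrFun h (some i))
      simp only [Pi.sub_apply, sub_mul, Finset.sum_sub_distrib, sub_eq_zero]
      exact this
    have h3 := Matrix.eq_zero_of_forall_index_sum_mul_pow_eq_zero hr h2
    rw [sub_eq_zero] at h3
    simp only at h1
    rw [h1, h3]
  have hmem : ∀ (z : Pt d L) (o : Option (Fin d)), D.coord z o ∈ V := by
    intro z o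
    cases o with
    | none => simpa [RootData.coord] using hV (z.m : 𝓞 L)
    | some i => exact hV _
  have hred : ∀ z : Pt d L, redV (D.coord z) = Φ (Pt.red q z) := by
    intro z
    funext o
    simp only [redV, dif_pos (hmem z o)]
    cases o with
    | none =>
      show _ = ι (z.m : ZMod q)
      have e : (⟨D.coord z none, hmem z none⟩ : V) = inc (z.m : 𝓞 L) := by
        apply Subtype.ext
        simp [inc, RootData.coord]
      rw [e, map_intCast ι, show IsLocalRing.residue V (inc (z.m : 𝓞 L)) = red (z.m : 𝓞 L) from rfl,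
        map_intCast red]
    | some i =>
      show _ = ι (∑ l, (z.c l : ZMod q) * r i ^ (l : ℕ))
      have e : (⟨D.coord z (some i), hmem z (some i)⟩ : V) = inc (D.ρ z i) := by
        apply Subtype.ext
        simp [inc, RootData.coord]
      rw [e, show IsLocalRing.residue V (inc (D.ρ z i)) = red (D.ρ z i) from rfl]
      simp only [RootData.ρ, map_sum, map_mul, map_pow, map_intCast]
      refine Finset.sum_congr rfl fun l _ => ?_
      rw [show red (D.θ i) = ι (r i) from hθ i]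
  have h := card_residues_le V δ Dm (W.image D.coord) hrel
    (fun z hz o => by
      obtain ⟨w, _, rfl⟩ := Finset.mem_image.1 hz
      exact hmem w o)
    (Finset.univ.image ι)
    (by rw [Finset.card_image_of_injective _ hι, Finset.card_univ, ZMod.card]; exact hq.1.one_le)
    redV (fun z hz i hv => by simp [redV, hv])
    (fun z hz o => by
      obtain ⟨w, _, rfl⟩ := Finset.mem_image.1 hz
      rw [hred w]
      cases o <;> exact Finset.mem_image.2 ⟨_, Finset.mem_univ _, rfl⟩)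
  rw [Finset.card_image_of_injective _ hι, Finset.card_univ, ZMod.card, Fintype.card_option,
    Fintype.card_fin, Finset.image_image] at h
  refine le_trans (le_of_eq ?_) h
  rw [show redV ∘ D.coord = Φ ∘ Pt.red q from funext hred, ← Finset.image_image,
    Finset.card_image_of_injective _ hΦ]

lemma natCast_dvd_of_primes {S : Finset ℕ} (hS : ∀ q ∈ S, q.Prime) {x : ℤ}
    (h : ∀ q ∈ S, (q : ℤ) ∣ x) : ((∏ q ∈ S, q : ℕ) : ℤ) ∣ x := by
  rw [Int.natCast_dvd]
  exact Finset.prod_primes_dvd _ (fun q hq => (hS q hq).prime)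
    (fun q hq => Int.natCast_dvd.1 (h q hq))

/-- Split a set into classes modulo a product of split primes. -/
theorem exists_refinement (D : RootData d L) (S : Finset ℕ) (hS : ∀ q ∈ S, SplitPrime d D.g q)
    (δ Dm : ℕ) (W : Finset (Pt d L)) [DecidableEq (Option (Fin d) → L)]
    (hrel : Rel δ Dm univ (W.image D.coord)) :
    ∃ PS : Finset (Finset (Pt d L)),
      PS.card ≤ ((2 ^ (d + 1) * δ + 2) ^ (d + 1)) ^ S.card * (∏ q ∈ S, q) ^ Dm ∧
      (∀ z ∈ W, ∃ U ∈ PS, z ∈ U) ∧
      ∀ U ∈ PS, U ⊆ W ∧ ∀ z ∈ U, ∀ z' ∈ U, Pt.Cong (∏ q ∈ S, q) z z' := by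
  classical
  let key : Pt d L → ((q : S) → ZMod q.1 × (Fin d → ZMod q.1)) := fun z q => Pt.red q.1 z
  refine ⟨(W.image key).image fun u => W.filter fun z => key z = u, ?_, ?_, ?_⟩
  · refine Finset.card_image_le.trans ?_
    have h1 : W.image key ⊆ Fintype.piFinset fun q : S => W.image (Pt.red q.1) := by
      intro u hu
      obtain ⟨z, hz, rfl⟩ := Finset.mem_image.1 hu
      rw [Fintype.mem_piFinset]
      exact fun q => Finset.mem_image_of_mem _ hz
    refine (Finset.card_le_card h1).trans ?_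
    rw [Fintype.card_piFinset]
    refine (Finset.prod_le_prod' fun q _ => card_red_le D (hS q.1 q.2) δ Dm W hrel).trans
      (le_of_eq ?_)
    rw [Finset.prod_mul_distrib, Finset.prod_const, Finset.card_univ, Fintype.card_coe,
      Finset.prod_pow, Finset.prod_coe_sort S (fun q => q)]
  · intro z hz
    exact ⟨_, Finset.mem_image.2 ⟨_, Finset.mem_image_of_mem key hz, rfl⟩,
      Finset.mem_filter.2 ⟨hz, rfl⟩⟩
  · intro U hU
    obtain ⟨u, -, rfl⟩ := Finset.mem_image.1 hU
    refine ⟨Finset.filter_subset _ _, fun z hz z' hz' => ?_⟩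
    have h : key z = key z' := (Finset.mem_filter.1 hz).2.trans (Finset.mem_filter.1 hz').2.symm
    refine ⟨natCast_dvd_of_primes (fun q hq => (hS q hq).1) fun q hq => ?_, fun l =>
      natCast_dvd_of_primes (fun q hq => (hS q hq).1) fun q hq => ?_⟩
    · have h1 := congrArg Prod.fst (congrFun h ⟨q, hq⟩)
      simp only [key, Pt.red] at h1
      exact (ZMod.intCast_zmod_eq_zero_iff_dvd _ q).1 (by push_cast; rw [h1, sub_self])
    · have h1 := congrFun (congrArg Prod.snd (congrFun h ⟨q, hq⟩)) l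
      simp only [key, Pt.red] at h1
      exact (ZMod.intCast_zmod_eq_zero_iff_dvd _ q).1 (by push_cast; rw [h1, sub_self])

lemma exists_subset_prod {X e η : ℝ} (hX : 1 ≤ X) (hη : 0 ≤ η) (he : 0 ≤ e) (S : Finset ℕ)
    (hS : ∀ q ∈ S, (q : ℝ) ≤ X ^ η) (hbig : X ^ e ≤ ((∏ q ∈ S, q : ℕ) : ℝ)) :
    ∃ S' ⊆ S, X ^ e ≤ ((∏ q ∈ S', q : ℕ) : ℝ) ∧ ((∏ q ∈ S', q : ℕ) : ℝ) ≤ X ^ (e + η) := by
  classical
  induction S using Finset.induction_on with
  | empty =>
    refine ⟨∅, subset_rfl, hbig, ?_⟩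
    simpa using Real.one_le_rpow hX (by linarith)
  | insert a S ha ih =>
    by_cases h : X ^ e ≤ ((∏ q ∈ S, q : ℕ) : ℝ)
    · obtain ⟨S', h1, h2⟩ := ih (fun q hq => hS q (Finset.mem_insert_of_mem hq)) h
      exact ⟨S', h1.trans (Finset.subset_insert _ _), h2⟩
    · refine ⟨insert a S, subset_rfl, hbig, ?_⟩
      push Not at h
      rw [Finset.prod_insert ha, Nat.cast_mul, Real.rpow_add (by linarith), mul_comm]
      exact mul_le_mul h.le (hS a (Finset.mem_insert_self _ _)) (Nat.cast_nonneg _) (by positivity)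

/-- Moduli of prescribed size built from few split primes. -/
theorem exists_modulus (D : RootData d L) (C₀ : ℝ) {e η : ℝ} (he : 0 ≤ e) (hη : 0 < η)
    (hη1 : η < 1) :
    ∃ K : ℕ, ∀ K₀ : ℕ, ∃ X₁ : ℝ, ∀ X : ℝ, X₁ ≤ X → ∀ avoid : Finset ℕ, avoid.card ≤ K₀ →
      ∃ S : Finset ℕ, S.card ≤ K ∧ Disjoint S avoid ∧
        (∀ q ∈ S, SplitPrime d D.g q ∧ C₀ < q ∧ (q : ℝ) < X) ∧
        X ^ e ≤ ((∏ q ∈ S, q : ℕ) : ℝ) ∧ ((∏ q ∈ S, q : ℕ) : ℝ) ≤ X ^ (e + η) := by
  obtain ⟨τ, hτ, hP⟩ := exists_split_primes D η hη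
  refine ⟨⌈e / τ⌉₊, fun K₀ => ?_⟩
  obtain ⟨X₁, hX₁⟩ := hP (⌈e / τ⌉₊ + K₀)
  refine ⟨max X₁ (max 2 ((max C₀ 1 + 1) ^ (1 / τ))), fun X hX avoid hav => ?_⟩
  have hX2 : 2 ≤ X := le_trans (le_trans (le_max_left _ _) (le_max_right _ _)) hX
  have hXC : (max C₀ 1 + 1) ^ (1 / τ) ≤ X :=
    le_trans (le_trans (le_max_right _ _) (le_max_right _ _)) hX
  have hXτ : max C₀ 1 + 1 ≤ X ^ τ := by
    have h0 : 0 ≤ max C₀ 1 + 1 := by have := le_max_right C₀ 1; linarith
    have h1 := Real.rpow_le_rpow (Real.rpow_nonneg h0 _) hXC hτ.le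
    rwa [← Real.rpow_mul h0, one_div_mul_cancel hτ.ne', Real.rpow_one] at h1
  obtain ⟨S₀, hcard, hS₀⟩ := hX₁ X (le_trans (le_max_left _ _) hX)
  have hc : ⌈e / τ⌉₊ ≤ (S₀ \ avoid).card := by
    have := Finset.le_card_sdiff avoid S₀
    omega
  obtain ⟨S₁, hS₁, hS₁c⟩ := Finset.exists_subset_card_eq hc
  have hmem : ∀ q ∈ S₁, SplitPrime d D.g q ∧ X ^ τ ≤ (q : ℝ) ∧ (q : ℝ) ≤ X ^ η := fun q hq =>
    hS₀ q (Finset.mem_sdiff.1 (hS₁ hq)).1
  have hbig : X ^ e ≤ ((∏ q ∈ S₁, q : ℕ) : ℝ) := by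
    push_cast
    calc X ^ e ≤ X ^ (τ * (S₁.card : ℝ)) := by
          refine Real.rpow_le_rpow_of_exponent_le (by linarith) ?_
          rw [hS₁c]
          have := (div_le_iff₀ hτ).1 (Nat.le_ceil (e / τ))
          linarith
      _ = ∏ _q ∈ S₁, X ^ τ := by
          rw [Finset.prod_const, Real.rpow_mul (by linarith), Real.rpow_natCast]
      _ ≤ _ := Finset.prod_le_prod (fun q _ => Real.rpow_nonneg (by linarith) _)
          fun q hq => (hmem q hq).2.1
  obtain ⟨S, hSS, h1, h2⟩ := exists_subset_prod (by linarith) hη.le he S₁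
    (fun q hq => (hmem q hq).2.2) hbig
  refine ⟨S, (Finset.card_le_card hSS).trans hS₁c.le, ?_, fun q hq => ?_, h1, h2⟩
  · exact Finset.disjoint_left.2 fun q hq hqa => (Finset.mem_sdiff.1 (hS₁ (hSS hq))).2 hqa
  · obtain ⟨hsp, hlo, hhi⟩ := hmem q (hSS hq)
    refine ⟨hsp, ?_, lt_of_le_of_lt hhi (Real.rpow_lt_self_of_one_lt (by linarith) hη1)⟩
    have := le_max_left C₀ 1
    linarith

end Vale.Agent.P018
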