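import Mathlib

/-!
# Polynomial relations among coordinates of a finite point set
-/

namespace Vale.Agent.P018

open Finset MvPolynomial

variable {ι : Type*} {K : Type*} [Field K]

/-- Every `D + 1` coordinates (inside `M`) satisfy a nonzero relation of degree `≤ δ` on `Z`. -/
def Rel (δ D : ℕ) (M : Finset ι) (Z : Finset (ι → K)) : Prop :=
  ∀ U ⊆ M, U.card = D + 1 →
    ∃ P : MvPolynomial ι K, P ≠ 0 ∧ P.vars ⊆ U ∧ P.totalDegree ≤ δ ∧ ∀ z ∈ Z, eval z P = 0

lemma vars_subset_of_dvd {p q : MvPolynomial ι K} (h : p ∣ q) (hq : q ≠ 0) : p.vars ⊆ q.vars := by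
  classical
  obtain ⟨r, rfl⟩ := h
  intro i hi
  rw [mem_vars_iff_degreeOf_ne_zero] at hi ⊢
  rw [degreeOf_mul_eq (left_ne_zero_of_mul hq) (right_ne_zero_of_mul hq)]
  omega

lemma totalDegree_pos_of_irreducible {p : MvPolynomial ι K} (hp : Irreducible p) :
    1 ≤ p.totalDegree := by
  by_contra h
  push Not at h
  have h0 : p.totalDegree = 0 := by omega
  rw [totalDegree_eq_zero_iff_eq_C] at h0
  have hc : coeff 0 p ≠ 0 := fun h => hp.ne_zero (by rw [h0, h, map_zero])
  exact hp.not_isUnit (h0 ▸ (isUnit_iff_ne_zero.2 hc).map C)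

lemma exists_irreducible_factors (P : MvPolynomial ι K) (hP : P ≠ 0) :
    ∃ S : Finset (MvPolynomial ι K), S.card ≤ P.totalDegree ∧
      (∀ G ∈ S, Irreducible G ∧ G.vars ⊆ P.vars ∧ G.totalDegree ≤ P.totalDegree) ∧
      (∀ z : ι → K, eval z P = 0 → ∃ G ∈ S, eval z G = 0) := by
  classical
  obtain ⟨fs, hirr, u, hu⟩ := WfDvdMonoid.exists_factors P hP
  refine ⟨fs.toFinset, ?_, ?_, ?_⟩
  · refine (Multiset.toFinset_card_le _).trans ?_
    have hmono : ∀ s : Multiset (MvPolynomial ι K), (∀ G ∈ s, Irreducible G) →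
        s.prod ≠ 0 ∧ Multiset.card s ≤ s.prod.totalDegree := by
      intro s
      induction s using Multiset.induction with
      | empty => simp
      | cons a s ih =>
        intro h
        have ha := h a (Multiset.mem_cons_self _ _)
        obtain ⟨h0, hc⟩ := ih fun G hG => h G (Multiset.mem_cons_of_mem hG)
        rw [Multiset.prod_cons, Multiset.card_cons]
        refine ⟨mul_ne_zero ha.ne_zero h0, ?_⟩
        rw [totalDegree_mul_of_isDomain ha.ne_zero h0]
        have := totalDegree_pos_of_irreducible ha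
        omega
    exact ((hmono fs hirr).2).trans (totalDegree_le_of_dvd_of_isDomain ⟨_, hu.symm⟩ hP)
  · intro G hG
    rw [Multiset.mem_toFinset] at hG
    have hdvd : G ∣ P := (Multiset.dvd_prod hG).trans ⟨_, hu.symm⟩
    exact ⟨hirr G hG, vars_subset_of_dvd hdvd hP, totalDegree_le_of_dvd_of_isDomain hdvd hP⟩
  · intro z hz
    rw [← hu, map_mul] at hz
    rcases mul_eq_zero.1 hz with h | h
    · rw [map_multiset_prod] at h
      obtain ⟨G, hG, h0⟩ := Multiset.mem_map.1 (Multiset.prod_eq_zero_iff.1 h)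
      exact ⟨G, Multiset.mem_toFinset.2 hG, h0⟩
    · exact absurd h (IsUnit.ne_zero (u.isUnit.map (eval z)))

section split

variable [DecidableEq ι] (y : ι)

/-- View a polynomial as a univariate polynomial in the variable `y`. -/
noncomputable def splitVar :
    MvPolynomial ι K ≃ₐ[K] Polynomial (MvPolynomial {i // i ≠ y} K) :=
  (renameEquiv K (Equiv.optionSubtypeNe y).symm).trans (optionEquivLeft K _)

lemma eval_splitVar (z : ι → K) (P : MvPolynomial ι K) :
    eval z P = Polynomial.eval (z y)
      (Polynomial.map (eval fun i : {i // i ≠ y} => z i) (splitVar y P)) := by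
  rw [splitVar, AlgEquiv.trans_apply, ← optionEquivLeft_elim_eval, renameEquiv_apply,
    eval_rename]
  refine congrArg (fun u => eval u P) (funext fun i => ?_)
  by_cases h : i = y
  · subst h; simp
  · simp [Equiv.optionSubtypeNe_symm_of_ne h]

lemma natDegree_splitVar (P : MvPolynomial ι K) :
    (splitVar y P).natDegree = P.degreeOf y := by
  rw [splitVar, AlgEquiv.trans_apply, natDegree_optionEquivLeft, renameEquiv_apply]
  have := degreeOf_rename_of_injective (p := P) (Equiv.optionSubtypeNe y).symm.injective y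
  simpa using this

lemma totalDegree_coeff_splitVar (P : MvPolynomial ι K) (i : ℕ) :
    ((splitVar y P).coeff i).totalDegree ≤ P.totalDegree := by
  rw [splitVar, AlgEquiv.trans_apply]
  refine le_trans (totalDegree_coeff_optionEquivLeft_le _ _ _ _) ?_
  rw [renameEquiv_apply]
  exact totalDegree_rename_le _ _

lemma mem_supported_coeff_splitVar (P : MvPolynomial ι K) (i : ℕ) :
    (splitVar y P).coeff i ∈ supported K ({x | (x : ι) ∈ P.vars} : Set {i // i ≠ y}) := by
  classical
  rw [mem_supported]
  intro x hx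
  rw [Finset.mem_coe, mem_vars_iff_mem_support] at hx
  obtain ⟨m, hm, hxm⟩ := hx
  rw [splitVar, AlgEquiv.trans_apply, mem_support_coeff_optionEquivLeft, renameEquiv_apply] at hm
  show (x : ι) ∈ P.vars
  have h1 : (some x) ∈ (rename (Equiv.optionSubtypeNe y).symm P).vars := by
    rw [mem_vars_iff_mem_support]
    refine ⟨_, hm, ?_⟩
    rw [Finsupp.mem_support_iff] at hxm ⊢
    simpa using hxm
  have h2 := vars_rename (Equiv.optionSubtypeNe y).symm P h1
  rw [Finset.mem_image] at h2
  obtain ⟨j, hj, he⟩ := h2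
  rw [Equiv.symm_apply_eq] at he
  simpa [he] using hj

end split

lemma vars_rename_val {y : ι} (R : MvPolynomial {i // i ≠ y} K) (U : Finset ι)
    (h : R ∈ supported K ({x | (x : ι) ∈ U} : Set {i // i ≠ y})) :
    (rename Subtype.val R).vars ⊆ U := by
  classical
  intro i hi
  have := vars_rename _ R hi
  rw [Finset.mem_image] at this
  obtain ⟨x, hx, rfl⟩ := this
  exact mem_supported.1 h hx

/-- Eliminating a common variable from two non-associated irreducible polynomials. -/
lemma exists_eliminant [DecidableEq ι] (y : ι) (G H : MvPolynomial ι K)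
    (hG : Irreducible G) (hH : Irreducible H) (hne : ¬ Associated G H)
    (hyG : y ∈ G.vars) (hyH : y ∈ H.vars) (U : Finset ι)
    (hGU : G.vars ⊆ insert y U) (hHU : H.vars ⊆ insert y U) (δ : ℕ)
    (hGd : G.totalDegree ≤ δ) (hHd : H.totalDegree ≤ δ) :
    ∃ P : MvPolynomial ι K, P ≠ 0 ∧ P.vars ⊆ U ∧ P.totalDegree ≤ 2 * δ * δ ∧
      ∀ z, eval z G = 0 → eval z H = 0 → eval z P = 0 := by
  classical
  set g := splitVar y G with hg
  set h := splitVar y H with hh
  have hgi : Irreducible g := hG.map (splitVar y)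
  have hhi : Irreducible h := hH.map (splitVar y)
  have hgd : g.natDegree ≠ 0 := by
    rw [hg, natDegree_splitVar]; exact mem_vars_iff_degreeOf_ne_zero.1 hyG
  have hhd : h.natDegree ≠ 0 := by
    rw [hh, natDegree_splitVar]; exact mem_vars_iff_degreeOf_ne_zero.1 hyH
  have hgp := hgi.isPrimitive hgd
  have hhp := hhi.isPrimitive hhd
  let F := FractionRing (MvPolynomial {i // i ≠ y} K)
  let a := algebraMap (MvPolynomial {i // i ≠ y} K) F
  have ha : Function.Injective a := IsFractionRing.injective _ _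
  have hgF : Irreducible (g.map a) := hgp.irreducible_iff_irreducible_map_fraction_map.1 hgi
  have hnd : ¬ g.map a ∣ h.map a := by
    intro hd
    have h1 : g ∣ h := (hgp.dvd_iff_fraction_map_dvd_fraction_map (K := F)).2 hd
    exact hne ((Irreducible.associated_of_dvd hG hH
      ((map_dvd_iff (splitVar y)).1 h1)))
  have hco : IsCoprime (g.map a) (h.map a) := hgF.coprime_iff_not_dvd.2 hnd
  set r := Polynomial.resultant g h with hr
  have hr0 : r ≠ 0 := by
    intro h0
    apply Polynomial.resultant_ne_zero _ _ hco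
    rw [Polynomial.natDegree_map_eq_of_injective ha, Polynomial.natDegree_map_eq_of_injective ha,
      Polynomial.resultant_map_map, ← hr, h0, map_zero]
  have hgδ : g.natDegree ≤ δ := by
    rw [hg, natDegree_splitVar]; exact (degreeOf_le_totalDegree _ _).trans hGd
  have hhδ : h.natDegree ≤ δ := by
    rw [hh, natDegree_splitVar]; exact (degreeOf_le_totalDegree _ _).trans hHd
  have hsupp : ∀ i : ℕ, g.coeff i ∈ supported K ({x | (x : ι) ∈ U} : Set {i // i ≠ y}) ∧
      h.coeff i ∈ supported K ({x | (x : ι) ∈ U} : Set {i // i ≠ y}) := by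
    intro i
    constructor
    · refine supported_mono ?_ (mem_supported_coeff_splitVar y G i)
      intro x hx
      exact (Finset.mem_insert.1 (hGU hx)).resolve_left x.2
    · refine supported_mono ?_ (mem_supported_coeff_splitVar y H i)
      intro x hx
      exact (Finset.mem_insert.1 (hHU hx)).resolve_left x.2
  have hentry : ∀ i j, (Polynomial.sylvester g h g.natDegree h.natDegree i j).totalDegree ≤ δ ∧
      Polynomial.sylvester g h g.natDegree h.natDegree i j ∈
        supported K ({x | (x : ι) ∈ U} : Set {i // i ≠ y}) := by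
    intro i j
    simp only [Polynomial.sylvester, Matrix.of_apply]
    refine Fin.addCases (fun j₁ => ?_) (fun j₁ => ?_) j
    · simp only [Fin.addCases_left]
      split
      · exact ⟨(totalDegree_coeff_splitVar y H _).trans hHd, (hsupp _).2⟩
      · exact ⟨by simp, zero_mem _⟩
    · simp only [Fin.addCases_right]
      split
      · exact ⟨(totalDegree_coeff_splitVar y G _).trans hGd, (hsupp _).1⟩
      · exact ⟨by simp, zero_mem _⟩
  have hrd : r.totalDegree ≤ 2 * δ * δ ∧
      r ∈ supported K ({x | (x : ι) ∈ U} : Set {i // i ≠ y}) := by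
    have e : r = (Polynomial.sylvester g h g.natDegree h.natDegree).det := rfl
    rw [e, Matrix.det_apply]
    constructor
    · refine (totalDegree_finsetSum _ _).trans (Finset.sup_le fun σ _ => ?_)
      refine (totalDegree_smul_le _ _).trans ((totalDegree_finsetProd _ _).trans ?_)
      refine (Finset.sum_le_sum fun i _ => (hentry (σ i) i).1).trans ?_
      simp only [Finset.sum_const, Finset.card_univ, Fintype.card_fin, smul_eq_mul]
      calc (g.natDegree + h.natDegree) * δ ≤ (δ + δ) * δ := by gcongr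
        _ = 2 * δ * δ := by ring
    · refine sum_mem fun σ _ => ?_
      rw [Units.smul_def, zsmul_eq_mul]
      refine mul_mem (intCast_mem _ _) ?_
      exact prod_mem fun i _ => (hentry (σ i) i).2
  refine ⟨rename Subtype.val r, ?_, vars_rename_val r U hrd.2,
    (totalDegree_rename_le _ _).trans hrd.1, ?_⟩
  · intro h0
    exact hr0 (rename_injective _ Subtype.val_injective (by rw [h0, map_zero]))
  · intro z hzG hzH
    obtain ⟨p, q, -, -, e⟩ := Polynomial.exists_mul_add_mul_eq_C_resultant g h le_rfl le_rfl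
      (Or.inl hgd)
    rw [eval_splitVar y] at hzG hzH
    have e2 := congrArg (fun t => Polynomial.eval (z y)
      (Polynomial.map (eval fun i : {i // i ≠ y} => z i) t)) e
    simp only [Polynomial.map_add, Polynomial.map_mul, Polynomial.eval_add, Polynomial.eval_mul] at e2
    rw [← hg] at hzG
    rw [← hh] at hzH
    rw [hzG, hzH, zero_mul, zero_mul, add_zero, Polynomial.map_C, Polynomial.eval_C] at e2
    rw [eval_rename]
    exact e2.symm

lemma exists_single_relation (Z : Finset (ι → K)) (u : ι) :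
    ∃ P : MvPolynomial ι K, P ≠ 0 ∧ P.vars ⊆ {u} ∧ P.totalDegree ≤ Z.card ∧
      ∀ z ∈ Z, eval z P = 0 := by
  classical
  refine ⟨∏ z ∈ Z, (X u - C (z u)), ?_, ?_, ?_, ?_⟩
  · refine Finset.prod_ne_zero_iff.2 fun z _ h0 => ?_
    have h1 := congrArg (eval fun _ => z u + 1) h0
    simp at h1
  · refine (vars_prod _).trans (Finset.biUnion_subset.2 fun z _ => ?_)
    refine (vars_sub_subset _).trans (Finset.union_subset ?_ ?_)
    · rw [vars_X]
    · rw [vars_C]; exact Finset.empty_subset _
  · refine (totalDegree_finsetProd _ _).trans ?_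
    calc ∑ z ∈ Z, (X u - C (z u) : MvPolynomial ι K).totalDegree ≤ ∑ _z ∈ Z, 1 := by
          refine Finset.sum_le_sum fun z _ => (totalDegree_sub _ _).trans ?_
          simp [totalDegree_X]
      _ = Z.card := by simp
  · intro z hz
    rw [map_prod]
    exact Finset.prod_eq_zero hz (by simp)

/-- If all coordinate sets `{y} ∪ T` satisfy relations and `y` separates the points, then the
point set is a bounded union of parts in which every `D + 1` coordinates satisfy relations. -/
theorem exists_decomposition [Fintype ι] [DecidableEq ι] (y : ι) (δ : ℕ) {D : ℕ} (hD : 1 ≤ D)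
    (Z : Finset (ι → K)) (hinj : Set.InjOn (fun z : ι → K => z y) (Z : Set (ι → K)))
    (h : ∀ T : Finset ι, y ∉ T → T.card = D → ∃ P : MvPolynomial ι K,
      P ≠ 0 ∧ P.vars ⊆ insert y T ∧ P.totalDegree ≤ δ ∧ ∀ z ∈ Z, eval z P = 0) :
    ∃ PS : Finset (Finset (ι → K)), PS.card ≤ (δ + 1) ^ (2 ^ Fintype.card ι) ∧
      (∀ z ∈ Z, ∃ W ∈ PS, z ∈ W) ∧ ∀ W ∈ PS, W ⊆ Z ∧ Rel (2 * δ * δ + δ) D univ W := by
  classical
  let TS := (univ : Finset (Finset ι)).filter fun T => y ∉ T ∧ T.card = D
  have hT : ∀ T : {T // T ∈ TS}, ∃ S : Finset (MvPolynomial ι K), S.card ≤ δ ∧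
      (∀ G ∈ S, Irreducible G ∧ G.vars ⊆ insert y T.1 ∧ G.totalDegree ≤ δ) ∧
      ∀ z ∈ Z, ∃ G ∈ S, eval z G = 0 := by
    rintro ⟨T, hT⟩
    simp only [TS, mem_filter, Finset.mem_univ, true_and] at hT
    obtain ⟨P, hP0, hPv, hPd, hPz⟩ := h T hT.1 hT.2
    obtain ⟨S, hS1, hS2, hS3⟩ := exists_irreducible_factors P hP0
    exact ⟨S, hS1.trans hPd, fun G hG => ⟨(hS2 G hG).1, (hS2 G hG).2.1.trans hPv,
      (hS2 G hG).2.2.trans hPd⟩, fun z hz => hS3 z (hPz z hz)⟩
  choose S hS1 hS2 hS3 using hT
  let choices : Finset ({T // T ∈ TS} → MvPolynomial ι K) := Fintype.piFinset S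
  refine ⟨choices.image fun χ => Z.filter fun z => ∀ T, eval z (χ T) = 0, ?_, ?_, ?_⟩
  · refine Finset.card_image_le.trans ?_
    rw [Fintype.card_piFinset]
    calc ∏ T, (S T).card ≤ ∏ _T : {T // T ∈ TS}, (δ + 1) :=
          Finset.prod_le_prod' fun T _ => (hS1 T).trans (Nat.le_succ _)
      _ = (δ + 1) ^ Fintype.card {T // T ∈ TS} := by simp
      _ ≤ _ := by
          refine Nat.pow_le_pow_right (by omega) ?_
          rw [Fintype.card_coe]
          refine (Finset.card_le_univ _).trans ?_
          simp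
  · intro z hz
    choose χ hχ using fun T => hS3 T z hz
    refine ⟨_, Finset.mem_image.2 ⟨χ, Fintype.mem_piFinset.2 fun T => (hχ T).1, rfl⟩, ?_⟩
    exact Finset.mem_filter.2 ⟨hz, fun T => (hχ T).2⟩
  · intro W hW
    obtain ⟨χ, hχ, rfl⟩ := Finset.mem_image.1 hW
    rw [Fintype.mem_piFinset] at hχ
    refine ⟨Finset.filter_subset _ _, fun U _ hU => ?_⟩
    have hvan : ∀ T, ∀ z ∈ Z.filter (fun z => ∀ T, eval z (χ T) = 0), eval z (χ T) = 0 :=
      fun T z hz => (Finset.mem_filter.1 hz).2 T
    by_cases hy : y ∈ U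
    · have hTS : U.erase y ∈ TS := by
        simp only [TS, mem_filter, Finset.mem_univ, true_and]
        exact ⟨Finset.notMem_erase _ _, by rw [Finset.card_erase_of_mem hy]; omega⟩
      obtain ⟨hirr, hv, hd⟩ := hS2 _ _ (hχ ⟨_, hTS⟩)
      refine ⟨_, hirr.ne_zero, ?_, by omega, hvan _⟩
      rwa [Finset.insert_erase hy] at hv
    have hmem : ∀ t ∈ U, U.erase t ∈ TS := by
      intro t ht
      simp only [TS, mem_filter, Finset.mem_univ, true_and]
      exact ⟨fun h => hy (Finset.mem_of_mem_erase h), by rw [Finset.card_erase_of_mem ht]; omega⟩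
    by_cases hfree : ∃ t : U, y ∉ (χ ⟨_, hmem t t.2⟩).vars
    · obtain ⟨⟨t, ht⟩, hty⟩ := hfree
      obtain ⟨hirr, hv, hd⟩ := hS2 _ _ (hχ ⟨_, hmem t ht⟩)
      refine ⟨_, hirr.ne_zero, ?_, by omega, hvan _⟩
      intro i hi
      rcases Finset.mem_insert.1 (hv hi) with rfl | h
      · exact absurd hi hty
      · exact Finset.mem_of_mem_erase h
    push Not at hfree
    have hmemU : ∀ t (ht : t ∈ U), (χ ⟨_, hmem t ht⟩).vars ⊆ insert y U := fun t ht i hi => by
      rcases Finset.mem_insert.1 ((hS2 _ _ (hχ ⟨_, hmem t ht⟩)).2.1 hi) with rfl | h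
      · exact Finset.mem_insert_self _ _
      · exact Finset.mem_insert_of_mem (Finset.mem_of_mem_erase h)
    by_cases hass : ∃ t t' : U, ¬ Associated (χ ⟨_, hmem t t.2⟩) (χ ⟨_, hmem t' t'.2⟩)
    · obtain ⟨t, t', hne⟩ := hass
      obtain ⟨P, hP0, hPv, hPd, hPz⟩ := exists_eliminant y _ _
        (hS2 _ _ (hχ ⟨_, hmem t t.2⟩)).1 (hS2 _ _ (hχ ⟨_, hmem t' t'.2⟩)).1 hne
        (hfree t) (hfree t') U (hmemU t t.2) (hmemU t' t'.2) δ
        (hS2 _ _ (hχ ⟨_, hmem t t.2⟩)).2.2 (hS2 _ _ (hχ ⟨_, hmem t' t'.2⟩)).2.2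
      exact ⟨P, hP0, hPv, by omega, fun z hz => hPz z (hvan _ z hz) (hvan _ z hz)⟩
    push Not at hass
    -- all chosen factors are associated: a univariate polynomial in `y`
    obtain ⟨t0, ht0⟩ : U.Nonempty := Finset.card_pos.1 (by omega)
    set G := χ ⟨_, hmem t0 ht0⟩ with hG
    have hGirr := (hS2 _ _ (hχ ⟨_, hmem t0 ht0⟩)).1
    have hGy : G.vars ⊆ {y} := by
      intro i hi
      rw [Finset.mem_singleton]
      by_contra hiy
      have hiU : i ∈ U := (Finset.mem_insert.1 (hmemU t0 ht0 hi)).resolve_left hiy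
      have h1 := hass ⟨t0, ht0⟩ ⟨i, hiU⟩
      have h2 := vars_subset_of_dvd h1.dvd (hS2 _ _ (hχ ⟨_, hmem i hiU⟩)).1.ne_zero hi
      rcases Finset.mem_insert.1 ((hS2 _ _ (hχ ⟨_, hmem i hiU⟩)).2.1 h2) with h3 | h3
      · exact hiy h3
      · simp at h3
    set W := Z.filter (fun z => ∀ T, eval z (χ T) = 0) with hW'
    have hWcard : W.card ≤ δ := by
      set gp : Polynomial K := (splitVar y G).map (eval fun _ => (0 : K)) with hgp
      have hroot : ∀ z ∈ W, gp.eval (z y) = 0 := by
        intro z hz
        have h1 := hvan ⟨_, hmem t0 ht0⟩ z hz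
        rw [← hG] at h1
        have h2 : eval (fun i => if i = y then z y else 0) G = eval z G := by
          refine eval₂Hom_congr' rfl (fun i hi _ => ?_) rfl
          have := hGy hi
          rw [Finset.mem_singleton] at this
          subst this; simp
        rw [h1, eval_splitVar y] at h2
        simp only [if_true] at h2
        rw [hgp]
        convert h2 using 4 with i
        funext i
        simp [i.2]
      have hgp0 : gp ≠ 0 := by
        intro h0
        have h1 : splitVar y G = 0 := by
          ext1 i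
          have h2 : (splitVar y G).coeff i ∈ supported K (∅ : Set {i // i ≠ y}) := by
            refine supported_mono ?_ (mem_supported_coeff_splitVar y G i)
            intro x hx
            exact absurd (Finset.mem_singleton.1 (hGy hx)) x.2
          rw [supported_empty, Algebra.mem_bot] at h2
          obtain ⟨c, hc⟩ := h2
          have h3 := congrArg (fun p : Polynomial K => p.coeff i) h0
          simp only [hgp, Polynomial.coeff_map, ← hc, Polynomial.coeff_zero, algebraMap_eq,
            eval_C] at h3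
          simp [← hc, h3]
        exact hGirr.ne_zero ((map_eq_zero_iff _ (splitVar y).injective).1 h1)
      calc W.card ≤ gp.roots.toFinset.card := by
            refine Finset.card_le_card_of_injOn (fun z => z y) ?_ ?_
            · intro z hz
              rw [Finset.mem_coe, Multiset.mem_toFinset, Polynomial.mem_roots hgp0]
              exact hroot z hz
            · exact hinj.mono (by intro z hz; exact (Finset.mem_filter.1 hz).1)
        _ ≤ gp.natDegree := (Multiset.toFinset_card_le _).trans (Polynomial.card_roots' _)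
        _ ≤ (splitVar y G).natDegree := Polynomial.natDegree_map_le
        _ ≤ δ := by
            rw [natDegree_splitVar]
            exact (degreeOf_le_totalDegree _ _).trans (hS2 _ _ (hχ ⟨_, hmem t0 ht0⟩)).2.2
    obtain ⟨P, hP0, hPv, hPd, hPz⟩ := exists_single_relation W t0
    exact ⟨P, hP0, hPv.trans (Finset.singleton_subset_iff.2 ht0), by omega, hPz⟩

end Vale.Agent.P018
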