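import Vale.Agent.P018.Stage
import Vale.Agent.P018.Refine
import Vale.Agent.P018.Relations

/-!
# The descent through the levels of algebraic relations
-/

namespace Vale.Agent.P018

open NumberField Finset MvPolynomial

variable {d : ℕ} {L : Type} [Field L] [NumberField L]

/-- The standing hypotheses on a set of points. -/
structure RootData.Good (D : RootData d L) (k : ℕ) (R : ℤ) (C₀ C₁ X A M : ℝ) (B₀ : ℕ)
    (W : Finset (Pt d L)) : Prop where
  pt : ∀ z ∈ W, D.IsPt k R z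
  bdd : ∀ z ∈ W, D.Bdd C₀ X A M z
  cop : ∀ q : ℕ, q.Prime → C₁ < q → (q : ℝ) < X → ∀ z ∈ W, D.Coprime q z
  inj : Set.InjOn Pt.m (W : Set (Pt d L))
  fibre : ∀ U ⊆ W, (∀ z ∈ U, ∀ z' ∈ U, z.c = z'.c) → U.card ≤ B₀

lemma RootData.Good.mono {D : RootData d L} {k : ℕ} {R : ℤ} {C₀ C₁ X A M : ℝ} {B₀ : ℕ}
    {W W' : Finset (Pt d L)} (h : D.Good k R C₀ C₁ X A M B₀ W) (hsub : W' ⊆ W) :
    D.Good k R C₀ C₁ X A M B₀ W' :=
  ⟨fun z hz => h.pt z (hsub hz), fun z hz => h.bdd z (hsub hz),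
    fun q hq h1 h2 z hz => h.cop q hq h1 h2 z (hsub hz), h.inj.mono (by exact_mod_cast hsub),
    fun U hU => h.fibre U (hU.trans hsub)⟩

lemma coprime_prod (D : RootData d L) (S : Finset ℕ) (z : Pt d L)
    (h : ∀ q ∈ S, D.Coprime q z) : D.Coprime (∏ q ∈ S, q) z := by
  intro i
  rw [Nat.cast_prod]
  exact IsCoprime.prod_left fun q hq => h q hq i

lemma c_eq_of_cong {D : RootData d L} {C₀ X A M : ℝ} {Q : ℕ} {z z' : Pt d L}
    (hz : D.Bdd C₀ X A M z) (hz' : D.Bdd C₀ X A M z') (hQ : 2 * C₀ * X ^ A < Q)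
    (h : Pt.Cong Q z z') : z.c = z'.c := by
  funext l
  by_contra hne
  have h0 : z.c l - z'.c l ≠ 0 := sub_ne_zero.2 hne
  have h1 : (Q : ℤ) ≤ |z.c l - z'.c l| :=
    Int.le_of_dvd (abs_pos.2 h0) ((dvd_abs _ _).2 (h.2 l))
  have h2 : (Q : ℝ) ≤ |(z.c l : ℝ) - (z'.c l : ℝ)| := by
    have h2' : ((Q : ℤ) : ℝ) ≤ ((|z.c l - z'.c l| : ℤ) : ℝ) := by exact_mod_cast h1
    push_cast at h2'
    exact h2'
  have h3 := abs_sub (z.c l : ℝ) (z'.c l : ℝ)
  have h4 := hz.c_le l
  have h5 := hz'.c_le l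
  linarith

/-- Exponent reached at level `s`. -/
def lvlExp (G : ℕ → ℝ) (η : ℝ) (s : ℕ) : ℝ :=
  ∑ i ∈ Finset.range s, ((i : ℝ) + 1) * (G i - G (i + 1) + η)

lemma lvlExp_eq (G : ℕ → ℝ) (η : ℝ) (n : ℕ) :
    lvlExp G η n = (∑ i ∈ Finset.range n, G i) - n * G n +
      η * ∑ i ∈ Finset.range n, ((i : ℝ) + 1) := by
  induction n with
  | zero => simp [lvlExp]
  | succ n ih =>
    unfold lvlExp at ih ⊢
    rw [Finset.sum_range_succ, Finset.sum_range_succ, Finset.sum_range_succ, ih]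
    push_cast
    ring

/-- The bound that a level of the descent provides, with exponent `E`. -/
def RootData.LevelBound (D : RootData d L) (k : ℕ) (R : ℤ) (A M : ℝ) (G : ℕ → ℝ) (C₀ C₁ : ℝ)
    (B₀ s : ℕ) (E : ℝ) : Prop :=
  ∀ K₀ δ : ℕ, ∃ Cst X₁ : ℝ, 0 ≤ Cst ∧ ∀ X : ℝ, X₁ ≤ X →
    ∀ S₀ : Finset ℕ, S₀.card ≤ K₀ → (∀ q ∈ S₀, SplitPrime d D.g q ∧ C₁ < q ∧ (q : ℝ) < X) →
    X ^ G s ≤ ((∏ q ∈ S₀, q : ℕ) : ℝ) →
    ∀ W : Finset (Pt d L), D.Good k R C₀ C₁ X A M B₀ W →
      (∀ z ∈ W, ∀ z' ∈ W, Pt.Cong (∏ q ∈ S₀, q) z z') →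
      ∀ [DecidableEq (Option (Fin d) → L)], Rel δ s univ (W.image D.coord) →
      (W.card : ℝ) ≤ Cst * X ^ E

/-- The bottom of the descent. -/
theorem level_zero (D : RootData d L) {k : ℕ} {R : ℤ} {A M : ℝ} (G : ℕ → ℝ) (C₀ C₁ : ℝ) (B₀ : ℕ) :
    D.LevelBound k R A M G C₀ C₁ B₀ 0 0 := by
  classical
  intro K₀ δ
  refine ⟨δ, 0, Nat.cast_nonneg _, fun X _ S₀ _ _ _ W hW _ _ hrel => ?_⟩
  obtain ⟨P, hP0, hPv, hPd, hPz⟩ := hrel {none} (Finset.subset_univ _) (by simp)
  have h : (W.card : ℝ) ≤ δ := by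
    set gp : Polynomial L := (splitVar (none : Option (Fin d)) P).map (eval fun _ => (0 : L))
      with hgp
    have hroot : ∀ z ∈ W, gp.eval (z.m : L) = 0 := by
      intro z hz
      have h2 : eval (fun i => if i = none then (z.m : L) else 0) P = eval (D.coord z) P := by
        refine eval₂Hom_congr' rfl (fun i hi _ => ?_) rfl
        have := hPv hi
        rw [Finset.mem_singleton] at this
        subst this
        simp [RootData.coord]
      rw [hPz _ (Finset.mem_image_of_mem _ hz), eval_splitVar none] at h2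
      simp only [if_true] at h2
      rw [hgp]
      convert h2 using 4 with i
      funext i
      simp [i.2]
    have hgp0 : gp ≠ 0 := by
      intro h0
      refine hP0 ((map_eq_zero_iff _ (splitVar (none : Option (Fin d))).injective).1 ?_)
      ext1 i
      have h2 : (splitVar none P).coeff i ∈
          supported L (∅ : Set {i : Option (Fin d) // i ≠ none}) := by
        refine supported_mono ?_ (mem_supported_coeff_splitVar none P i)
        intro x hx
        exact absurd (Finset.mem_singleton.1 (hPv hx)) x.2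
      rw [supported_empty, Algebra.mem_bot] at h2
      obtain ⟨c, hc⟩ := h2
      have h3 := congrArg (fun p : Polynomial L => p.coeff i) h0
      simp only [hgp, Polynomial.coeff_map, ← hc, Polynomial.coeff_zero, algebraMap_eq,
        eval_C] at h3
      simp [← hc, h3]
    have : W.card ≤ δ := by
      calc W.card ≤ gp.roots.toFinset.card := by
            refine Finset.card_le_card_of_injOn (fun z => (z.m : L)) ?_ ?_
            · intro z hz
              rw [Finset.mem_coe, Multiset.mem_toFinset, Polynomial.mem_roots hgp0]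
              exact hroot z hz
            · exact fun a ha b hb h => hW.inj ha hb (Int.cast_injective h)
        _ ≤ gp.natDegree := (Multiset.toFinset_card_le _).trans (Polynomial.card_roots' _)
        _ ≤ (splitVar none P).natDegree := Polynomial.natDegree_map_le
        _ ≤ δ := by
            rw [natDegree_splitVar]
            exact (degreeOf_le_totalDegree _ _).trans hPd
    exact_mod_cast this
  simpa using h

/-- Counting points through the descent, one level at a time, from a level `s₀` upwards. -/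
theorem level_bound_from (D : RootData d L) {k : ℕ} (hk : 1 ≤ k) {R : ℤ} (hR : R ≠ 0)
    {A M : ℝ} (hA : 0 < A) (hM : 0 < M) (G : ℕ → ℝ) (hcap : A < G 0)
    (hanti : ∀ s ≤ d, G (s + 1) ≤ G s)
    {η : ℝ} (hη : 0 < η) (hη1 : η < 1) {C₀ : ℝ} (hC₀ : 1 ≤ C₀) (C₁ : ℝ) (B₀ : ℕ)
    (s₀ : ℕ) (E₀ : ℝ) (hE₀ : 0 ≤ E₀) (hstart : D.LevelBound k R A M G C₀ C₁ B₀ s₀ E₀)
    (hcond : ∀ s, s₀ ≤ s → 1 ≤ s → s ≤ d →
      G s = G 0 ∨ (0 < G s ∧ 1 < G s ^ (s + 1) * (1 / A + k / M) ^ s)) :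
    ∀ s, s₀ ≤ s → s ≤ d + 1 →
      D.LevelBound k R A M G C₀ C₁ B₀ s (E₀ + (lvlExp G η s - lvlExp G η s₀)) := by
  classical
  intro s
  induction s with
  | zero =>
    intro h _
    obtain rfl : s₀ = 0 := Nat.le_zero.1 h
    simpa using hstart
  | succ s ih =>
    intro hs0 hs
    rcases Nat.lt_or_ge s s₀ with hlt | hge
    · obtain rfl : s₀ = s + 1 := by omega
      simpa using hstart
    intro K₀ δ
    have hsd : s ≤ d := by omega
    have he : 0 ≤ G s - G (s + 1) := by linarith [hanti s hsd]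
    obtain ⟨K, hKX⟩ := exists_modulus D C₁ he hη hη1
    obtain ⟨X₂, hX₂⟩ := hKX K₀
    set c : ℕ := ((2 ^ (d + 1) * δ + 2) ^ (d + 1)) ^ K with hc
    -- the bound inside one new cell
    have hcell : ∃ C' X₃ : ℝ, 0 ≤ C' ∧ ∀ X : ℝ, X₃ ≤ X → ∀ S : Finset ℕ, S.card ≤ K₀ + K →
        (∀ q ∈ S, SplitPrime d D.g q ∧ C₁ < q ∧ (q : ℝ) < X) →
        X ^ G s ≤ ((∏ q ∈ S, q : ℕ) : ℝ) →
        ∀ U : Finset (Pt d L), D.Good k R C₀ C₁ X A M B₀ U →
          (∀ z ∈ U, ∀ z' ∈ U, Pt.Cong (∏ q ∈ S, q) z z') →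
          (U.card : ℝ) ≤ C' * X ^ (E₀ + (lvlExp G η s - lvlExp G η s₀)) := by
      have hexp : ∀ i < s, 0 ≤ ((i : ℝ) + 1) * (G i - G (i + 1) + η) := fun i hi => by
        have := hanti i (by omega)
        have : (0 : ℝ) ≤ i := Nat.cast_nonneg i
        nlinarith
      have hlvl : 0 ≤ E₀ + (lvlExp G η s - lvlExp G η s₀) := by
        refine add_nonneg hE₀ (sub_nonneg.2 (Finset.sum_le_sum_of_subset_of_nonneg
          (Finset.range_subset_range.2 hge) fun i hi _ => hexp i (Finset.mem_range.1 hi)))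
      by_cases hbase : G s = G 0
      · refine ⟨B₀, max 2 ((2 * C₀ + 1) ^ (1 / (G 0 - A))), Nat.cast_nonneg _,
          fun X hX S _ _ hQ U hU hcong => ?_⟩
        have hX2 : 2 ≤ X := le_trans (le_max_left _ _) hX
        have hγ : 0 < G 0 - A := by linarith
        have h1 : 2 * C₀ + 1 ≤ X ^ (G 0 - A) := by
          have h0 : (0 : ℝ) ≤ 2 * C₀ + 1 := by linarith
          have h1 := Real.rpow_le_rpow (Real.rpow_nonneg h0 _)
            (le_trans (le_max_right _ _) hX) hγ.le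
          rwa [← Real.rpow_mul h0, one_div_mul_cancel hγ.ne', Real.rpow_one] at h1
        have h2 : 2 * C₀ * X ^ A < ((∏ q ∈ S, q : ℕ) : ℝ) := by
          refine lt_of_lt_of_le ?_ hQ
          have hsum : G s = G 0 - A + A := by linarith
          rw [hsum, Real.rpow_add (by linarith)]
          exact mul_lt_mul_of_pos_right (by linarith) (Real.rpow_pos_of_pos (by linarith) _)
        have h3 : U.card ≤ B₀ := hU.fibre U subset_rfl fun z hz z' hz' =>
          c_eq_of_cong (hU.bdd z hz) (hU.bdd z' hz') h2 (hcong z hz z' hz')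
        calc (U.card : ℝ) ≤ (B₀ : ℝ) := by exact_mod_cast h3
          _ ≤ (B₀ : ℝ) * X ^ (E₀ + (lvlExp G η s - lvlExp G η s₀)) :=
            le_mul_of_one_le_right (Nat.cast_nonneg _) (Real.one_le_rpow (by linarith) hlvl)
      · have hs1 : 1 ≤ s := by
          rcases Nat.eq_zero_or_pos s with h | h
          · exact absurd (by rw [h]) hbase
          · exact h
        obtain ⟨hGs, hc'⟩ := (hcond s hge hs1 hsd).resolve_left hbase
        obtain ⟨δ₁, X₄, hrelX⟩ := exists_relation D hk hR s hA hM hGs hc' hC₀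
        obtain ⟨Cst', X₅, hCst', hih⟩ := ih hge (by omega) (K₀ + K) (2 * δ₁ * δ₁ + δ₁)
        refine ⟨((δ₁ + 1) ^ (2 ^ (d + 1)) : ℕ) * Cst', max 0 (max X₄ X₅), by positivity,
          fun X hX' S hScard hS hQ U hU hcong => ?_⟩
        have hX : max X₄ X₅ ≤ X := le_trans (le_max_right _ _) hX'
        have hXnn : 0 ≤ X := le_trans (le_max_left _ _) hX'
        have hcop : ∀ z ∈ U, D.Coprime (∏ q ∈ S, q) z := fun z hz =>
          coprime_prod D S z fun q hq => hU.cop q (hS q hq).1.1 (hS q hq).2.1 (hS q hq).2.2 z hz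
        have hP := hrelX X (le_trans (le_max_left _ _) hX) _ hQ U
          (fun z hz => ⟨hU.pt z hz, hU.bdd z hz, hcop z hz⟩) hcong
        have hdec := exists_decomposition (none : Option (Fin d)) δ₁ hs1 (U.image D.coord)
          (by
            intro a ha b hb h
            obtain ⟨z, hz, rfl⟩ := Finset.mem_image.1 (Finset.mem_coe.1 ha)
            obtain ⟨z', hz', rfl⟩ := Finset.mem_image.1 (Finset.mem_coe.1 hb)
            simp only [RootData.coord] at h
            rw [hU.inj hz hz' (by exact_mod_cast h)])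
          (fun T hT hTc => by
            have hT' : (Finset.eraseNone T).card = s := by
              rw [Finset.card_eraseNone_eq_card_erase, Finset.erase_eq_of_notMem hT, hTc]
            obtain ⟨P, h1, h2, h3, h4⟩ := hP _ hT'
            refine ⟨P, h1, h2.trans ?_, h3, fun z hz => ?_⟩
            · rw [Finset.image_some_eraseNone, Finset.erase_eq_of_notMem hT]
            · obtain ⟨w, hw, rfl⟩ := Finset.mem_image.1 hz
              exact h4 w hw)
        obtain ⟨PS, hPS, hcov, hPW⟩ := hdec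
        have hsub : U ⊆ PS.biUnion fun Z => U.filter fun z => D.coord z ∈ Z := by
          intro z hz
          obtain ⟨Z, hZ, hzZ⟩ := hcov _ (Finset.mem_image_of_mem _ hz)
          exact Finset.mem_biUnion.2 ⟨Z, hZ, Finset.mem_filter.2 ⟨hz, hzZ⟩⟩
        have hpart : ∀ Z ∈ PS, ((U.filter fun z => D.coord z ∈ Z).card : ℝ) ≤
            Cst' * X ^ (E₀ + (lvlExp G η s - lvlExp G η s₀)) := by
          intro Z hZ
          refine hih X (le_trans (le_max_right _ _) hX) S hScard hS hQ _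
            (hU.mono (Finset.filter_subset _ _))
            (fun z hz z' hz' => hcong z (Finset.mem_filter.1 hz).1 z' (Finset.mem_filter.1 hz').1)
            ?_
          intro V hV hVc
          obtain ⟨P, h1, h2, h3, h4⟩ := (hPW Z hZ).2 V hV hVc
          refine ⟨P, h1, h2, h3, fun z hz => ?_⟩
          obtain ⟨w, hw, rfl⟩ := Finset.mem_image.1 hz
          exact h4 _ (Finset.mem_filter.1 hw).2
        calc (U.card : ℝ) ≤ ((PS.biUnion fun Z => U.filter fun z => D.coord z ∈ Z).card : ℝ) := by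
              exact_mod_cast Finset.card_le_card hsub
          _ ≤ ∑ Z ∈ PS, ((U.filter fun z => D.coord z ∈ Z).card : ℝ) := by
              exact_mod_cast Finset.card_biUnion_le
          _ ≤ ∑ _Z ∈ PS, Cst' * X ^ (E₀ + (lvlExp G η s - lvlExp G η s₀)) := Finset.sum_le_sum hpart
          _ = (PS.card : ℝ) * (Cst' * X ^ (E₀ + (lvlExp G η s - lvlExp G η s₀))) := by
              rw [Finset.sum_const, nsmul_eq_mul]
          _ ≤ _ := by
              rw [mul_assoc]
              have hX0 : 0 ≤ Cst' * X ^ (E₀ + (lvlExp G η s - lvlExp G η s₀)) := mul_nonneg hCst' (Real.rpow_nonneg hXnn _)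
              refine mul_le_mul_of_nonneg_right ?_ hX0
              have hcard : Fintype.card (Option (Fin d)) = d + 1 := by simp
              rw [hcard] at hPS
              exact_mod_cast hPS
    obtain ⟨C', X₃, hC', hcell⟩ := hcell
    refine ⟨(c : ℝ) * C', max 2 (max X₂ X₃), by positivity,
      fun X hX S₀ hS₀ hS₀' hQ₀ W hW hcong _ hrel => ?_⟩
    have hX2 : 2 ≤ X := le_trans (le_max_left _ _) hX
    obtain ⟨S, hSK, hdisj, hS, hlo, hhi⟩ :=
      hX₂ X (le_trans (le_trans (le_max_left _ _) (le_max_right _ _)) hX) S₀ hS₀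
    obtain ⟨PS, hPS, hcov, hPW⟩ := exists_refinement D S (fun q hq => (hS q hq).1) δ (s + 1) W
      (by convert hrel using 2)
    have hall : ∀ q ∈ S₀ ∪ S, SplitPrime d D.g q ∧ C₁ < q ∧ (q : ℝ) < X := fun q hq =>
      (Finset.mem_union.1 hq).elim (hS₀' q) (hS q)
    have hbig : X ^ G s ≤ ((∏ q ∈ S₀ ∪ S, q : ℕ) : ℝ) := by
      rw [Finset.prod_union hdisj.symm, Nat.cast_mul,
        show G s = G (s + 1) + (G s - G (s + 1)) by ring, Real.rpow_add (by linarith)]
      exact mul_le_mul hQ₀ hlo (Real.rpow_nonneg (by linarith) _) (Nat.cast_nonneg _)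
    have hpart : ∀ U ∈ PS, (U.card : ℝ) ≤ C' * X ^ (E₀ + (lvlExp G η s - lvlExp G η s₀)) := by
      intro U hU
      obtain ⟨hUW, hUc⟩ := hPW U hU
      refine hcell X (le_trans (le_trans (le_max_right _ _) (le_max_right _ _)) hX) _
        ((Finset.card_union_le _ _).trans (add_le_add hS₀ hSK)) hall hbig U (hW.mono hUW) ?_
      intro z hz z' hz'
      have hprime : ∀ q ∈ S₀ ∪ S, q.Prime := fun q hq => (hall q hq).1.1
      have hdvd : ∀ (a : ℤ), ((∏ q ∈ S₀, q : ℕ) : ℤ) ∣ a → ((∏ q ∈ S, q : ℕ) : ℤ) ∣ a →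
          ((∏ q ∈ S₀ ∪ S, q : ℕ) : ℤ) ∣ a := fun a h1 h2 =>
        natCast_dvd_of_primes hprime fun q hq => by
          rcases Finset.mem_union.1 hq with h | h
          · exact (Int.natCast_dvd_natCast.2 (Finset.dvd_prod_of_mem _ h)).trans h1
          · exact (Int.natCast_dvd_natCast.2 (Finset.dvd_prod_of_mem _ h)).trans h2
      have h1 := hcong z (hUW hz) z' (hUW hz')
      have h2 := hUc z hz z' hz'
      exact ⟨hdvd _ h1.1 h2.1, fun l => hdvd _ (h1.2 l) (h2.2 l)⟩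
    have hcnum : ((PS.card : ℕ) : ℝ) ≤ (c : ℝ) * X ^ (((s : ℝ) + 1) * (G s - G (s + 1) + η)) := by
      calc ((PS.card : ℕ) : ℝ)
          ≤ ((((2 ^ (d + 1) * δ + 2) ^ (d + 1)) ^ S.card * (∏ q ∈ S, q) ^ (s + 1) : ℕ) : ℝ) := by
            exact_mod_cast hPS
        _ ≤ ((c * (∏ q ∈ S, q) ^ (s + 1) : ℕ) : ℝ) := by
            refine Nat.cast_le.2 (Nat.mul_le_mul_right _ ?_)
            rw [hc]
            exact Nat.pow_le_pow_right (Nat.one_le_pow _ _ (by omega)) hSK
        _ ≤ _ := by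
            rw [Nat.cast_mul, Nat.cast_pow]
            refine mul_le_mul_of_nonneg_left ?_ (by positivity)
            rw [mul_comm ((s : ℝ) + 1), Real.rpow_mul (by linarith)]
            have : ((s : ℝ) + 1) = ((s + 1 : ℕ) : ℝ) := by push_cast; ring
            rw [this, Real.rpow_natCast, Nat.cast_pow]
            exact pow_le_pow_left₀ (Nat.cast_nonneg _) hhi _
    have hsub : W ⊆ PS.biUnion id := fun z hz => by
      obtain ⟨U, hU, hzU⟩ := hcov z hz
      exact Finset.mem_biUnion.2 ⟨U, hU, hzU⟩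
    calc (W.card : ℝ) ≤ ((PS.biUnion id).card : ℝ) := by exact_mod_cast Finset.card_le_card hsub
      _ ≤ ∑ U ∈ PS, (U.card : ℝ) := by exact_mod_cast Finset.card_biUnion_le
      _ ≤ ∑ _U ∈ PS, C' * X ^ (E₀ + (lvlExp G η s - lvlExp G η s₀)) := Finset.sum_le_sum hpart
      _ = (PS.card : ℝ) * (C' * X ^ (E₀ + (lvlExp G η s - lvlExp G η s₀))) := by rw [Finset.sum_const, nsmul_eq_mul]
      _ ≤ ((c : ℝ) * X ^ (((s : ℝ) + 1) * (G s - G (s + 1) + η))) * (C' * X ^ (E₀ + (lvlExp G η s - lvlExp G η s₀))) :=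
          mul_le_mul_of_nonneg_right hcnum (mul_nonneg hC' (Real.rpow_nonneg (by linarith) _))
      _ = _ := by
          have : E₀ + (lvlExp G η (s + 1) - lvlExp G η s₀) = ((s : ℝ) + 1) * (G s - G (s + 1) + η)
              + (E₀ + (lvlExp G η s - lvlExp G η s₀)) := by
            simp only [lvlExp]
            rw [Finset.sum_range_succ]
            ring
          rw [this, Real.rpow_add (y := ((s : ℝ) + 1) * (G s - G (s + 1) + η))
            (z := E₀ + (lvlExp G η s - lvlExp G η s₀)) (by linarith)]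
          ring

/-- The descent bound for a set of points. -/
theorem cell_bound (D : RootData d L) {k : ℕ} (hk : 1 ≤ k) {R : ℤ} (hR : R ≠ 0)
    {A M : ℝ} (hA : 0 < A) (hM : 0 < M) (G : ℕ → ℝ) (hcap : A < G 0)
    (hanti : ∀ s ≤ d, G (s + 1) ≤ G s) (hlast : G (d + 1) = 0)
    (hcond : ∀ s, 1 ≤ s → s ≤ d →
      G s = G 0 ∨ (0 < G s ∧ 1 < G s ^ (s + 1) * (1 / A + k / M) ^ s))
    {η : ℝ} (hη : 0 < η) {C₀ : ℝ} (hC₀ : 1 ≤ C₀) (C₁ : ℝ) (B₀ : ℕ) :
    ∃ Cst X₁ : ℝ, 0 ≤ Cst ∧ ∀ X : ℝ, X₁ ≤ X → ∀ W : Finset (Pt d L),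
      D.Good k R C₀ C₁ X A M B₀ W →
        (W.card : ℝ) ≤ Cst * X ^ ((∑ s ∈ Finset.range (d + 1), G s) + η) := by
  classical
  set T : ℝ := ∑ i ∈ Finset.range (d + 1), ((i : ℝ) + 1) with hT
  have hT1 : 1 ≤ T := by
    rw [hT, Finset.sum_range_succ']
    have : (0 : ℝ) ≤ ∑ i ∈ Finset.range d, (((i + 1 : ℕ) : ℝ) + 1) :=
      Finset.sum_nonneg fun i _ => by positivity
    simp only [Nat.cast_zero, zero_add]
    linarith
  set η' := min η (1 / 2) / T with hη'
  have hη'0 : 0 < η' := div_pos (lt_min hη (by norm_num)) (by linarith)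
  have hη'1 : η' < 1 := by
    rw [hη', div_lt_one (by linarith)]
    have := min_le_right η (1 / 2)
    linarith
  obtain ⟨Cst, X₁, hCst, h⟩ := level_bound_from D hk hR hA hM G hcap hanti hη'0 hη'1 hC₀ C₁ B₀
    0 0 le_rfl (level_zero D G C₀ C₁ B₀) (fun s _ => hcond s) (d + 1) (Nat.zero_le _) le_rfl 0 0
  refine ⟨Cst, max X₁ 1, hCst, fun X hX W hW => ?_⟩
  have hX1 : 1 ≤ X := le_trans (le_max_right _ _) hX
  have hrel : Rel 0 (d + 1) univ (W.image D.coord) := by
    intro U _ hUc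
    have := Finset.card_le_univ U
    simp at this
    omega
  refine (h X (le_trans (le_max_left _ _) hX) ∅ le_rfl (by simp) (by simp [hlast]) W hW
    (fun z _ z' _ => ⟨by simp, fun l => by simp⟩) hrel).trans ?_
  refine mul_le_mul_of_nonneg_left (Real.rpow_le_rpow_of_exponent_le hX1 ?_) hCst
  rw [zero_add, show lvlExp G η' 0 = 0 by simp [lvlExp], sub_zero, lvlExp_eq, hlast, mul_zero, sub_zero, ← hT, hη', div_mul_cancel₀ _ (by linarith)]
  linarith [min_le_left η (1 / 2)]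

/-- The descent bound for a set of points, started from a level `s₀`: the exponent is
`∑ (i + 1) (G i - G (i + 1))` over `s₀ ≤ i ≤ d`, plus that of the start. -/
theorem cell_bound_from (D : RootData d L) {k : ℕ} (hk : 1 ≤ k) {R : ℤ} (hR : R ≠ 0)
    {A M : ℝ} (hA : 0 < A) (hM : 0 < M) (G : ℕ → ℝ) (hcap : A < G 0)
    (hanti : ∀ s ≤ d, G (s + 1) ≤ G s) (hlast : G (d + 1) = 0)
    {η : ℝ} (hη : 0 < η) {C₀ : ℝ} (hC₀ : 1 ≤ C₀) (C₁ : ℝ) (B₀ : ℕ)
    (s₀ : ℕ) (hs₀ : s₀ ≤ d + 1) (E₀ : ℝ) (hE₀ : 0 ≤ E₀)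
    (hstart : D.LevelBound k R A M G C₀ C₁ B₀ s₀ E₀)
    (hcond : ∀ s, s₀ ≤ s → 1 ≤ s → s ≤ d →
      G s = G 0 ∨ (0 < G s ∧ 1 < G s ^ (s + 1) * (1 / A + k / M) ^ s)) :
    ∃ Cst X₁ : ℝ, 0 ≤ Cst ∧ ∀ X : ℝ, X₁ ≤ X → ∀ W : Finset (Pt d L),
      D.Good k R C₀ C₁ X A M B₀ W →
        (W.card : ℝ) ≤ Cst *
          X ^ (E₀ + (∑ i ∈ Finset.Ico s₀ (d + 1), ((i : ℝ) + 1) * (G i - G (i + 1))) + η) := by
  classical
  set T : ℝ := (∑ i ∈ Finset.Ico s₀ (d + 1), ((i : ℝ) + 1)) + 1 with hT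
  have hT1 : 1 ≤ T := by
    have : (0 : ℝ) ≤ ∑ i ∈ Finset.Ico s₀ (d + 1), ((i : ℝ) + 1) :=
      Finset.sum_nonneg fun i _ => by positivity
    linarith
  set η' := min η (1 / 2) / T with hη'
  have hη'0 : 0 < η' := div_pos (lt_min hη (by norm_num)) (by linarith)
  have hη'1 : η' < 1 := by
    rw [hη', div_lt_one (by linarith)]
    have := min_le_right η (1 / 2)
    linarith
  obtain ⟨Cst, X₁, hCst, h⟩ := level_bound_from D hk hR hA hM G hcap hanti hη'0 hη'1 hC₀ C₁ B₀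
    s₀ E₀ hE₀ hstart hcond (d + 1) hs₀ le_rfl 0 0
  refine ⟨Cst, max X₁ 1, hCst, fun X hX W hW => ?_⟩
  have hX1 : 1 ≤ X := le_trans (le_max_right _ _) hX
  have hrel : Rel 0 (d + 1) univ (W.image D.coord) := by
    intro U _ hUc
    have := Finset.card_le_univ U
    simp at this
    omega
  refine (h X (le_trans (le_max_left _ _) hX) ∅ le_rfl (by simp) (by simp [hlast]) W hW
    (fun z _ z' _ => ⟨by simp, fun l => by simp⟩) hrel).trans ?_
  refine mul_le_mul_of_nonneg_left (Real.rpow_le_rpow_of_exponent_le hX1 ?_) hCst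
  have e : lvlExp G η' (d + 1) - lvlExp G η' s₀ =
      (∑ i ∈ Finset.Ico s₀ (d + 1), ((i : ℝ) + 1) * (G i - G (i + 1))) + η' * (T - 1) := by
    unfold lvlExp
    rw [← Finset.sum_Ico_eq_sub _ hs₀, hT, add_sub_cancel_right, Finset.mul_sum,
      ← Finset.sum_add_distrib]
    exact Finset.sum_congr rfl fun i _ => by ring
  rw [e, mul_sub, mul_one, hη', div_mul_cancel₀ _ (by linarith)]
  have h1 : 0 ≤ min η (1 / 2) / T := by positivity
  linarith [min_le_left η (1 / 2)]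

end Vale.Agent.P018
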