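import Vale.Agent.P018.Biv
import Vale.Agent.P018.Descent

/-!
# Interface for counting integer points on a curve inside a cell
-/

namespace Vale.Agent.P018

open NumberField Polynomial

/-- A combination of the monomials `u ^ e.1 * v ^ e.2`, `e ∈ E`. -/
noncomputable def comb {K : Type*} [Field K] (E : Finset (ℕ × ℕ)) (c : ℕ × ℕ → K) :
    Polynomial (Polynomial K) :=
  ∑ e ∈ E, Polynomial.C (Polynomial.C (c e) * Polynomial.X ^ e.1) * Polynomial.X ^ e.2

/-- No nonzero combination of the monomials in `E` is a multiple of `F`. -/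
def IndepMod {K : Type*} [Field K] (E : Finset (ℕ × ℕ)) (F : Polynomial (Polynomial K)) : Prop :=
  ∀ c : ℕ × ℕ → K, (∃ e ∈ E, c e ≠ 0) → ¬ F ∣ comb E c

lemma evalEval_comb {K : Type*} [Field K] (E : Finset (ℕ × ℕ)) (c : ℕ × ℕ → K) (u v : K) :
    (comb E c).evalEval u v = ∑ e ∈ E, c e * u ^ e.1 * v ^ e.2 := by
  rw [comb, evalEval_finsetSum]
  refine Finset.sum_congr rfl fun e _ => ?_
  simp [evalEval, mul_assoc]

end Vale.Agent.P018
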