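import Vale.Agent.P018.CurveDefs

/-!
# Families of monomials for the determinant on a curve
-/

namespace Vale.Agent.P018

open Polynomial

variable {K : Type*} [Field K]

lemma comb_coeff (E : Finset (ℕ × ℕ)) (c : ℕ × ℕ → K) (i : ℕ) :
    (comb E c).coeff i = ∑ e ∈ E.filter (fun e => e.2 = i), C (c e) * X ^ e.1 := by
  rw [comb, finsetSum_coeff, Finset.sum_filter]
  refine Finset.sum_congr rfl fun e _ => ?_
  rw [coeff_C_mul_X_pow]
  simp [eq_comm]

lemma comb_coeff_coeff (E : Finset (ℕ × ℕ)) (c : ℕ × ℕ → K) {e : ℕ × ℕ} (he : e ∈ E) :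
    ((comb E c).coeff e.2).coeff e.1 = c e := by
  classical
  rw [comb_coeff, finsetSum_coeff, Finset.sum_eq_single e]
  · simp
  · intro f hf hne
    rw [Finset.mem_filter] at hf
    rw [coeff_C_mul, coeff_X_pow, if_neg, mul_zero]
    intro h
    exact hne (Prod.ext h.symm hf.2)
  · intro h
    exact absurd (by simpa using he) h

lemma comb_ne_zero (E : Finset (ℕ × ℕ)) (c : ℕ × ℕ → K) (h : ∃ e ∈ E, c e ≠ 0) : comb E c ≠ 0 := by
  obtain ⟨e, he, hc⟩ := h
  intro h0
  apply hc
  rw [← comb_coeff_coeff E c he, h0, coeff_zero, coeff_zero]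

lemma exists_nat_quad {α β γ : ℝ} (hα : 0 < α) : ∃ n : ℕ, 1 ≤ n ∧ β * n + γ ≤ α * n ^ 2 := by
  obtain ⟨n, hn⟩ := exists_nat_ge ((|β| + |γ|) / α + 1)
  have h1 : (|β| + |γ|) / α + 1 ≤ n := hn
  have h0 : 0 ≤ (|β| + |γ|) / α := by positivity
  have hn1 : (1 : ℝ) ≤ n := by linarith
  refine ⟨n, by exact_mod_cast hn1, ?_⟩
  have h2 : |β| + |γ| ≤ α * n := by
    have := (div_le_iff₀ hα).1 (show (|β| + |γ|) / α ≤ n by linarith)
    linarith
  have h3 := mul_le_mul_of_nonneg_right h2 (show (0 : ℝ) ≤ n by linarith)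
  nlinarith [le_abs_self β, le_abs_self γ, abs_nonneg γ]

lemma choose_two_cast (n : ℕ) : ((n.choose 2 : ℕ) : ℝ) = (n : ℝ) * ((n : ℝ) - 1) / 2 := by
  rw [Nat.cast_choose_two]

/-- Doubling on a curve of degree at least two in `v`. -/
theorem exists_family_double {a b g : ℝ} (hb : 0 ≤ b) (ha : 0 ≤ a) (hg : a < 2 * g) :
    ∃ E : Finset (ℕ × ℕ),
      (∑ e ∈ E, (a * e.1 + b * e.2)) + 1 ≤ g * ((E.card.choose 2 : ℕ) : ℝ) ∧
      ∀ F : Polynomial (Polynomial K), 2 ≤ F.natDegree → IndepMod E F := by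
  obtain ⟨n, hn1, hn⟩ := exists_nat_quad (β := b + g) (γ := 1) (show 0 < 2 * g - a by linarith)
  refine ⟨Finset.range n ×ˢ Finset.range 2, ?_, fun F hF c hc hdvd => ?_⟩
  · rw [choose_two_cast, Finset.sum_product, Finset.card_product, Finset.card_range,
      Finset.card_range]
    have hs : ∀ N : ℕ, (∑ j ∈ Finset.range N, (j : ℝ)) = (N : ℝ) * ((N : ℝ) - 1) / 2 := by
      intro N
      induction N with
      | zero => simp
      | succ N ih => rw [Finset.sum_range_succ, ih]; push_cast; ring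
    simp only [Finset.sum_range_succ, Finset.sum_range_zero, zero_add, Finset.sum_add_distrib,
      Finset.sum_const, Finset.card_range, nsmul_eq_mul, ← Finset.mul_sum, hs]
    push_cast
    have h0 := mul_nonneg ha (Nat.cast_nonneg (α := ℝ) n)
    linarith
  · have h0 := comb_ne_zero _ c hc
    have h1 := natDegree_le_of_dvd hdvd h0
    have h2 : (comb (Finset.range n ×ˢ Finset.range 2) c).natDegree ≤ 1 := by
      rw [natDegree_le_iff_coeff_eq_zero]
      intro i hi
      rw [comb_coeff, Finset.filter_false_of_mem, Finset.sum_empty]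
      intro e he
      simp only [Finset.mem_product, Finset.mem_range] at he
      omega
    omega

/-- Substituting the root of a linear polynomial. -/
lemma subst_of_dvd {F : Polynomial (Polynomial K)} (hF : F.natDegree = 1) (E : Finset (ℕ × ℕ))
    (c : ℕ × ℕ → K) (n : ℕ) (hn : ∀ e ∈ E, e.2 ≤ n) (h : F ∣ comb E c) :
    ∑ e ∈ E, C (c e) * X ^ e.1 * (-F.coeff 0) ^ e.2 * F.coeff 1 ^ (n - e.2) = 0 := by
  let L := FractionRing (Polynomial K)
  let a := algebraMap (Polynomial K) L
  have hR : a (F.coeff 1) ≠ 0 := by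
    rw [map_ne_zero_iff a (IsFractionRing.injective _ _)]
    have hF0 : F ≠ 0 := by rintro rfl; simp at hF
    have := leadingCoeff_ne_zero.2 hF0
    rwa [leadingCoeff, hF] at this
  set r := -a (F.coeff 0) / a (F.coeff 1) with hr
  have hroot : F.eval₂ a r = 0 := by
    rw [eval₂_eq_sum_range, hF, Finset.sum_range_succ, Finset.sum_range_one, pow_zero, pow_one,
      mul_one, hr, mul_div_cancel₀ _ hR, add_neg_cancel]
  have hc : (comb E c).eval₂ a r = 0 := by
    obtain ⟨G, hG⟩ := h
    rw [hG, eval₂_mul, hroot, zero_mul]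
  apply IsFractionRing.injective (Polynomial K) L
  rw [map_zero, map_sum]
  have h2 : (comb E c).eval₂ a r * a (F.coeff 1) ^ n = 0 := by rw [hc, zero_mul]
  rw [comb, eval₂_finsetSum, Finset.sum_mul] at h2
  refine Eq.trans (Finset.sum_congr rfl fun e he => ?_) h2
  simp only [eval₂_mul, eval₂_pow, eval₂_C, eval₂_X, map_mul, map_pow, map_neg]
  have e2 : n = e.2 + (n - e.2) := (Nat.add_sub_cancel' (hn e he)).symm
  conv_rhs => rw [e2, pow_add, mul_assoc, ← mul_assoc (r ^ e.2), ← mul_pow, hr, div_mul_cancel₀ _ hR]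
  ring

lemma isCoprime_coeffs {F : Polynomial (Polynomial K)} (hF : Irreducible F)
    (h1 : F.natDegree = 1) : IsCoprime (F.coeff 1) (F.coeff 0) := by
  refine IsRelPrime.isCoprime fun g hg1 hg0 => ?_
  refine hF.isPrimitive (by omega) g ((C_dvd_iff_dvd_coeff _ _).2 fun i => ?_)
  match i with
  | 0 => exact hg0
  | 1 => exact hg1
  | i + 2 => rw [coeff_eq_zero_of_natDegree_lt (by omega)]; exact dvd_zero _

/-- Using a pole of a rational function. -/
theorem exists_family_pole {a b g : ℝ} (ha : 0 ≤ a) (hb : 0 ≤ b) (hg : a * b < g * (a + b)) :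
    ∃ E : Finset (ℕ × ℕ),
      (∑ e ∈ E, (a * e.1 + b * e.2)) + 1 ≤ g * ((E.card.choose 2 : ℕ) : ℝ) ∧
      ∀ F : Polynomial (Polynomial K), Irreducible F → F.natDegree = 1 →
        1 ≤ (F.coeff 1).natDegree → IndepMod E F := by
  classical
  have hab0 : 0 ≤ a * b := mul_nonneg ha hb
  have hab : 0 < a + b := by
    rcases (add_nonneg ha hb).lt_or_eq with h | h
    · exact h
    · rw [← h, mul_zero] at hg; linarith
  have hg0 : 0 < g := by
    by_contra h
    push Not at h
    nlinarith [mul_nonpos_of_nonpos_of_nonneg h hab.le]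
  -- `n₁ ≈ b n` powers of `u`, `n₂ ≈ a n` powers of `v`
  obtain ⟨n, hn1, hn⟩ := exists_nat_quad
    (β := (5 * a * b + g * (a + b) / 2)) (γ := 1 + 2 * a + (9 / 2) * b)
    (show 0 < (a + b) * (g * (a + b) - a * b) / 2 by
      have : 0 < g * (a + b) - a * b := by linarith
      positivity)
  set n₁ := ⌈b * n⌉₊ + 1 with hn₁
  set n₂ := ⌈a * n⌉₊ + 1 with hn₂
  set A₁ := (Finset.range n₁).image (fun j => (j, 0)) with hA₁
  set A₂ := (Finset.Icc 1 n₂).image (fun i => ((0 : ℕ), i)) with hA₂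
  have hd : Disjoint A₁ A₂ := by
    rw [Finset.disjoint_left]
    intro e he he'
    simp only [hA₁, hA₂, Finset.mem_image, Finset.mem_Icc] at he he'
    obtain ⟨j, _, rfl⟩ := he
    obtain ⟨i, hi, h⟩ := he'
    simp only [Prod.mk.injEq] at h
    omega
  refine ⟨A₁ ∪ A₂, ?_, fun F hF h1 hR c hc hdvd => ?_⟩
  · rw [Finset.sum_union hd, Finset.card_union_of_disjoint hd, hA₁, hA₂,
      Finset.sum_image (fun x _ y _ h => by simpa using h),
      Finset.sum_image (fun x _ y _ h => by simpa using h),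
      Finset.card_image_of_injective _ (fun x y h => by simpa using h),
      Finset.card_image_of_injective _ (fun x y h => by simpa using h),
      Finset.card_range, Nat.card_Icc, Nat.add_sub_cancel, choose_two_cast]
    simp only [Nat.cast_zero, mul_zero, add_zero, zero_add, ← Finset.mul_sum]
    have hs1 : ∀ N : ℕ, (∑ j ∈ Finset.range N, (j : ℝ)) = (N : ℝ) * ((N : ℝ) - 1) / 2 := by
      intro N
      induction N with
      | zero => simp
      | succ N ih => rw [Finset.sum_range_succ, ih]; push_cast; ring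
    have hs2 : ∀ N : ℕ, (∑ i ∈ Finset.Icc 1 N, (i : ℝ)) = (N : ℝ) * ((N : ℝ) + 1) / 2 := by
      intro N
      induction N with
      | zero => simp
      | succ N ih => rw [Finset.sum_Icc_succ_top (by omega), ih]; push_cast; ring
    rw [hs1, hs2]
    have l1 : b * n ≤ (⌈b * n⌉₊ : ℝ) := Nat.le_ceil _
    have u1 := Nat.ceil_lt_add_one (show (0 : ℝ) ≤ b * n by positivity)
    have l2 : a * n ≤ (⌈a * n⌉₊ : ℝ) := Nat.le_ceil _
    have u2 := Nat.ceil_lt_add_one (show (0 : ℝ) ≤ a * n by positivity)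
    rw [hn₁, hn₂]
    push_cast
    set N₁ := (⌈b * n⌉₊ : ℝ)
    set N₂ := (⌈a * n⌉₊ : ℝ)
    have h0 : (0 : ℝ) ≤ n := Nat.cast_nonneg n
    have c1 : a * ((N₁ + 1) * (N₁ + 1 - 1) / 2) ≤ a * ((b * n + 2) ^ 2 / 2) := by
      refine mul_le_mul_of_nonneg_left ?_ ha
      nlinarith [mul_nonneg hb h0]
    have c2 : b * ((N₂ + 1) * (N₂ + 1 + 1) / 2) ≤ b * ((a * n + 3) ^ 2 / 2) := by
      refine mul_le_mul_of_nonneg_left ?_ hb
      nlinarith [mul_nonneg ha h0]
    have c3 : g * (((a + b) * n) * ((a + b) * n - 1) / 2) ≤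
        g * ((N₁ + 1 + (N₂ + 1)) * (N₁ + 1 + (N₂ + 1) - 1) / 2) := by
      refine mul_le_mul_of_nonneg_left ?_ hg0.le
      nlinarith [mul_nonneg hb h0, mul_nonneg ha h0]
    linarith
  · have hsub := subst_of_dvd h1 (A₁ ∪ A₂) c n₂ (by
      intro e he
      simp only [hA₁, hA₂, Finset.mem_union, Finset.mem_image, Finset.mem_Icc] at he
      rcases he with ⟨j, _, rfl⟩ | ⟨i, hi, rfl⟩
      · exact Nat.zero_le _
      · exact hi.2) hdvd
    set R := F.coeff 1
    set N := F.coeff 0
    have hco : IsCoprime R (-N) := (isCoprime_coeffs hF h1).neg_right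
    by_cases htop : ∃ e ∈ A₂, c e ≠ 0
    · -- the highest power of the pole cannot be cancelled
      obtain ⟨e₀, he₀, hmax⟩ := Finset.exists_max_image (A₂.filter fun e => c e ≠ 0) (fun e => e.2)
        (by obtain ⟨e, he, hce⟩ := htop; exact ⟨e, Finset.mem_filter.2 ⟨he, hce⟩⟩)
      obtain ⟨he₀A, hce₀⟩ := Finset.mem_filter.1 he₀
      have hz2 : ∀ e ∈ A₂, e.1 = 0 ∧ 1 ≤ e.2 ∧ e.2 ≤ n₂ := by
        intro e he
        simp only [hA₂, Finset.mem_image, Finset.mem_Icc] at he
        obtain ⟨i, hi, rfl⟩ := he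
        exact ⟨rfl, hi⟩
      obtain ⟨hz, hi1, hin⟩ := hz2 e₀ he₀A
      rw [← Finset.add_sum_erase _ _ (Finset.mem_union_right A₁ he₀A), hz, pow_zero, mul_one] at hsub
      have hdiv : R ^ (n₂ - e₀.2 + 1) ∣
          ∑ e ∈ (A₁ ∪ A₂).erase e₀, C (c e) * X ^ e.1 * (-N) ^ e.2 * R ^ (n₂ - e.2) := by
        refine Finset.dvd_sum fun e he => ?_
        obtain ⟨hne, he⟩ := Finset.mem_erase.1 he
        by_cases hce : c e = 0
        · simp [hce]
        refine dvd_mul_of_dvd_right (pow_dvd_pow R ?_) _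
        rcases Finset.mem_union.1 he with h | h
        · simp only [hA₁, Finset.mem_image] at h
          obtain ⟨j, _, rfl⟩ := h
          simp only
          omega
        · have h3 := hmax e (Finset.mem_filter.2 ⟨h, hce⟩)
          obtain ⟨h4, h5, h6⟩ := hz2 e h
          have : e.2 ≠ e₀.2 := fun h' => hne (Prod.ext (by rw [h4, hz]) h')
          omega
      rw [(eq_neg_of_add_eq_zero_right hsub), dvd_neg] at hdiv
      have hR0 : R ≠ 0 := by intro h0; rw [h0] at hR; simp at hR
      rw [show C (c e₀) * (-N) ^ e₀.2 * R ^ (n₂ - e₀.2) = R ^ (n₂ - e₀.2) * (C (c e₀) * (-N) ^ e₀.2)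
        by ring, pow_succ, mul_dvd_mul_iff_left (pow_ne_zero _ hR0)] at hdiv
      have h7 : R ∣ C (c e₀) := (hco.pow_right).dvd_of_dvd_mul_right hdiv
      have h8 := natDegree_le_of_dvd h7 (by simpa using hce₀)
      rw [natDegree_C] at h8
      omega
    · push Not at htop
      rw [Finset.sum_union hd, Finset.sum_eq_zero (s := A₂) (fun e he => by simp [htop e he]),
        add_zero] at hsub
      obtain ⟨e, he, hce⟩ := hc
      rcases Finset.mem_union.1 he with h | h
      · simp only [hA₁, Finset.mem_image, Finset.mem_range] at h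
        obtain ⟨j, hj, rfl⟩ := h
        rw [hA₁, Finset.sum_image (fun x _ y _ h => by simpa using h)] at hsub
        simp only [pow_zero, mul_one, Nat.sub_zero] at hsub
        rw [← Finset.sum_mul] at hsub
        have hR0 : R ≠ 0 := by intro h0; rw [h0] at hR; simp at hR
        have h9 := congrArg (fun p : Polynomial K => p.coeff j)
          ((mul_eq_zero.1 hsub).resolve_right (pow_ne_zero _ hR0))
        simp only [finsetSum_coeff, coeff_C_mul, coeff_X_pow, coeff_zero, mul_ite, mul_one,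
          mul_zero, Finset.sum_ite_eq, Finset.mem_range, hj, if_true] at h9
        exact hce h9
      · exact hce (htop e h)

/-- A polynomial of degree at least `D`. -/
theorem exists_family_poly {a b g : ℝ} {D : ℕ} (ha : 0 ≤ a) (hb : 0 ≤ b) (hD : 1 ≤ D)
    (hg : b < g * D) :
    ∃ E : Finset (ℕ × ℕ),
      (∑ e ∈ E, (a * e.1 + b * e.2)) + 1 ≤ g * ((E.card.choose 2 : ℕ) : ℝ) ∧
      ∀ F : Polynomial (Polynomial K), F.natDegree = 1 →
        (F.coeff 1).natDegree = 0 → D ≤ (F.coeff 0).natDegree → IndepMod E F := by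
  classical
  have hD0 : (1 : ℝ) ≤ D := by exact_mod_cast hD
  obtain ⟨n, hn1, hn⟩ := exists_nat_quad (β := a * D * D + g * D / 2) (γ := 1)
    (show 0 < (g * D - b) * D / 2 by
      have : 0 < g * D - b := by linarith
      positivity)
  refine ⟨Finset.range D ×ˢ Finset.range n, ?_, fun F h1 hR hN c hc hdvd => ?_⟩
  · rw [choose_two_cast, Finset.sum_product, Finset.card_product, Finset.card_range,
      Finset.card_range]
    have hs : ∀ N : ℕ, (∑ j ∈ Finset.range N, (j : ℝ)) = (N : ℝ) * ((N : ℝ) - 1) / 2 := by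
      intro N
      induction N with
      | zero => simp
      | succ N ih => rw [Finset.sum_range_succ, ih]; push_cast; ring
    simp only [Finset.sum_add_distrib, Finset.sum_const, Finset.card_range, nsmul_eq_mul,
      ← Finset.mul_sum, hs]
    push_cast
    have hn0 : (0 : ℝ) ≤ n := Nat.cast_nonneg n
    nlinarith [mul_nonneg (mul_nonneg ha (show (0 : ℝ) ≤ D by linarith)) hn0,
      mul_nonneg (mul_nonneg hb (show (0 : ℝ) ≤ D by linarith)) hn0]
  · have hsub := subst_of_dvd h1 (Finset.range D ×ˢ Finset.range n) c n (by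
      intro e he
      simp only [Finset.mem_product, Finset.mem_range] at he
      omega) hdvd
    have hF0 : F ≠ 0 := by rintro rfl; simp at h1
    have hr : F.coeff 1 ≠ 0 := by
      have := leadingCoeff_ne_zero.2 hF0
      rwa [leadingCoeff, h1] at this
    have hN0 : -F.coeff 0 ≠ 0 := by
      intro h0; rw [neg_eq_zero] at h0; rw [h0, natDegree_zero] at hN; omega
    set dN := (F.coeff 0).natDegree
    have hdeg : ∀ e ∈ Finset.range D ×ˢ Finset.range n, c e ≠ 0 →
        (C (c e) * X ^ e.1 * (-F.coeff 0) ^ e.2 * F.coeff 1 ^ (n - e.2)).natDegree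
          = e.1 + e.2 * dN := by
      intro e _ hce
      have h2 : (C (c e) * X ^ e.1 : Polynomial K) ≠ 0 :=
        mul_ne_zero (by simpa using hce) (pow_ne_zero _ X_ne_zero)
      rw [natDegree_mul (mul_ne_zero h2 (pow_ne_zero _ hN0)) (pow_ne_zero _ hr),
        natDegree_mul h2 (pow_ne_zero _ hN0), natDegree_C_mul_X_pow _ _ hce, natDegree_pow,
        natDegree_neg, natDegree_pow, hR, mul_zero, add_zero]
    obtain ⟨e₁, he₁, hce₁⟩ := hc
    obtain ⟨e₀, he₀, hmax⟩ := Finset.exists_max_image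
      ((Finset.range D ×ˢ Finset.range n).filter fun e => c e ≠ 0) (fun e => e.1 + e.2 * dN)
      ⟨e₁, Finset.mem_filter.2 ⟨he₁, hce₁⟩⟩
    obtain ⟨he₀E, hce₀⟩ := Finset.mem_filter.1 he₀
    have h2 := congrArg (fun p : Polynomial K => p.coeff (e₀.1 + e₀.2 * dN)) hsub
    simp only [finsetSum_coeff, coeff_zero] at h2
    rw [Finset.sum_eq_single e₀] at h2
    · rw [← hdeg e₀ he₀E hce₀] at h2
      have h3 : C (c e₀) * X ^ e₀.1 * (-F.coeff 0) ^ e₀.2 * F.coeff 1 ^ (n - e₀.2) ≠ 0 :=
        mul_ne_zero (mul_ne_zero (mul_ne_zero (by simpa using hce₀) (pow_ne_zero _ X_ne_zero))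
          (pow_ne_zero _ hN0)) (pow_ne_zero _ hr)
      exact h3 (leadingCoeff_eq_zero.1 h2)
    · intro e he hne
      by_cases hce : c e = 0
      · simp [hce]
      refine coeff_eq_zero_of_natDegree_lt ?_
      rw [hdeg e he hce]
      refine lt_of_le_of_ne (hmax e (Finset.mem_filter.2 ⟨he, hce⟩)) fun heq => hne ?_
      simp only [Finset.mem_product, Finset.mem_range] at he he₀E
      have hDd : D ≤ dN := hN
      have hd0 : 0 < dN := by omega
      have e2 : e.2 = e₀.2 := by
        have h4 := congrArg (· / dN) heq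
        simp only [Nat.add_mul_div_right _ _ hd0] at h4
        rwa [Nat.div_eq_of_lt (by omega), Nat.div_eq_of_lt (by omega), zero_add, zero_add] at h4
      refine Prod.ext ?_ e2
      rw [e2] at heq
      omega
    · intro h; exact absurd he₀E h

end Vale.Agent.P018
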