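import Mathlib

/-!
# Divisibility of determinants of polynomial values on one residue class
-/

namespace Vale.Agent.P018

open Finset MvPolynomial

section

variable {σ : Type*} [Fintype σ] [DecidableEq σ]

lemma card_degree_le (s : Finset (σ →₀ ℕ)) (w : ℕ) (hs : ∀ γ ∈ s, γ.degree ≤ w) :
    s.card ≤ (w + Fintype.card σ).choose (Fintype.card σ) := by
  classical
  let F : (σ →₀ ℕ) → Multiset (Option σ) := fun γ =>
    (Finsupp.toMultiset γ).map some + Multiset.replicate (w - γ.degree) none
  have hF : ∀ γ ∈ s, Multiset.card (F γ) = w := by
    intro γ hγ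
    have := hs γ hγ
    have h1 : Multiset.card (Finsupp.toMultiset γ) = γ.degree := by
      rw [Finsupp.card_toMultiset]; rfl
    simp only [F, Multiset.card_add, Multiset.card_map, Multiset.card_replicate, h1]
    omega
  have hinj : Set.InjOn F ↑s := by
    intro γ hγ δ hδ h
    ext i
    have := congrArg (Multiset.count (some i)) h
    simpa [F, Multiset.count_map_eq_count' some _ (Option.some_injective _),
      Multiset.count_replicate] using this
  have hle : s.card ≤ (Finset.univ.image (fun x : Sym (Option σ) w => (x : Multiset (Option σ)))).card := by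
    refine Finset.card_le_card_of_injOn F ?_ hinj
    intro γ hγ
    simp only [coe_image, coe_univ, Set.image_univ, Set.mem_range]
    exact ⟨⟨F γ, hF γ hγ⟩, rfl⟩
  refine hle.trans (Finset.card_image_le.trans ?_)
  rw [Finset.card_univ, Sym.card_sym_eq_choose, Fintype.card_option]
  have : Fintype.card σ + 1 + w - 1 = w + Fintype.card σ := by omega
  rw [this, ← Nat.choose_symm_of_eq_add rfl, Nat.add_comm]

lemma sum_choose_hockey (r W : ℕ) :
    ∑ w ∈ range W, (w + r).choose r = (W + r).choose (r + 1) := by
  induction W with
  | zero => simp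
  | succ W ih =>
    rw [sum_range_succ, ih]
    have h : W + 1 + r = W + r + 1 := by omega
    rw [h, Nat.choose_succ_succ' (W + r) r]
    omega

lemma sum_degree_ge {n : Type*} [Fintype n] (r : n → (σ →₀ ℕ)) (hr : Function.Injective r)
    (W : ℕ) :
    W * Fintype.card n ≤ (∑ c, (r c).degree) +
      (W + Fintype.card σ).choose (Fintype.card σ + 1) := by
  classical
  rw [← sum_choose_hockey]
  have h1 : ∀ c, W ≤ (r c).degree + ((range W).filter fun w => (r c).degree ≤ w).card := by
    intro c
    by_cases hle : (r c).degree ≤ W
    · have : ((range W).filter fun w => (r c).degree ≤ w) = Finset.Ico (r c).degree W := by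
        ext w; simp [and_comm]
      rw [this, Nat.card_Ico]; omega
    · omega
  calc W * Fintype.card n = ∑ _c : n, W := by simp [mul_comm]
    _ ≤ ∑ c, ((r c).degree + ((range W).filter fun w => (r c).degree ≤ w).card) :=
        sum_le_sum fun c _ => h1 c
    _ = (∑ c, (r c).degree) +
        ∑ w ∈ range W, (univ.filter fun c : n => (r c).degree ≤ w).card := by
        rw [sum_add_distrib]
        congr 1
        simp only [card_filter]
        rw [sum_comm]
    _ ≤ _ := by
        refine Nat.add_le_add_left (sum_le_sum fun w _ => ?_) _
        rw [← card_image_of_injective _ hr]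
        refine card_degree_le _ w ?_
        simp

/-- Values of polynomials at points congruent to `z0` modulo `Q` have a determinant divisible
by a high power of `Q`. -/
theorem det_dvd {O : Type*} [CommRing O] {n : Type*} [Fintype n] [DecidableEq n]
    (P : n → MvPolynomial σ O) (z0 : σ → O) (y : n → σ → O) (Q : O) (W : ℕ) :
    Q ^ (W * Fintype.card n - (W + Fintype.card σ).choose (Fintype.card σ + 1)) ∣
      Matrix.det (Matrix.of fun l c => eval (fun i => z0 i + Q * y l i) (P c)) := by
  classical
  set S : n → MvPolynomial σ O := fun c => bind₁ (fun i => X i + C (z0 i)) (P c) with hS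
  have heval : ∀ l c, eval (fun i => z0 i + Q * y l i) (P c) =
      ∑ γ ∈ univ.biUnion (fun c => (S c).support),
        ((S c).coeff γ * Q ^ γ.degree) * ∏ i, y l i ^ γ i := by
    intro l c
    have h1 : eval (fun i => Q * y l i) (S c) = eval (fun i => z0 i + Q * y l i) (P c) := by
      have h2 : ∀ (x : σ → O) (u : σ → MvPolynomial σ O) (p : MvPolynomial σ O),
          eval x (bind₁ u p) = eval (fun i => eval x (u i)) p := fun x u p =>
        eval₂Hom_bind₁ _ _ _ _
      simp [hS, h2, add_comm]
    rw [← h1, eval_eq']
    rw [sum_subset (s₂ := univ.biUnion (fun c => (S c).support))]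
    · refine sum_congr rfl fun γ _ => ?_
      simp only [mul_pow, prod_mul_distrib, prod_pow_eq_pow_sum]
      have : ∑ i, γ i = γ.degree := (Finsupp.degree_eq_sum γ).symm
      rw [this]; ring
    · exact subset_biUnion_of_mem (fun c => (S c).support) (mem_univ c)
    · intro γ _ hγ
      simp only [mem_support_iff, not_not] at hγ
      simp [hγ]
  rw [← Matrix.det_transpose]
  have hM : (Matrix.of fun l c => eval (fun i => z0 i + Q * y l i) (P c)).transpose =
      fun c => ∑ γ ∈ univ.biUnion (fun c => (S c).support),
        ((S c).coeff γ * Q ^ γ.degree) • fun l => ∏ i, y l i ^ γ i := by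
    funext c l
    simp [Matrix.transpose_apply, heval, Finset.sum_apply]
  rw [hM]
  show _ ∣ (Matrix.detRowAlternating (R := O) (n := n)).toMultilinearMap _
  rw [MultilinearMap.map_sum_finset]
  refine dvd_sum fun r _ => ?_
  rw [MultilinearMap.map_smul_univ, smul_eq_mul]
  by_cases hr : Function.Injective r
  · refine dvd_mul_of_dvd_left ?_ _
    rw [prod_mul_distrib, prod_pow_eq_pow_sum]
    refine dvd_mul_of_dvd_right (pow_dvd_pow Q ?_) _
    have := sum_degree_ge r hr W
    omega
  · refine dvd_mul_of_dvd_right ?_ _
    rw [Function.Injective] at hr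
    push Not at hr
    obtain ⟨a, b, hab, hne⟩ := hr
    have h0 : (Matrix.detRowAlternating (R := O) (n := n)).toMultilinearMap
        (fun c l => ∏ i, y l i ^ r c i) = 0 := by
      refine AlternatingMap.map_eq_zero_of_eq _ _ (i := a) (j := b) ?_ hne
      simp [hab]
    rw [h0]
    exact dvd_zero _

end

/-- If every square minor built on a family of row vectors vanishes, the rows have a common
nonzero kernel vector. -/
theorem exists_kernel {K : Type*} [Field K] {ι : Type*} {n : Type*} [Fintype n] [DecidableEq n]
    (v : ι → n → K) (h : ∀ f : n → ι, Matrix.det (Matrix.of fun a b => v (f a) b) = 0) :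
    ∃ c : n → K, c ≠ 0 ∧ ∀ i, ∑ b, c b * v i b = 0 := by
  classical
  by_cases hsp : Submodule.span K (Set.range v) = ⊤
  · exfalso
    obtain ⟨t, hts, hspan, hli⟩ := exists_linearIndependent K (Set.range v)
    rw [hsp] at hspan
    have htfin : t.Finite := hli.setFinite
    have : Fintype t := htfin.fintype
    let bt : Module.Basis t K (n → K) := Module.Basis.mk hli (by simp [hspan])
    have hcard : Fintype.card t = Fintype.card n := by
      rw [← Module.finrank_eq_card_basis bt, Module.finrank_pi]
    let e : n ≃ t := (Fintype.equivOfCardEq hcard).symm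
    choose f hf using fun a : n => hts (e a).2
    have hrows : LinearIndependent K (fun a => v (f a)) := by
      have h2 : (fun a => v (f a)) = (fun x : t => (x : n → K)) ∘ e := by
        funext a; simp [hf]
      rw [h2]
      exact hli.comp _ e.injective
    have hunit : IsUnit (Matrix.of fun a b => v (f a) b) :=
      Matrix.linearIndependent_rows_iff_isUnit.1 hrows
    have := (Matrix.isUnit_iff_isUnit_det _).1 hunit
    rw [h f] at this
    exact not_isUnit_zero this
  · obtain ⟨φ, hφ, hker⟩ := Submodule.exists_le_ker_of_lt_top _ (lt_top_iff_ne_top.2 hsp)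
    refine ⟨fun b => φ (Pi.single b 1), ?_, fun i => ?_⟩
    · intro h0
      refine hφ (LinearMap.pi_ext' fun b => LinearMap.ext_ring ?_)
      simpa using congrFun h0 b
    · have hi : φ (v i) = 0 := hker (Submodule.subset_span ⟨i, rfl⟩)
      have hdec : v i = ∑ b, v i b • (Pi.single b (1 : K) : n → K) := pi_eq_sum_univ' (v i)
      rw [hdec, map_sum] at hi
      simpa [mul_comm] using hi

end Vale.Agent.P018
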