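import Vale.Agent.P018.CurveCount

/-!
# Algebra for the slices of a surface
-/

namespace Vale.Agent.P018

open Polynomial

variable {K : Type*} [Field K]

/-- Outside boundedly many values of the first variable, a relation among three values gives a
relation between the other two. -/
theorem exists_slice_relation (P : MvPolynomial (Fin 3) K) (hP : P ≠ 0) {δ : ℕ}
    (hPd : P.totalDegree ≤ δ) :
    ∃ E : Finset K, E.card ≤ δ ∧ ∀ v ∉ E, ∃ Q : MvPolynomial (Fin 2) K, Q ≠ 0 ∧
      Q.totalDegree ≤ δ ∧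
      ∀ x : Fin 2 → K, MvPolynomial.eval (Fin.cons v x) P = MvPolynomial.eval x Q := by
  classical
  set f := MvPolynomial.finSuccEquiv K 2 P with hf
  have hf0 : f ≠ 0 := by simpa [hf] using hP
  obtain ⟨i, hi⟩ : ∃ i, f.coeff i ≠ 0 := by
    by_contra h
    push Not at h
    exact hf0 (Polynomial.ext fun i => by simpa using h i)
  obtain ⟨m, hm⟩ := MvPolynomial.ne_zero_iff.1 hi
  set h : Polynomial K :=
    ∑ j ∈ Finset.range (f.natDegree + 1), C (MvPolynomial.coeff m (f.coeff j)) * X ^ j with hh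
  have hfd : f.natDegree ≤ δ := by
    rw [hf, MvPolynomial.natDegree_finSuccEquiv]
    exact (MvPolynomial.degreeOf_le_totalDegree _ _).trans hPd
  have hh0 : h ≠ 0 := by
    intro h0
    have h1 := congrArg (fun p : Polynomial K => p.coeff i) h0
    simp only [hh, finsetSum_coeff, coeff_C_mul_X_pow, coeff_zero] at h1
    rw [Finset.sum_ite_eq, if_pos] at h1
    · exact hm h1
    · rw [Finset.mem_range]
      exact Nat.lt_succ_of_le (le_natDegree_of_ne_zero hi)
  refine ⟨h.roots.toFinset, ?_, fun v hv => ?_⟩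
  · refine (Multiset.toFinset_card_le _).trans ((card_roots' h).trans ?_)
    refine natDegree_sum_le_of_forall_le _ _ fun j hj => (natDegree_C_mul_X_pow_le _ _).trans ?_
    rw [Finset.mem_range] at hj
    omega
  have hev : f.eval (MvPolynomial.C v) =
      ∑ j ∈ Finset.range (f.natDegree + 1), MvPolynomial.C (v ^ j) * f.coeff j := by
    rw [eval_eq_sum_range]
    exact Finset.sum_congr rfl fun j _ => by rw [map_pow, mul_comm]
  refine ⟨f.eval (MvPolynomial.C v), ?_, ?_, fun x => ?_⟩
  · intro h0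
    have h1 := congrArg (MvPolynomial.coeff m) h0
    simp only [hev, MvPolynomial.coeff_sum, MvPolynomial.coeff_C_mul,
      MvPolynomial.coeff_zero] at h1
    refine hv (Multiset.mem_toFinset.2 ((mem_roots hh0).2 ?_))
    rw [IsRoot.def, hh, eval_finsetSum]
    refine Eq.trans (Finset.sum_congr rfl fun j _ => ?_) h1
    rw [eval_mul, eval_C, eval_pow, eval_X, mul_comm]
  · rw [hev]
    refine (MvPolynomial.totalDegree_finsetSum _ _).trans (Finset.sup_le fun j _ => ?_)
    refine (MvPolynomial.totalDegree_mul _ _).trans ?_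
    rw [MvPolynomial.totalDegree_C, Nat.zero_add]
    by_cases hj : f.coeff j = 0
    · simp [hj]
    · have h1 := MvPolynomial.totalDegree_coeff_finSuccEquiv_add_le P j hj
      rw [← hf] at h1
      omega
  · rw [MvPolynomial.eval_eq_eval_mv_eval', ← hf, ← Polynomial.eval₂_at_apply, eval₂_eq_eval_map,
      MvPolynomial.eval_C]

/-- A polynomial in two variables, written with iterated polynomial rings. -/
theorem exists_biv (Q : MvPolynomial (Fin 2) K) (hQ : Q ≠ 0) {δ : ℕ} (hQd : Q.totalDegree ≤ δ) :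
    ∃ P : Polynomial (Polynomial K), P ≠ 0 ∧ BDeg δ P ∧
      ∀ x : Fin 2 → K, P.evalEval (x 0) (x 1) = MvPolynomial.eval x Q := by
  classical
  let sw : (Fin 2 →₀ ℕ) → ℕ × ℕ := fun m => (m 0, m 1)
  have hsw : Function.Injective sw := by
    intro a b h
    simp only [sw, Prod.mk.injEq] at h
    ext i
    fin_cases i
    · exact h.1
    · exact h.2
  let c : ℕ × ℕ → K := fun e =>
    Q.coeff (Finsupp.equivFunOnFinite.symm ![e.1, e.2])
  have hc : ∀ m : Fin 2 →₀ ℕ, c (sw m) = Q.coeff m := by
    intro m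
    simp only [c]
    congr 1
    ext i
    fin_cases i <;> simp [sw]
  have hdeg : ∀ m ∈ Q.support, m 0 ≤ δ ∧ m 1 ≤ δ := by
    intro m hm
    exact ⟨((MvPolynomial.monomial_le_degreeOf 0 hm).trans
      (MvPolynomial.degreeOf_le_totalDegree _ _)).trans hQd,
      ((MvPolynomial.monomial_le_degreeOf 1 hm).trans
      (MvPolynomial.degreeOf_le_totalDegree _ _)).trans hQd⟩
  refine ⟨comb (Q.support.image sw) c, ?_, bDeg_comb _ _ ?_, fun x => ?_⟩
  · obtain ⟨m, hm⟩ := MvPolynomial.ne_zero_iff.1 hQ
    intro h0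
    have h1 := congrArg (fun p => (p.coeff (m 1)).coeff (m 0)) h0
    simp only [coeff_coeff_comb, coeff_zero] at h1
    rw [if_pos (Finset.mem_image.2 ⟨m, MvPolynomial.mem_support_iff.2 hm, rfl⟩)] at h1
    exact hm ((hc m).symm.trans h1)
  · intro e he
    obtain ⟨m, hm, rfl⟩ := Finset.mem_image.1 he
    exact hdeg m hm
  · rw [evalEval_comb, Finset.sum_image hsw.injOn, MvPolynomial.eval_eq']
    refine Finset.sum_congr rfl fun m _ => ?_
    rw [hc, Fin.prod_univ_two, mul_assoc]

/-- Irreducible factors involving the second variable. -/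
theorem exists_nonpure_factors (P : Polynomial (Polynomial K)) (hP : P ≠ 0) {δ : ℕ}
    (hPd : BDeg δ P) :
    ∃ (E : Finset K) (S : Finset (Polynomial (Polynomial K))), E.card ≤ 2 * δ * δ ∧
      S.card ≤ 2 * δ ∧ (∀ G ∈ S, Irreducible G ∧ G.natDegree ≠ 0 ∧ BDeg δ G) ∧
      ∀ u v : K, P.evalEval u v = 0 → u ∈ E ∨ ∃ G ∈ S, G.evalEval u v = 0 := by
  classical
  obtain ⟨S, hS, hSG, hz⟩ := exists_factors_biv P hP hPd
  refine ⟨(S.filter fun G => G.natDegree = 0).biUnion fun G => (G.coeff 0).roots.toFinset,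
    S.filter fun G => G.natDegree ≠ 0, ?_, ?_, ?_, ?_⟩
  · refine Finset.card_biUnion_le.trans ((Finset.sum_le_sum (g := fun _ => δ) fun G hG => ?_).trans ?_)
    · exact (Multiset.toFinset_card_le _).trans
        ((card_roots' _).trans ((hSG G (Finset.mem_filter.1 hG).1).2.2 0))
    · rw [Finset.sum_const, smul_eq_mul]
      exact Nat.mul_le_mul_right _ ((Finset.card_filter_le _ _).trans hS)
  · exact (Finset.card_filter_le _ _).trans hS
  · intro G hG
    obtain ⟨hG, hd⟩ := Finset.mem_filter.1 hG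
    exact ⟨(hSG G hG).1, hd, (hSG G hG).2⟩
  · intro u v huv
    obtain ⟨G, hG, h0⟩ := hz u v huv
    by_cases hd : G.natDegree = 0
    · refine Or.inl (Finset.mem_biUnion.2 ⟨G, Finset.mem_filter.2 ⟨hG, hd⟩, ?_⟩)
      have hC := eq_C_of_natDegree_eq_zero hd
      rw [hC, evalEval_C] at h0
      rw [Multiset.mem_toFinset, mem_roots]
      · exact h0
      · intro hc
        rw [hc, map_zero] at hC
        exact (hSG G hG).1.ne_zero hC
    · exact Or.inr ⟨G, Finset.mem_filter.2 ⟨hG, hd⟩, h0⟩

lemma evalEval_linear {F : Polynomial (Polynomial K)} (hF : F.natDegree = 1) (u v : K) :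
    F.evalEval u v = (F.coeff 1).eval u * v + (F.coeff 0).eval u := by
  conv_lhs => rw [eq_X_add_C_of_natDegree_le_one hF.le]
  simp [evalEval_C]

/-- The irreducible linear polynomial defined by a linear equation. -/
theorem exists_reduced_linear (a b : Polynomial K) (ha : a ≠ 0) {δ : ℕ} (had : a.natDegree ≤ δ)
    (hbd : b.natDegree ≤ δ) :
    ∃ (E : Finset K) (F : Polynomial (Polynomial K)), E.card ≤ δ ∧ Irreducible F ∧
      F.natDegree = 1 ∧ BDeg (δ + 1) F ∧
      ∀ u v : K, a.eval u * v + b.eval u = 0 → u ∉ E → F.evalEval u v = 0 := by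
  classical
  obtain ⟨a', ha'⟩ := EuclideanDomain.gcd_dvd_left a b
  obtain ⟨b', hb'⟩ := EuclideanDomain.gcd_dvd_right a b
  set g := EuclideanDomain.gcd a b with hg
  have hg0 : g ≠ 0 := fun h => ha (by rw [ha', h, zero_mul])
  have ha'0 : a' ≠ 0 := fun h => ha (by rw [ha', h, mul_zero])
  have hgd : g.natDegree ≤ δ := (natDegree_le_of_dvd ⟨a', ha'⟩ ha).trans had
  have ha'd : a'.natDegree ≤ δ :=
    (natDegree_le_of_dvd ⟨g, ha'.trans (mul_comm _ _)⟩ ha).trans had
  have hb'd : b'.natDegree ≤ δ := by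
    by_cases h : b = 0
    · have : b' = 0 := by
        rw [h] at hb'
        exact (mul_eq_zero.1 hb'.symm).resolve_left hg0
      simp [this]
    · exact (natDegree_le_of_dvd ⟨g, hb'.trans (mul_comm _ _)⟩ h).trans hbd
  have hco : IsCoprime a' b' := by
    refine ⟨EuclideanDomain.gcdA a b, EuclideanDomain.gcdB a b, ?_⟩
    have hgc := EuclideanDomain.gcd_eq_gcd_ab a b
    rw [← hg] at hgc
    have h1 : g * (EuclideanDomain.gcdA a b * a' + EuclideanDomain.gcdB a b * b') = g * 1 := by
      linear_combination -hgc - EuclideanDomain.gcdA a b * ha' - EuclideanDomain.gcdB a b * hb'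
    exact mul_left_cancel₀ hg0 h1
  refine ⟨g.roots.toFinset, C a' * X + C b', ?_, ?_, natDegree_linear ha'0, ⟨?_, fun i => ?_⟩, ?_⟩
  · exact (Multiset.toFinset_card_le _).trans ((card_roots' _).trans hgd)
  · have hne : C a' * X + C b' ≠ 0 := fun h => by
      have := natDegree_linear (b := b') ha'0
      rw [h, natDegree_zero] at this
      omega
    refine ⟨fun hu => ?_, fun p q hpq => ?_⟩
    · have := natDegree_eq_zero_of_isUnit hu
      rw [natDegree_linear ha'0] at this
      omega
    have hp0 : p ≠ 0 := fun h => hne (by rw [hpq, h, zero_mul])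
    have hq0 : q ≠ 0 := fun h => hne (by rw [hpq, h, mul_zero])
    have hd := congrArg natDegree hpq
    rw [natDegree_linear ha'0, natDegree_mul hp0 hq0] at hd
    have key : ∀ p q : Polynomial (Polynomial K), C a' * X + C b' = p * q → p.natDegree = 0 →
        IsUnit p := by
      intro p q h hp
      rw [eq_C_of_natDegree_eq_zero hp] at h ⊢
      have h1 := congrArg (fun f => Polynomial.coeff f 1) h
      have h0 := congrArg (fun f => Polynomial.coeff f 0) h
      simp at h1 h0
      exact (hco.isUnit_of_dvd' ⟨q.coeff 1, h1⟩ ⟨q.coeff 0, h0⟩).map C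
    rcases Nat.eq_zero_or_pos p.natDegree with h | h
    · exact Or.inl (key p q hpq h)
    · exact Or.inr (key q p (hpq.trans (mul_comm _ _)) (by omega))
  · rw [natDegree_linear ha'0]; omega
  · rcases i with _ | _ | i
    · simp; omega
    · simp; omega
    · simp
  · intro u v h hu
    have h1 : g.eval u ≠ 0 := fun h0 => hu (Multiset.mem_toFinset.2 ((mem_roots hg0).2 h0))
    rw [ha', hb', eval_mul, eval_mul, mul_assoc, ← mul_add] at h
    simpa [evalEval_C] using (mul_eq_zero.1 h).resolve_left h1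

/-- An irreducible curve meets each fibre in boundedly many points. -/
theorem card_fibre_le {β : Type*} {F : Polynomial (Polynomial K)} (hF : Irreducible F)
    (hdeg : F.natDegree ≠ 0) {δ : ℕ} (hFd : BDeg δ F) (U : Finset β) (v : β → K)
    (hv : Set.InjOn v (U : Set β)) (u : K) (hzero : ∀ z ∈ U, F.evalEval u (v z) = 0) :
    U.card ≤ δ := by
  classical
  have hne := fibre_poly_ne_zero hF hdeg u
  calc U.card ≤ (F.map (evalRingHom u)).roots.toFinset.card := by
        refine Finset.card_le_card_of_injOn v (fun z hz => ?_) hv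
        rw [Finset.mem_coe, Multiset.mem_toFinset, mem_roots hne, IsRoot.def, ← evalEval_eq_map]
        exact hzero z hz
    _ ≤ (F.map (evalRingHom u)).natDegree :=
        (Multiset.toFinset_card_le _).trans (card_roots' _)
    _ ≤ δ := natDegree_map_le.trans hFd.1

/-- Polynomial solutions of `q i * p i ^ k = R (M - θ i)` have large degree. -/
theorem degree_lower [CharZero K] {d k : ℕ} (hk : 1 ≤ k) (p q : Fin d → Polynomial K)
    (hp : ∀ i, (p i).natDegree = 1) (M : Polynomial K) (hM : M.natDegree ≠ 0) (θ : Fin d → K)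
    (hθ : Function.Injective θ) {R : K} (hR : R ≠ 0)
    (h : ∀ i, q i * p i ^ k = C R * (M - C (θ i))) (i : Fin d) :
    d * (k - 1) + 1 - k ≤ (q i).natDegree := by
  classical
  have hp0 : ∀ j, p j ≠ 0 := fun j h0 => by simpa [h0] using hp j
  have hirr : ∀ j, Irreducible (p j) := fun j =>
    irreducible_of_degree_eq_one (by rw [degree_eq_natDegree (hp0 j), hp j]; rfl)
  have hdvd : ∀ j, p j ∣ C R * (M - C (θ j)) := fun j =>
    ⟨q j * p j ^ (k - 1), by
      rw [← h j, mul_left_comm, ← pow_succ', Nat.sub_add_cancel hk]⟩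
  have hco : ∀ a b, a ≠ b → IsCoprime (p a) (p b) := by
    intro a b hab
    refine (hirr a).coprime_iff_not_dvd.2 fun hd => ?_
    have h1 : p a ∣ C (R * (θ b - θ a)) := by
      have := dvd_sub (hdvd a) (hd.trans (hdvd b))
      convert this using 1
      simp only [map_mul, map_sub]
      ring
    have hu : IsUnit (C (R * (θ b - θ a))) :=
      isUnit_C.2 (isUnit_iff_ne_zero.2 (mul_ne_zero hR (sub_ne_zero.2 fun e => hab (hθ e).symm)))
    exact (hirr a).not_isUnit (isUnit_of_dvd_unit h1 hu)
  have hder : ∀ j, p j ^ (k - 1) ∣ derivative M := by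
    intro j
    have h1 : derivative (q j * p j ^ k) = C R * derivative M := by
      rw [h j]
      simp
    rw [derivative_mul, derivative_pow] at h1
    have h2 : p j ^ (k - 1) ∣ C R * derivative M := by
      rw [← h1]
      exact dvd_add (dvd_mul_of_dvd_right (pow_dvd_pow _ (Nat.sub_le _ _)) _)
        (dvd_mul_of_dvd_right (dvd_mul_of_dvd_left (dvd_mul_left _ _) _) _)
    exact ((isUnit_C.2 (isUnit_iff_ne_zero.2 hR)).dvd_mul_left).1 h2
  have hprod : ∏ j, p j ^ (k - 1) ∣ derivative M :=
    Finset.prod_dvd_of_coprime (fun a _ b _ hab => (hco a b hab).pow) fun j _ => hder j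
  have hM' : derivative M ≠ 0 := fun h0 => hM (derivative_eq_zero.1 h0)
  have h1 := natDegree_le_of_dvd hprod hM'
  rw [natDegree_prod _ _ fun j _ => pow_ne_zero _ (hp0 j)] at h1
  simp only [natDegree_pow, hp, mul_one, Finset.sum_const, Finset.card_univ, Fintype.card_fin,
    smul_eq_mul] at h1
  have h2 := natDegree_derivative_lt hM
  have hMC : (M - C (θ i)).natDegree = M.natDegree := natDegree_sub_C
  have hMC0 : M - C (θ i) ≠ 0 := fun h0 => hM (by rw [← hMC, h0, natDegree_zero])
  have hq0 : q i ≠ 0 := fun h0 => mul_ne_zero (C_ne_zero.2 hR) hMC0 (by rw [← h i, h0, zero_mul])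
  have h3 := congrArg natDegree (h i)
  rw [natDegree_mul hq0 (pow_ne_zero _ (hp0 i)), natDegree_C_mul hR, hMC, natDegree_pow, hp i,
    mul_one] at h3
  omega

end Vale.Agent.P018
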