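import Vale.Agent.P018.CurveFamilies
import Vale.Agent.P018.SurfaceAlg

/-!
# A slice of a surface cell
-/

namespace Vale.Agent.P018

open NumberField Finset Polynomial

variable {d : ℕ} {L : Type} [Field L] [NumberField L]

/-- Two functions satisfy a relation of bounded degree. -/
def PairRel {β : Type*} {K : Type*} [Field K] (δ : ℕ) (f g : β → K) (U : Finset β) : Prop :=
  ∃ P : Polynomial (Polynomial K), P ≠ 0 ∧ BDeg δ P ∧ ∀ z ∈ U, P.evalEval (f z) (g z) = 0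

/-- Coordinates scaled by the modulus of a cell around `z₀`. -/
structure Scaled (Q₀ : ℕ) (z₀ : Pt d L) (u : Pt d L → Fin d → ℤ) (w : Pt d L → ℤ)
    (v : Pt d L → Fin d → 𝓞 L) (U : Finset (Pt d L)) : Prop where
  cu : ∀ z ∈ U, ∀ l, z.c l = z₀.c l + Q₀ * u z l
  mw : ∀ z ∈ U, z.m = z₀.m + Q₀ * w z
  μv : ∀ z ∈ U, ∀ i, z.μ i = z₀.μ i + (Q₀ : 𝓞 L) * v z i

lemma Scaled.mono {Q₀ : ℕ} {z₀ : Pt d L} {u : Pt d L → Fin d → ℤ} {w : Pt d L → ℤ}
    {v : Pt d L → Fin d → 𝓞 L} {U V : Finset (Pt d L)} (h : Scaled Q₀ z₀ u w v U) (hV : V ⊆ U) :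
    Scaled Q₀ z₀ u w v V :=
  ⟨fun z hz => h.cu z (hV hz), fun z hz => h.mw z (hV hz), fun z hz => h.μv z (hV hz)⟩

/-- The cofactor is determined modulo a modulus coprime to `ρ`. -/
lemma mu_cong (D : RootData d L) {k : ℕ} {R : ℤ} {z z' : Pt d L} (hz : D.IsPt k R z)
    (hz' : D.IsPt k R z') {Q : ℕ} (hQ : D.Coprime Q z) (h : Pt.Cong Q z z') (i : Fin d) :
    (Q : 𝓞 L) ∣ z.μ i - z'.μ i := by
  have hcast : ∀ x : ℤ, (Q : ℤ) ∣ x → (Q : 𝓞 L) ∣ (x : 𝓞 L) := fun x hx => by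
    simpa using map_dvd (Int.castRingHom (𝓞 L)) hx
  have hρ : (Q : 𝓞 L) ∣ D.ρ z i - D.ρ z' i := by
    simp only [RootData.ρ, ← Finset.sum_sub_distrib, ← sub_mul]
    exact Finset.dvd_sum fun l _ => dvd_mul_of_dvd_left (by simpa using hcast _ (h.2 l)) _
  refine (hQ i).pow_right.dvd_of_dvd_mul_right (y := z.μ i - z'.μ i) (z := D.ρ z i ^ k) ?_
  have e : (z.μ i - z'.μ i) * D.ρ z i ^ k = (R : 𝓞 L) * ((z.m - z'.m : ℤ) : 𝓞 L) -
      z'.μ i * (D.ρ z i ^ k - D.ρ z' i ^ k) := by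
    push_cast
    linear_combination hz.rel i - hz'.rel i
  rw [e]
  exact dvd_sub (dvd_mul_of_dvd_right (hcast _ h.1) _)
    (dvd_mul_of_dvd_right (hρ.trans (sub_dvd_pow_sub_pow _ _ k)) _)

/-- What the count on a curve gives for a class of curves. -/
def CurveBound (D : RootData d L) (k : ℕ) (R : ℤ) (A M C₀ C₁ : ℝ) (B₀ K₀ δ : ℕ) (a b g : ℝ)
    (Fam : Polynomial (Polynomial L) → Prop) : Prop :=
  ∃ Cst X₁ : ℝ, 0 ≤ Cst ∧ ∀ X : ℝ, X₁ ≤ X → ∀ S₀ : Finset ℕ, S₀.card ≤ K₀ →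
    ∀ Z : Finset (Pt d L), D.Good k R C₀ C₁ X A M B₀ Z →
    ∀ [DecidableEq (Option (Fin d) → L)], Rel δ 1 univ (Z.image D.coord) →
    ∀ (u : Pt d L → ℤ) (v : Pt d L → 𝓞 L),
    (∀ z ∈ Z, |(u z : ℝ)| ≤ 2 * C₀ * X ^ a) →
    (∀ z ∈ Z, ∀ φ : L →+* ℂ, ‖φ (v z : L)‖ ≤ 2 * C₀ * X ^ b) →
    (∀ S : Finset ℕ, Disjoint S S₀ → (∀ q ∈ S, SplitPrime d D.g q ∧ C₁ < q ∧ (q : ℝ) < X) →
      ∀ z ∈ Z, ∀ z' ∈ Z, Pt.Cong (∏ q ∈ S, q) z z' →
        ((∏ q ∈ S, q : ℕ) : ℤ) ∣ u z - u z' ∧ ((∏ q ∈ S, q : ℕ) : 𝓞 L) ∣ v z - v z') →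
    ∀ F : Polynomial (Polynomial L), Irreducible F → F.natDegree ≠ 0 → BDeg δ F → Fam F →
    (∀ z ∈ Z, F.evalEval (u z : L) (v z : L) = 0) →
    (∀ u₀ : ℤ, (Z.filter fun z => u z = u₀).card ≤ δ) →
    (Z.card : ℝ) ≤ Cst * X ^ g

lemma CurveBound.of_family (D : RootData d L) {k : ℕ} (hk : 1 ≤ k) {R : ℤ} (hR : R ≠ 0)
    {A M a b g η : ℝ} (ha : 0 ≤ a) (hb : 0 ≤ b) (hg : 0 ≤ g) (hη : 0 < η) (hη1 : η < 1)
    {C₀ : ℝ} (hC₀ : 1 ≤ C₀) (C₁ : ℝ) (B₀ K₀ δ : ℕ)
    {Fam : Polynomial (Polynomial L) → Prop}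
    (h : ∃ E : Finset (ℕ × ℕ),
      (∑ e ∈ E, (a * e.1 + b * e.2)) + 1 ≤ g * ((E.card.choose 2 : ℕ) : ℝ) ∧
      ∀ F, Irreducible F → F.natDegree ≠ 0 → Fam F → IndepMod E F) :
    CurveBound D k R A M C₀ C₁ B₀ K₀ δ a b (g + η) Fam := by
  obtain ⟨E, hE, hind⟩ := h
  obtain ⟨Cst, X₁, h0, h⟩ :=
    curve_count D hk hR (A := A) (M := M) ha hb hg hη hη1 E hE hC₀ C₁ (2 * C₀) B₀ δ δ K₀
  exact ⟨Cst, X₁, h0, fun X hX S₀ hS₀ Z hZ _ hrel u v hu hv hc F hF hF1 hF2 hFam hz hf =>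
    h X hX S₀ hS₀ Z hZ hrel u v hu hv hc F hF hF1 hF2 (hind F hF hF1 hFam) hz hf⟩

lemma CurveBound.or {D : RootData d L} {k : ℕ} {R : ℤ} {A M C₀ C₁ : ℝ} {B₀ K₀ δ : ℕ}
    {a b g : ℝ} {F₁ F₂ F₃ : Polynomial (Polynomial L) → Prop}
    (h₁ : CurveBound D k R A M C₀ C₁ B₀ K₀ δ a b g F₁)
    (h₂ : CurveBound D k R A M C₀ C₁ B₀ K₀ δ a b g F₂)
    (h : ∀ F, Irreducible F → F.natDegree ≠ 0 → F₃ F → F₁ F ∨ F₂ F) :
    CurveBound D k R A M C₀ C₁ B₀ K₀ δ a b g F₃ := by
  obtain ⟨c₁, x₁, h1, e₁⟩ := h₁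
  obtain ⟨c₂, x₂, h2, e₂⟩ := h₂
  refine ⟨c₁ + c₂, max (max x₁ x₂) 0, by linarith, ?_⟩
  intro X hX S₀ hS₀ Z hZ _ hrel u v hu hv hc F hF hF1 hF2 hFam hz hf
  simp only [max_le_iff] at hX
  have hp : 0 ≤ X ^ g := Real.rpow_nonneg hX.2 _
  rw [add_mul]
  rcases h F hF hF1 hFam with hh | hh
  · exact (e₁ X hX.1.1 S₀ hS₀ Z hZ hrel u v hu hv hc F hF hF1 hF2 hh hz hf).trans
      (le_add_of_nonneg_right (mul_nonneg h2 hp))
  · exact (e₂ X hX.1.2 S₀ hS₀ Z hZ hrel u v hu hv hc F hF hF1 hF2 hh hz hf).trans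
      (le_add_of_nonneg_left (mul_nonneg h1 hp))

/-- The curve defines the second coordinate as an affine function of the first one. -/
def IsAffine {K : Type*} [Field K] (F : Polynomial (Polynomial K)) : Prop :=
  F.natDegree = 1 ∧ (F.coeff 1).natDegree = 0 ∧ (F.coeff 0).natDegree ≤ 1

/-- The curve has a pole or defines a polynomial of degree at least `D`. -/
def IsHighLinear {K : Type*} [Field K] (D : ℕ) (F : Polynomial (Polynomial K)) : Prop :=
  F.natDegree = 1 ∧ (1 ≤ (F.coeff 1).natDegree ∨ D ≤ (F.coeff 0).natDegree)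

/-- A polynomial whose linear equation is solved by a constant leading coefficient. -/
lemma eval_of_linear_const {K : Type*} [Field K] {F : Polynomial (Polynomial K)}
    (h1 : F.natDegree = 1) (h2 : (F.coeff 1).natDegree = 0) {u v : K}
    (h : F.evalEval u v = 0) :
    (Polynomial.C (-((F.coeff 1).coeff 0)⁻¹) * F.coeff 0).eval u = v := by
  have hF0 : F ≠ 0 := by rintro rfl; simp at h1
  have hl : F.coeff 1 ≠ 0 := by
    have := leadingCoeff_ne_zero.2 hF0
    rwa [leadingCoeff, h1] at this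
  rw [eq_C_of_natDegree_eq_zero h2] at hl
  have hr : (F.coeff 1).coeff 0 ≠ 0 := by simpa using hl
  rw [evalEval_linear h1, eq_C_of_natDegree_eq_zero h2, eval_C] at h
  rw [eval_mul, eval_C, eq_neg_of_add_eq_zero_right h]
  field_simp

section points

variable {D : RootData d L} {k : ℕ} {R : ℤ} {A M C₀ C₁ X : ℝ} {B₀ : ℕ}

/-- Congruence of the scaled coordinates. -/
lemma Scaled.cong {S₀ : Finset ℕ} (hS₀ : ∀ q ∈ S₀, q.Prime) {z₀ : Pt d L}
    {u : Pt d L → Fin d → ℤ} {w : Pt d L → ℤ} {v : Pt d L → Fin d → 𝓞 L}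
    {U : Finset (Pt d L)} (hsc : Scaled (∏ q ∈ S₀, q) z₀ u w v U)
    (hU : D.Good k R C₀ C₁ X A M B₀ U) {S : Finset ℕ} (hd : Disjoint S S₀)
    (hS : ∀ q ∈ S, SplitPrime d D.g q ∧ C₁ < q ∧ (q : ℝ) < X)
    {z z' : Pt d L} (hz : z ∈ U) (hz' : z' ∈ U) (h : Pt.Cong (∏ q ∈ S, q) z z') :
    (∀ l, ((∏ q ∈ S, q : ℕ) : ℤ) ∣ u z l - u z' l) ∧ ((∏ q ∈ S, q : ℕ) : ℤ) ∣ w z - w z' ∧
      ∀ i, ((∏ q ∈ S, q : ℕ) : 𝓞 L) ∣ v z i - v z' i := by
  set Q := ∏ q ∈ S, q
  set Q₀ := ∏ q ∈ S₀, q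
  have hco : Nat.Coprime Q Q₀ := Nat.Coprime.prod_left fun p hp => Nat.Coprime.prod_right
    fun q hq => (Nat.coprime_primes (hS p hp).1.1 (hS₀ q hq)).2
      (fun e => Finset.disjoint_left.1 hd hp (e ▸ hq))
  have hcoZ : IsCoprime (Q : ℤ) (Q₀ : ℤ) := Nat.isCoprime_iff_coprime.2 hco
  have hcoO : IsCoprime (Q : 𝓞 L) (Q₀ : 𝓞 L) := hco.cast
  refine ⟨fun l => hcoZ.dvd_of_dvd_mul_left ?_, hcoZ.dvd_of_dvd_mul_left ?_,
    fun i => hcoO.dvd_of_dvd_mul_left ?_⟩
  · have e : z.c l - z'.c l = (Q₀ : ℤ) * (u z l - u z' l) := by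
      rw [hsc.cu z hz, hsc.cu z' hz']; ring
    exact e ▸ h.2 l
  · have e : z.m - z'.m = (Q₀ : ℤ) * (w z - w z') := by
      rw [hsc.mw z hz, hsc.mw z' hz']; ring
    exact e ▸ h.1
  · have := mu_cong D (hU.pt z hz) (hU.pt z' hz')
      (coprime_prod D S z fun q hq =>
        hU.cop q (hS q hq).1.1 (hS q hq).2.1 (hS q hq).2.2 z hz) h i
    rw [hsc.μv z hz, hsc.μv z' hz'] at this
    convert this using 1
    ring

lemma c_eq_of_rho_eq (D : RootData d L) (i : Fin d) {z z' : Pt d L} (h : D.ρ z i = D.ρ z' i) :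
    z.c = z'.c := by
  have h1 := D.indep i (fun l => z.c l - z'.c l) (by
    push_cast
    simp only [sub_mul, Finset.sum_sub_distrib]
    exact sub_eq_zero.2 h)
  funext l
  have := congrFun h1 l
  simpa [sub_eq_zero] using this

/-- Few values of a coordinate. -/
lemma card_le_of_fibres {β γ : Type*} [DecidableEq γ] (U : Finset β) (f : β → γ) {δ N : ℕ}
    (hf : ∀ x, (U.filter fun z => f z = x).card ≤ δ) (hN : (U.image f).card ≤ N) :
    U.card ≤ δ * N :=
  le_trans (Finset.card_le_mul_card_image U δ fun x _ => hf x) (Nat.mul_le_mul_left _ hN)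

/-- Points with all coordinates in finite sets. -/
lemma card_le_of_coords {K : Type*} [Field K] [CharZero K] [DecidableEq K] {S₀ : Finset ℕ}
    {z₀ : Pt d L} {u : Pt d L → Fin d → ℤ} {w : Pt d L → ℤ} {v : Pt d L → Fin d → 𝓞 L}
    {U : Finset (Pt d L)} (hsc : Scaled (∏ q ∈ S₀, q) z₀ u w v U)
    (hU : D.Good k R C₀ C₁ X A M B₀ U) (E : Fin d → Finset K) {N : ℕ}
    (hE : ∀ l, (E l).card ≤ N) (hmem : ∀ z ∈ U, ∀ l, (u z l : K) ∈ E l) :
    U.card ≤ B₀ * N ^ d := by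
  classical
  refine card_le_of_fibres U (fun z => fun l => (u z l : K)) (fun x => ?_) ?_
  · refine hU.fibre _ (Finset.filter_subset _ _) fun z hz z' hz' => ?_
    simp only [Finset.mem_filter] at hz hz'
    funext l
    have h1 := congrFun (hz.2.trans hz'.2.symm) l
    simp only [Int.cast_inj] at h1
    rw [hsc.cu z hz.1, hsc.cu z' hz'.1, h1]
  · calc (U.image fun z => fun l => (u z l : K)).card ≤ (Fintype.piFinset E).card :=
          Finset.card_le_card (Finset.image_subset_iff.2 fun z hz =>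
            Fintype.mem_piFinset.2 (hmem z hz))
      _ ≤ N ^ d := by
          rw [Fintype.card_piFinset]
          exact (Finset.prod_le_prod' fun l _ => hE l).trans (by simp)

end points

/-- A part of a slice on which one coordinate parametrises everything. -/
theorem part_bound (D : RootData d L) {k : ℕ} (hd : 2 ≤ d) (hk : 2 ≤ k) {R : ℤ} (hR : R ≠ 0)
    {A M a bc b₁ b g η : ℝ} (ha : 0 ≤ a) (hbc : a ≤ bc) (hb₁ : 0 ≤ b₁) (hb : 0 ≤ b)
    (hg1 : a < 2 * g) (hgc1 : a * bc < g * (a + bc)) (hgc2 : bc < 2 * g)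
    (hg2 : a * b < g * (a + b))
    (hg3 : b < g * ((d * (k - 1) + 1 - k : ℕ) : ℝ)) (hη : 0 < η) (hη1 : η < 1)
    {C₀ : ℝ} (hC₀ : 1 ≤ C₀) (C₁ : ℝ) (B₀ K₀ δ : ℕ) :
    ∃ Cst X₁ : ℝ, 0 ≤ Cst ∧ ∀ X : ℝ, X₁ ≤ X →
      ∀ S₀ : Finset ℕ, S₀.card ≤ K₀ → (∀ q ∈ S₀, q.Prime) →
      ∀ U : Finset (Pt d L), D.Good k R C₀ C₁ X A M B₀ U →
      ∀ (z₀ : Pt d L) (u : Pt d L → Fin d → ℤ) (w : Pt d L → ℤ) (v : Pt d L → Fin d → 𝓞 L),
      Scaled (∏ q ∈ S₀, q) z₀ u w v U →
      (∀ z ∈ U, ∀ l, |(u z l : ℝ)| ≤ 2 * C₀ * X ^ a) →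
      (∀ z ∈ U, |(w z : ℝ)| ≤ 2 * C₀ * X ^ b₁) →
      (∀ z ∈ U, ∀ i, ∀ φ : L →+* ℂ, ‖φ (v z i : L)‖ ≤ 2 * C₀ * X ^ b) →
      ∀ [DecidableEq (Option (Fin d) → L)], Rel δ 1 univ (U.image D.coord) →
      ∀ (s : Fin d) (F : Fin d → Polynomial (Polynomial L)) (Fw : Polynomial (Polynomial L)),
      (∀ l, Irreducible (F l) ∧ (F l).natDegree ≠ 0 ∧ BDeg δ (F l)) →
      Irreducible Fw → Fw.natDegree ≠ 0 → BDeg δ Fw →
      (∀ z ∈ U, ∀ l, (F l).evalEval (u z s : L) (u z l : L) = 0) →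
      (∀ z ∈ U, Fw.evalEval (u z s : L) (w z : L) = 0) →
      (U.card : ℝ) ≤ Cst * X ^ (g + η) := by
  classical
  have hg : 0 ≤ g := by linarith
  have hbc0 : 0 ≤ bc := ha.trans hbc
  set Dp := d * (k - 1) + 1 - k with hDp
  have hDp1 : 1 ≤ Dp := by
    obtain ⟨k', rfl⟩ : ∃ k', k = k' + 2 := ⟨k - 2, by omega⟩
    have : 2 * (k' + 1) ≤ d * (k' + 1) := Nat.mul_le_mul_right _ hd
    simp only [show k' + 2 - 1 = k' + 1 by omega] at hDp
    omega
  set δF := δ + k + 1 with hδF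
  have hc : CurveBound D k R A M C₀ C₁ B₀ K₀ δF a bc (g + η) (fun F => ¬ IsAffine F) := by
    refine CurveBound.or (F₁ := fun F => 2 ≤ F.natDegree)
      (F₂ := fun F => F.natDegree = 1 ∧
        (1 ≤ (F.coeff 1).natDegree ∨ 2 ≤ (F.coeff 0).natDegree)) ?_ ?_ ?_
    · exact CurveBound.of_family D (by omega) hR ha hbc0 hg hη hη1 hC₀ C₁ B₀ K₀ δF
        ((exists_family_double hbc0 ha hg1).imp fun E h => ⟨h.1, fun F _ _ => h.2 F⟩)
    · refine CurveBound.or (F₁ := fun F => F.natDegree = 1 ∧ 1 ≤ (F.coeff 1).natDegree)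
        (F₂ := fun F => F.natDegree = 1 ∧ (F.coeff 1).natDegree = 0 ∧
          2 ≤ (F.coeff 0).natDegree) ?_ ?_ ?_
      · exact CurveBound.of_family D (by omega) hR ha hbc0 hg hη hη1 hC₀ C₁ B₀ K₀ δF
          ((exists_family_pole ha hbc0 hgc1).imp fun E h =>
            ⟨h.1, fun F hF _ hf => h.2 F hF hf.1 hf.2⟩)
      · exact CurveBound.of_family D (by omega) hR ha hbc0 hg hη hη1 hC₀ C₁ B₀ K₀ δF
          ((exists_family_poly (D := 2) ha hbc0 (by norm_num)
            (by push_cast; linarith)).imp fun E h =>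
            ⟨h.1, fun F _ _ hf => h.2 F hf.1 hf.2.1 hf.2.2⟩)
      · intro F _ _ hF
        omega
    · intro F _ h0 hF
      simp only [IsAffine] at hF
      omega
  have hw : CurveBound D k R A M C₀ C₁ B₀ K₀ δF a b₁ (g + η) (fun F => 2 ≤ F.natDegree) :=
    CurveBound.of_family D (by omega) hR ha hb₁ hg hη hη1 hC₀ C₁ B₀ K₀ δF
      ((exists_family_double hb₁ ha hg1).imp fun E h => ⟨h.1, fun F _ _ => h.2 F⟩)
  have hv : CurveBound D k R A M C₀ C₁ B₀ K₀ δF a b (g + η) (IsHighLinear Dp) := by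
    refine CurveBound.or (F₁ := fun F => F.natDegree = 1 ∧ 1 ≤ (F.coeff 1).natDegree)
      (F₂ := fun F => F.natDegree = 1 ∧ (F.coeff 1).natDegree = 0 ∧
        Dp ≤ (F.coeff 0).natDegree) ?_ ?_ ?_
    · exact CurveBound.of_family D (by omega) hR ha hb hg hη hη1 hC₀ C₁ B₀ K₀ δF
        ((exists_family_pole ha hb hg2).imp fun E h =>
          ⟨h.1, fun F hF _ hf => h.2 F hF hf.1 hf.2⟩)
    · exact CurveBound.of_family D (by omega) hR ha hb hg hη hη1 hC₀ C₁ B₀ K₀ δF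
        ((exists_family_poly ha hb hDp1 hg3).imp fun E h =>
          ⟨h.1, fun F _ _ hf => h.2 F hf.1 hf.2.1 hf.2.2⟩)
    · intro F _ _ hF
      simp only [IsHighLinear] at hF
      omega
  obtain ⟨cc, xc, hcc, hc⟩ := hc
  obtain ⟨cw, xw, hcw, hw⟩ := hw
  obtain ⟨cv, xv, hcv, hv⟩ := hv
  refine ⟨cc + cw + cv + (δ * (d * δF) + δ * (Dp + δF) : ℕ), max (max xc xw) (max xv 1),
    by positivity, ?_⟩
  intro X hX S₀ hS₀ hS₀p U hU z₀ u w v hsc hub hwb hvb _ hrel s F Fw hF hFwi hFwd hFwb hFz hFwz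
  simp only [max_le_iff] at hX
  obtain ⟨⟨hXc, hXw⟩, hXv, hX1⟩ := hX
  have hp : 0 ≤ X ^ (g + η) := Real.rpow_nonneg (by linarith) _
  have hge : 1 ≤ X ^ (g + η) := Real.one_le_rpow hX1 (by linarith)
  set cT := cc + cw + cv + ((δ * (d * δF) + δ * (Dp + δF) : ℕ) : ℝ) with hcT
  have hle : ∀ {c : ℝ}, c ≤ cT → c * X ^ (g + η) ≤ cT * X ^ (g + η) := fun h =>
    mul_le_mul_of_nonneg_right h hp
  set Q₀ := ∏ q ∈ S₀, q with hQ₀
  have hQ0 : Q₀ ≠ 0 := Finset.prod_ne_zero_iff.2 fun q hq => (hS₀p q hq).ne_zero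
  have hQL : (Q₀ : L) ≠ 0 := by exact_mod_cast hQ0
  have hrelF : Rel δF 1 univ (U.image D.coord) := fun V hV hVc => by
    obtain ⟨P, h1, h2, h3, h4⟩ := hrel V hV hVc
    exact ⟨P, h1, h2, by omega, h4⟩
  have hwinj : Set.InjOn (fun z => (w z : L)) (U : Set (Pt d L)) := by
    intro z hz z' hz' h
    simp only [Int.cast_inj] at h
    exact hU.inj hz hz' (by rw [hsc.mw z hz, hsc.mw z' hz', h])
  have hfib : ∀ x : ℤ, (U.filter fun z => u z s = x).card ≤ δ := fun x => by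
    refine card_fibre_le hFwi hFwd hFwb _ (fun z => (w z : L))
      (hwinj.mono (by exact_mod_cast Finset.filter_subset _ _)) (x : L) fun z hz => ?_
    obtain ⟨hzU, rfl⟩ := Finset.mem_filter.1 hz
    exact hFwz z hzU
  by_cases hna : ∃ l, ¬ IsAffine (F l)
  · obtain ⟨l, hl⟩ := hna
    refine (hc X hXc S₀ hS₀ U hU hrelF (fun z => u z s) (fun z => (u z l : 𝓞 L))
      (fun z hz => hub z hz s) ?_ ?_ (F l) (hF l).1 (hF l).2.1 ((hF l).2.2.mono (by omega)) hl ?_
      fun x => (hfib x).trans (by omega)).trans (hle ?_)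
    · intro z hz φ
      simp only [map_intCast, Complex.norm_intCast]
      exact (hub z hz l).trans (mul_le_mul_of_nonneg_left
        (Real.rpow_le_rpow_of_exponent_le hX1 hbc) (by linarith))
    · intro S hS hS' z hz z' hz' hcong
      obtain ⟨h1, -, -⟩ := hsc.cong hS₀p hU hS hS' hz hz' hcong
      refine ⟨h1 s, ?_⟩
      have := map_dvd (Int.castRingHom (𝓞 L)) (h1 l)
      simpa using this
    · intro z hz
      simpa using hFz z hz l
    · rw [hcT]; linarith [Nat.cast_nonneg (α := ℝ) (δ * (d * δF) + δ * (Dp + δF))]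
  push Not at hna
  by_cases hw2 : 2 ≤ Fw.natDegree
  · refine (hw X hXw S₀ hS₀ U hU hrelF (fun z => u z s) (fun z => (w z : 𝓞 L))
      (fun z hz => hub z hz s) ?_ ?_ Fw hFwi hFwd (hFwb.mono (by omega)) hw2 ?_
      fun x => (hfib x).trans (by omega)).trans (hle ?_)
    · intro z hz φ
      simp only [map_intCast, Complex.norm_intCast]
      exact hwb z hz
    · intro S hS hS' z hz z' hz' hcong
      obtain ⟨h1, h2, -⟩ := hsc.cong hS₀p hU hS hS' hz hz' hcong
      refine ⟨h1 s, ?_⟩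
      have := map_dvd (Int.castRingHom (𝓞 L)) h2
      simpa using this
    · intro z hz
      simpa using hFwz z hz
    · rw [hcT]; linarith [Nat.cast_nonneg (α := ℝ) (δ * (d * δF) + δ * (Dp + δF))]
  have hw1 : Fw.natDegree = 1 := by omega
  rcases U.eq_empty_or_nonempty with hUe | ⟨zU, hzU⟩
  · rw [hUe, Finset.card_empty, Nat.cast_zero]
    positivity
  set Rr := Fw.coeff 1 with hRr
  set N := Fw.coeff 0 with hN
  have hRrd : Rr.natDegree ≤ δ := hFwb.2 1
  have hNd : N.natDegree ≤ δ := hFwb.2 0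
  have hRr0 : Rr ≠ 0 := by
    have h0 : Fw ≠ 0 := hFwi.ne_zero
    have := leadingCoeff_ne_zero.2 h0
    rwa [leadingCoeff, hw1] at this
  have hlin : ∀ z ∈ U, Rr.eval (u z s : L) * (w z : L) + N.eval (u z s : L) = 0 := fun z hz => by
    rw [← evalEval_linear hw1]; exact hFwz z hz
  -- `ρ` as an affine function of the parameter
  let e : Fin d → Polynomial L := fun l =>
    Polynomial.C (-(((F l).coeff 1).coeff 0)⁻¹) * (F l).coeff 0
  let p : Fin d → Polynomial L := fun i => Polynomial.C (D.ρ z₀ i : L) +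
    Polynomial.C (Q₀ : L) * ∑ l : Fin d, Polynomial.C ((D.θ i : L) ^ (l : ℕ)) * e l
  have hpd : ∀ i, (p i).natDegree ≤ 1 := fun i => by
    refine natDegree_add_le_of_degree_le (by rw [natDegree_C]; omega)
      ((natDegree_C_mul_le _ _).trans (natDegree_sum_le_of_forall_le _ _ fun l _ => ?_))
    exact (natDegree_C_mul_le _ _).trans ((natDegree_C_mul_le _ _).trans (hna l).2.2)
  have hpe : ∀ z ∈ U, ∀ i, (p i).eval (u z s : L) = (D.ρ z i : L) := fun z hz i => by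
    have he : ∀ l, (e l).eval (u z s : L) = (u z l : L) := fun l =>
      eval_of_linear_const (hna l).1 (hna l).2.1 (hFz z hz l)
    simp only [p, eval_add, eval_mul, eval_C, eval_finsetSum, he, RootData.ρ, map_sum, map_mul,
      map_intCast, map_pow, eval_pow, eval_intCast, Finset.mul_sum, ← Finset.sum_add_distrib]
    refine Finset.sum_congr rfl fun l _ => ?_
    rw [hsc.cu z hz l]
    push_cast
    ring
  have hp0 : ∀ i, p i ≠ 0 := fun i h0 => by
    have h1 := hpe zU hzU i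
    rw [h0, eval_zero] at h1
    exact (hU.pt zU hzU).ne i (RingOfIntegers.coe_injective (h1.symm.trans (map_zero _).symm))
  -- the cofactor as a rational function of the parameter
  let μ₀ : Fin d → L := fun i => (z₀.μ i : L)
  let num : Fin d → Polynomial L := fun i =>
    Polynomial.C (R : L) * (Polynomial.C ((z₀.m : L) - (D.θ i : L)) * Rr - Polynomial.C (Q₀ : L) * N)
  let aa : Fin d → Polynomial L := fun i => Polynomial.C (Q₀ : L) * (Rr * p i ^ k)
  let bb : Fin d → Polynomial L := fun i => Polynomial.C (μ₀ i) * (Rr * p i ^ k) - num i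
  have hpk : ∀ i, (Rr * p i ^ k).natDegree ≤ δ + k := fun i =>
    natDegree_mul_le.trans (add_le_add hRrd (natDegree_pow_le.trans (by
      have := Nat.mul_le_mul_left k (hpd i)
      simpa using this)))
  have hnum : ∀ i, (num i).natDegree ≤ δ := fun i =>
    (natDegree_C_mul_le _ _).trans (natDegree_sub_le_of_le
      ((natDegree_C_mul_le _ _).trans hRrd) ((natDegree_C_mul_le _ _).trans hNd) |>.trans
      (by simp))
  have hred : ∀ i, ∃ (E : Finset L) (G : Polynomial (Polynomial L)), E.card ≤ δ + k ∧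
      Irreducible G ∧ G.natDegree = 1 ∧ BDeg (δ + k + 1) G ∧
      ∀ x y : L, (aa i).eval x * y + (bb i).eval x = 0 → x ∉ E → G.evalEval x y = 0 := fun i =>
    exists_reduced_linear (aa i) (bb i)
      (mul_ne_zero (by simpa using hQ0) (mul_ne_zero hRr0 (pow_ne_zero _ (hp0 i))))
      ((natDegree_C_mul_le _ _).trans (hpk i))
      ((natDegree_sub_le _ _).trans (max_le ((natDegree_C_mul_le _ _).trans (hpk i))
        ((hnum i).trans (Nat.le_add_right _ _))))
  choose Ex G hEx hGi hG1 hGb hGz using hred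
  have hrel2 : ∀ z ∈ U, ∀ i, (aa i).eval (u z s : L) * (v z i : L) + (bb i).eval (u z s : L) = 0 := by
    intro z hz i
    have h1 := congrArg (fun x : 𝓞 L => (x : L)) ((hU.pt z hz).rel i)
    rw [hsc.μv z hz i, hsc.mw z hz] at h1
    simp only [map_mul, map_add, map_pow, map_sub, map_intCast, map_natCast] at h1
    push_cast at h1
    simp only [aa, bb, num, μ₀, eval_mul, eval_sub, eval_C, eval_pow, hpe z hz i]
    linear_combination Rr.eval (u z s : L) * h1 + (R : L) * (Q₀ : L) * hlin z hz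
  set Bad := U.filter fun z => ∃ i, (u z s : L) ∈ Ex i with hBad
  set V := U.filter fun z => ¬ ∃ i, (u z s : L) ∈ Ex i with hV
  have hBadcard : Bad.card ≤ δ * (d * δF) := by
    refine card_le_of_fibres Bad (fun z => u z s) (fun x => (Finset.card_le_card
      (Finset.filter_subset_filter _ (Finset.filter_subset _ _))).trans (hfib x)) ?_
    calc (Bad.image fun z => u z s).card
        = ((Bad.image fun z => u z s).image (Int.cast : ℤ → L)).card :=
          (Finset.card_image_of_injective _ Int.cast_injective).symm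
      _ ≤ (univ.biUnion Ex).card := Finset.card_le_card (by
          intro x hx
          obtain ⟨y, hy, rfl⟩ := Finset.mem_image.1 hx
          obtain ⟨z, hz, rfl⟩ := Finset.mem_image.1 hy
          obtain ⟨-, i, hi⟩ := Finset.mem_filter.1 hz
          exact Finset.mem_biUnion.2 ⟨i, Finset.mem_univ _, hi⟩)
      _ ≤ ∑ i : Fin d, δF := Finset.card_biUnion_le.trans
          (Finset.sum_le_sum fun i _ => (hEx i).trans (by omega))
      _ = d * δF := by simp
  have hVU : V ⊆ U := Finset.filter_subset _ _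
  have hGV : ∀ z ∈ V, ∀ i, (G i).evalEval (u z s : L) (v z i : L) = 0 := fun z hz i =>
    hGz i _ _ (hrel2 z (hVU hz) i) fun h => (Finset.mem_filter.1 hz).2 ⟨i, h⟩
  have hVcard : (V.card : ℝ) ≤ (cv + ((δ * (Dp + δF) : ℕ) : ℝ)) * X ^ (g + η) := by
    by_cases hhi : ∃ i, IsHighLinear Dp (G i)
    · obtain ⟨i, hi⟩ := hhi
      refine (hv X hXv S₀ hS₀ V (hU.mono hVU) ?_ (fun z => u z s) (fun z => v z i)
        (fun z hz => hub z (hVU hz) s) (fun z hz => hvb z (hVU hz) i) ?_ (G i) (hGi i)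
        (by rw [hG1 i]; omega) (hGb i) hi ?_ ?_).trans
        (mul_le_mul_of_nonneg_right (le_add_of_nonneg_right (Nat.cast_nonneg _)) hp)
      · intro T hT hTc
        obtain ⟨P, h1, h2, h3, h4⟩ := hrelF T hT hTc
        exact ⟨P, h1, h2, h3, fun x hx => h4 x (Finset.image_subset_image hVU hx)⟩
      · intro S hS hS' z hz z' hz' hcong
        obtain ⟨h1, -, h3⟩ := hsc.cong hS₀p hU hS hS' (hVU hz) (hVU hz') hcong
        exact ⟨h1 s, h3 i⟩
      · intro z hz
        simpa using hGV z hz i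
      · exact fun x => (Finset.card_le_card (Finset.filter_subset_filter _ hVU)).trans
          ((hfib x).trans (by omega))
    push Not at hhi
    suffices hfew : (V.image fun z => u z s).card ≤ Dp + δF by
      have h1 : V.card ≤ δ * (Dp + δF) := card_le_of_fibres V (fun z => u z s)
        (fun x => (Finset.card_le_card (Finset.filter_subset_filter _ hVU)).trans (hfib x)) hfew
      calc (V.card : ℝ) ≤ ((δ * (Dp + δF) : ℕ) : ℝ) := by exact_mod_cast h1
        _ ≤ ((δ * (Dp + δF) : ℕ) : ℝ) * X ^ (g + η) :=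
          le_mul_of_one_le_right (Nat.cast_nonneg _) hge
        _ ≤ _ := mul_le_mul_of_nonneg_right (le_add_of_nonneg_left hcv) hp
    by_contra hmany
    push Not at hmany
    -- all cofactors are polynomials of small degree in the parameter
    have hG0 : ∀ i, ((G i).coeff 1).natDegree = 0 ∧ ((G i).coeff 0).natDegree < Dp := fun i => by
      have h1 := hhi i
      simp only [IsHighLinear, hG1 i, true_and] at h1
      omega
    let q : Fin d → Polynomial L := fun i =>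
      Polynomial.C (-(((G i).coeff 1).coeff 0)⁻¹) * (G i).coeff 0
    have hqd : ∀ i, (q i).natDegree < Dp := fun i =>
      lt_of_le_of_lt (natDegree_C_mul_le _ _) (hG0 i).2
    let q' : Fin d → Polynomial L := fun i => Polynomial.C (μ₀ i) + Polynomial.C (Q₀ : L) * q i
    have hq'd : ∀ i, (q' i).natDegree < Dp := fun i =>
      lt_of_le_of_lt (natDegree_add_le_of_degree_le (by rw [natDegree_C]; exact Nat.zero_le _)
        (natDegree_C_mul_le _ _)) (hqd i)
    set vals := (V.image fun z => (u z s : L)) with hvals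
    have hvalscard : Dp + δF < vals.card := by
      refine hmany.trans_le (le_of_eq ?_)
      rw [hvals, ← Finset.card_image_of_injective _ (Int.cast_injective (α := L)),
        Finset.image_image]
      rfl
    have hid : ∀ i, q' i * p i ^ k * Rr = num i := fun i => by
      rw [← sub_eq_zero]
      refine eq_zero_of_natDegree_lt_card_of_eval_eq_zero' _ vals ?_ ?_
      · intro x hx
        obtain ⟨z, hz, rfl⟩ := Finset.mem_image.1 hx
        have h1 := hrel2 z (hVU hz) i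
        rw [← eval_of_linear_const (hG1 i) (hG0 i).1 (hGV z hz i)] at h1
        simp only [aa, bb, eval_mul, eval_sub, eval_C, eval_pow] at h1
        simp only [q', q, eval_mul, eval_sub, eval_add, eval_C, eval_pow]
        linear_combination h1
      · refine lt_of_le_of_lt ((natDegree_sub_le _ _).trans (max_le ?_ ((hnum i).trans (by omega))))
          hvalscard
        rw [mul_assoc, mul_comm (p i ^ k)]
        exact natDegree_mul_le.trans (add_le_add (hq'd i).le ((hpk i).trans (by omega)))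
    obtain ⟨i₀⟩ : Nonempty (Fin d) := ⟨⟨0, by omega⟩⟩
    have hRQ : (R : L) * (Q₀ : L) ≠ 0 := mul_ne_zero (by exact_mod_cast hR) hQL
    have hRrc : Rr.natDegree = 0 := by
      have hdvd : Rr ∣ Polynomial.C ((R : L) * (Q₀ : L)) * N := by
        refine ⟨Polynomial.C ((R : L) * ((z₀.m : L) - (D.θ i₀ : L))) - q' i₀ * p i₀ ^ k, ?_⟩
        have h1 := hid i₀
        simp only [num] at h1
        rw [map_mul, map_mul]
        linear_combination h1
      have h1 := natDegree_le_of_dvd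
        ((isCoprime_coeffs hFwi hw1).dvd_of_dvd_mul_right hdvd) (by simpa using hRQ)
      rw [natDegree_C] at h1
      exact Nat.le_zero.1 h1
    set r := Rr.coeff 0 with hr
    have hRrC : Rr = Polynomial.C r := eq_C_of_natDegree_eq_zero hRrc
    have hr0 : r ≠ 0 := fun h => hRr0 (by rw [hRrC, h, map_zero])
    let Mp : Polynomial L := Polynomial.C (z₀.m : L) - Polynomial.C ((Q₀ : L) / r) * N
    have hMe : ∀ z ∈ V, Mp.eval (u z s : L) = (z.m : L) := fun z hz => by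
      have h1 := hlin z (hVU hz)
      rw [hRrC, eval_C] at h1
      rw [hsc.mw z (hVU hz)]
      simp only [Mp, eval_sub, eval_mul, eval_C]
      push_cast
      field_simp
      linear_combination -(Q₀ : L) * h1
    have hone : 1 < (V.image fun z => u z s).card := by omega
    obtain ⟨x, hx, y, hy, hxy⟩ := Finset.one_lt_card.1 hone
    obtain ⟨z, hz, rfl⟩ := Finset.mem_image.1 hx
    obtain ⟨z', hz', rfl⟩ := Finset.mem_image.1 hy
    have hMd : Mp.natDegree ≠ 0 := fun h0 => by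
      have h1 := hMe z hz
      have h2 := hMe z' hz'
      rw [eq_C_of_natDegree_eq_zero h0, eval_C] at h1 h2
      have h3 : z.m = z'.m := by exact_mod_cast h1.symm.trans h2
      exact hxy (by rw [hU.inj (hVU hz) (hVU hz') h3])
    have hp1 : ∀ i, (p i).natDegree = 1 := fun i => by
      refine le_antisymm (hpd i) ?_
      by_contra h0
      have h1 := hpe z (hVU hz) i
      have h2 := hpe z' (hVU hz') i
      rw [eq_C_of_natDegree_eq_zero (by omega : (p i).natDegree = 0), eval_C] at h1 h2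
      have h3 := congrFun (c_eq_of_rho_eq D i
        (RingOfIntegers.coe_injective (h1.symm.trans h2))) s
      rw [hsc.cu z (hVU hz), hsc.cu z' (hVU hz')] at h3
      have hQZ : (Q₀ : ℤ) ≠ 0 := by exact_mod_cast hQ0
      exact hxy (mul_left_cancel₀ hQZ (add_left_cancel h3))
    have hlow := degree_lower (by omega : 1 ≤ k) p q' hp1 Mp hMd (fun i => (D.θ i : L))
      (fun i j h => D.inj (RingOfIntegers.coe_injective h)) (R := (R : L))
      (by exact_mod_cast hR) (fun i => by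
        refine mul_right_cancel₀ (b := Polynomial.C r) (by simpa using hr0) ?_
        rw [← hRrC, hid i]
        simp only [num, Mp, map_sub]
        rw [hRrC]
        have e2 : Polynomial.C ((Q₀ : L) / r) * Polynomial.C r = Polynomial.C (Q₀ : L) := by
          rw [← map_mul, div_mul_cancel₀ _ hr0]
        linear_combination (Polynomial.C (R : L) * N) * e2) i₀
    have := hq'd i₀
    omega
  have hsplit : U.card = Bad.card + V.card :=
    (Finset.card_filter_add_card_filter_not _).symm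
  have hBad' : (Bad.card : ℝ) ≤ ((δ * (d * δF) : ℕ) : ℝ) * X ^ (g + η) :=
    le_trans (by exact_mod_cast hBadcard) (le_mul_of_one_le_right (Nat.cast_nonneg _) hge)
  rw [hsplit, Nat.cast_add, hcT, Nat.cast_add (δ * (d * δF))]
  nlinarith [mul_nonneg hcc hp, mul_nonneg hcw hp]

/-- Points of a slice in which every pair of coordinates satisfies a relation. -/
theorem slice_bound (D : RootData d L) {k : ℕ} (hd : 2 ≤ d) (hk : 2 ≤ k) {R : ℤ} (hR : R ≠ 0)
    {A M a bc b₁ b g η : ℝ} (ha : 0 ≤ a) (hbc : a ≤ bc) (hb₁ : 0 ≤ b₁) (hb : 0 ≤ b)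
    (hg1 : a < 2 * g) (hgc1 : a * bc < g * (a + bc)) (hgc2 : bc < 2 * g)
    (hg2 : a * b < g * (a + b))
    (hg3 : b < g * ((d * (k - 1) + 1 - k : ℕ) : ℝ)) (hη : 0 < η) (hη1 : η < 1)
    {C₀ : ℝ} (hC₀ : 1 ≤ C₀) (C₁ : ℝ) (B₀ K₀ δ : ℕ) :
    ∃ Cst X₁ : ℝ, 0 ≤ Cst ∧ ∀ X : ℝ, X₁ ≤ X →
      ∀ S₀ : Finset ℕ, S₀.card ≤ K₀ → (∀ q ∈ S₀, q.Prime) →
      ∀ U : Finset (Pt d L), D.Good k R C₀ C₁ X A M B₀ U →
      ∀ (z₀ : Pt d L) (u : Pt d L → Fin d → ℤ) (w : Pt d L → ℤ) (v : Pt d L → Fin d → 𝓞 L),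
      Scaled (∏ q ∈ S₀, q) z₀ u w v U →
      (∀ z ∈ U, ∀ l, |(u z l : ℝ)| ≤ 2 * C₀ * X ^ a) →
      (∀ z ∈ U, |(w z : ℝ)| ≤ 2 * C₀ * X ^ b₁) →
      (∀ z ∈ U, ∀ i, ∀ φ : L →+* ℂ, ‖φ (v z i : L)‖ ≤ 2 * C₀ * X ^ b) →
      ∀ [DecidableEq (Option (Fin d) → L)], Rel δ 1 univ (U.image D.coord) →
      (∀ s l, PairRel δ (fun z => (u z s : L)) (fun z => (u z l : L)) U) →
      (∀ s, PairRel δ (fun z => (u z s : L)) (fun z => (w z : L)) U) →
      (U.card : ℝ) ≤ Cst * X ^ (g + η) := by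
  classical
  obtain ⟨cp, xp, hcp, hpart⟩ := part_bound D hd hk hR (A := A) (M := M) ha hbc hb₁ hb hg1 hgc1
    hgc2 hg2 hg3 hη hη1 hC₀ C₁ B₀ K₀ δ
  set NE := (d + 1) * (2 * δ * δ) with hNE
  refine ⟨((B₀ * NE ^ d : ℕ) : ℝ) + d * (((2 * δ) ^ (d + 1) : ℕ) : ℝ) * cp, max xp 1,
    by positivity, ?_⟩
  intro X hX S₀ hS₀ hS₀p U hU z₀ u w v hsc hub hwb hvb _ hrel hpu hpw
  simp only [max_le_iff] at hX
  have hp : 0 ≤ X ^ (g + η) := Real.rpow_nonneg (by linarith [hX.2]) _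
  have hge : 1 ≤ X ^ (g + η) := Real.one_le_rpow hX.2 (by linarith)
  -- the pairs to be used, indexed by `Option (Fin d)`
  let tgt : Option (Fin d) → Pt d L → L := fun o z =>
    o.elim (w z : L) fun l => (u z l : L)
  have hfac : ∀ (s : Fin d) (o : Option (Fin d)),
      ∃ (E : Finset L) (S : Finset (Polynomial (Polynomial L))), E.card ≤ 2 * δ * δ ∧
        S.card ≤ 2 * δ ∧ (∀ G ∈ S, Irreducible G ∧ G.natDegree ≠ 0 ∧ BDeg δ G) ∧
        ∀ z ∈ U, (u z s : L) ∈ E ∨ ∃ G ∈ S, G.evalEval (u z s : L) (tgt o z) = 0 := by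
    intro s o
    have hpo : PairRel δ (fun z => (u z s : L)) (tgt o) U := by
      cases o with
      | none => exact hpw s
      | some l => exact hpu s l
    obtain ⟨P, hP0, hPd, hPz⟩ := hpo
    obtain ⟨E, S, h1, h2, h3, h4⟩ := exists_nonpure_factors P hP0 hPd
    exact ⟨E, S, h1, h2, h3, fun z hz => h4 _ _ (hPz z hz)⟩
  choose E S hEc hSc hSp hSz using hfac
  let Es : Fin d → Finset L := fun s => univ.biUnion (E s)
  have hEs : ∀ s, (Es s).card ≤ NE := fun s => by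
    refine Finset.card_biUnion_le.trans ((Finset.sum_le_sum fun o _ => hEc s o).trans ?_)
    simp [hNE]
  let U₀ := U.filter fun z => ∀ s, (u z s : L) ∈ Es s
  have hU₀ : U₀.card ≤ B₀ * NE ^ d :=
    card_le_of_coords (hsc.mono (Finset.filter_subset _ _)) (hU.mono (Finset.filter_subset _ _))
      Es hEs fun z hz => (Finset.mem_filter.1 hz).2
  let P : Fin d → (Option (Fin d) → Polynomial (Polynomial L)) → Finset (Pt d L) := fun s χ =>
    U.filter fun z => ∀ o, (χ o).evalEval (u z s : L) (tgt o z) = 0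
  have hcov : U ⊆ U₀ ∪ univ.biUnion fun s => (Fintype.piFinset (S s)).biUnion (P s) := by
    intro z hz
    by_cases h0 : ∀ s, (u z s : L) ∈ Es s
    · exact Finset.mem_union_left _ (Finset.mem_filter.2 ⟨hz, h0⟩)
    push Not at h0
    obtain ⟨s, hs⟩ := h0
    have hch : ∀ o, ∃ G ∈ S s o, G.evalEval (u z s : L) (tgt o z) = 0 := fun o =>
      (hSz s o z hz).resolve_left fun h => hs (Finset.mem_biUnion.2 ⟨o, Finset.mem_univ _, h⟩)
    choose χ hχ hχz using hch
    exact Finset.mem_union_right _ (Finset.mem_biUnion.2 ⟨s, Finset.mem_univ _,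
      Finset.mem_biUnion.2 ⟨χ, Fintype.mem_piFinset.2 hχ, Finset.mem_filter.2 ⟨hz, hχz⟩⟩⟩)
  have hP : ∀ s, ∀ χ ∈ Fintype.piFinset (S s),
      ((P s χ).card : ℝ) ≤ cp * X ^ (g + η) := by
    intro s χ hχ
    rw [Fintype.mem_piFinset] at hχ
    have hsub : P s χ ⊆ U := Finset.filter_subset _ _
    refine hpart X hX.1 S₀ hS₀ hS₀p _ (hU.mono hsub) z₀ u w v (hsc.mono hsub)
      (fun z hz => hub z (hsub hz)) (fun z hz => hwb z (hsub hz)) (fun z hz => hvb z (hsub hz))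
      ?_ s (fun l => χ (some l)) (χ none) (fun l => hSp s _ _ (hχ _))
      (hSp s _ _ (hχ _)).1 (hSp s _ _ (hχ _)).2.1 (hSp s _ _ (hχ _)).2.2
      (fun z hz l => (Finset.mem_filter.1 hz).2 (some l))
      (fun z hz => (Finset.mem_filter.1 hz).2 none)
    intro T hT hTc
    obtain ⟨Q, h1, h2, h3, h4⟩ := hrel T hT hTc
    exact ⟨Q, h1, h2, h3, fun x hx => h4 x (Finset.image_subset_image hsub hx)⟩
  have hnum : ∀ s, (Fintype.piFinset (S s)).card ≤ (2 * δ) ^ (d + 1) := fun s => by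
    rw [Fintype.card_piFinset]
    exact (Finset.prod_le_prod' fun o _ => hSc s o).trans (by simp)
  calc (U.card : ℝ)
      ≤ (U₀.card : ℝ) + ∑ s, ∑ χ ∈ Fintype.piFinset (S s), ((P s χ).card : ℝ) := by
        have := (Finset.card_le_card hcov).trans ((Finset.card_union_le _ _).trans
          (Nat.add_le_add_left (Finset.card_biUnion_le.trans
            (Finset.sum_le_sum fun s _ => Finset.card_biUnion_le)) _))
        exact_mod_cast this
    _ ≤ ((B₀ * NE ^ d : ℕ) : ℝ) * X ^ (g + η) +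
          ∑ _s : Fin d, (((2 * δ) ^ (d + 1) : ℕ) : ℝ) * (cp * X ^ (g + η)) := by
        refine add_le_add ((Nat.cast_le.2 hU₀).trans
          (le_mul_of_one_le_right (Nat.cast_nonneg _) hge)) (Finset.sum_le_sum fun s _ => ?_)
        refine (Finset.sum_le_sum (hP s)).trans ?_
        rw [Finset.sum_const, nsmul_eq_mul]
        exact mul_le_mul_of_nonneg_right (by exact_mod_cast hnum s) (mul_nonneg hcp hp)
    _ = _ := by rw [Finset.sum_const, Finset.card_univ, Fintype.card_fin, nsmul_eq_mul]; ring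

end Vale.Agent.P018
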