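import Vale.Agent.P018.FormRel
import Vale.Agent.P018.SurfaceSlice

/-!
# Points of a cell at the second level of the descent
-/

namespace Vale.Agent.P018

open NumberField Finset

variable {d : ℕ} {L : Type} [Field L] [NumberField L]

/-- Scaled coordinates exist in a cell whose modulus is coprime to `ρ`. -/
lemma exists_cell_scaling (D : RootData d L) {k : ℕ} {R : ℤ} {Q₀ : ℕ} {z₀ : Pt d L}
    (hz₀ : D.IsPt k R z₀) (U : Finset (Pt d L)) (hpt : ∀ z ∈ U, D.IsPt k R z)
    (hcop : ∀ z ∈ U, D.Coprime Q₀ z) (hcong : ∀ z ∈ U, Pt.Cong Q₀ z z₀) :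
    ∃ (u : Pt d L → Fin d → ℤ) (w : Pt d L → ℤ) (v : Pt d L → Fin d → 𝓞 L),
      Scaled Q₀ z₀ u w v U := by
  classical
  have hex : ∀ (z : Pt d L) (i : Fin d), ∃ x : 𝓞 L, z ∈ U → z.μ i = z₀.μ i + (Q₀ : 𝓞 L) * x :=
    fun z i => by
      by_cases hz : z ∈ U
      · obtain ⟨x, hx⟩ := mu_cong D (hpt z hz) hz₀ (hcop z hz) (hcong z hz) i
        exact ⟨x, fun _ => by linear_combination hx⟩
      · exact ⟨0, fun h => absurd h hz⟩
  choose v hv using hex
  refine ⟨fun z l => (z.c l - z₀.c l) / Q₀, fun z => (z.m - z₀.m) / Q₀, v,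
    ⟨fun z hz l => ?_, fun z hz => ?_, fun z hz i => hv z i hz⟩⟩
  · rw [Int.mul_ediv_cancel' ((hcong z hz).2 l)]; ring
  · rw [Int.mul_ediv_cancel' (hcong z hz).1]; ring

lemma abs_scaled_le {B : ℝ} {Q x x₀ t : ℤ} (hQ : 0 < Q) (h : x = x₀ + Q * t)
    (hx : |(x : ℝ)| ≤ B) (hx₀ : |(x₀ : ℝ)| ≤ B) : |(t : ℝ)| ≤ 2 * B / Q := by
  have h1 : (Q : ℝ) * t = (x : ℝ) - x₀ := by rw [h]; push_cast; ring
  have hQ' : (0 : ℝ) < Q := by exact_mod_cast hQ
  rw [le_div_iff₀ hQ']
  calc |(t : ℝ)| * Q = |(Q : ℝ) * t| := by rw [abs_mul, abs_of_pos hQ', mul_comm]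
    _ = |(x : ℝ) - x₀| := by rw [h1]
    _ ≤ |(x : ℝ)| + |(x₀ : ℝ)| := abs_sub _ _
    _ ≤ 2 * B := by linarith

/-- Dividing a bound by a modulus of size `X ^ G`. -/
lemma div_rpow_le {C X Q e G e' : ℝ} (hC : 0 ≤ C) (hX : 1 ≤ X) (hQ : X ^ G ≤ Q)
    (he : e ≤ e' + G) : 2 * (C * X ^ e) / Q ≤ 2 * C * X ^ e' := by
  have hX0 : 0 < X := by linarith
  have hQ0 : 0 < Q := lt_of_lt_of_le (Real.rpow_pos_of_pos hX0 _) hQ
  rw [div_le_iff₀ hQ0]
  calc 2 * (C * X ^ e) ≤ 2 * (C * (X ^ e' * X ^ G)) := by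
        rw [← Real.rpow_add hX0]
        have := Real.rpow_le_rpow_of_exponent_le hX he
        nlinarith [Real.rpow_nonneg hX0.le e]
    _ = 2 * C * X ^ e' * X ^ G := by ring
    _ ≤ 2 * C * X ^ e' * Q :=
        mul_le_mul_of_nonneg_left hQ (by positivity)

lemma card_abs_le (T : Finset ℤ) {B : ℝ} (hB : 0 ≤ B) (h : ∀ t ∈ T, |(t : ℝ)| ≤ B) :
    (T.card : ℝ) ≤ 2 * B + 1 := by
  have hsub : T ⊆ Finset.Icc (-⌊B⌋) ⌊B⌋ := fun t ht => by
    rw [Finset.mem_Icc, neg_le, Int.le_floor, Int.le_floor]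
    have := abs_le.1 (h t ht)
    push_cast
    exact ⟨by linarith, this.2⟩
  have h1 : (T.card : ℤ) ≤ 2 * ⌊B⌋ + 1 := by
    have h0 := Int.floor_nonneg.2 hB
    have := Finset.card_le_card hsub
    rw [Int.card_Icc] at this
    omega
  have h2 : ((T.card : ℤ) : ℝ) ≤ ((2 * ⌊B⌋ + 1 : ℤ) : ℝ) := by exact_mod_cast h1
  push_cast at h2
  linarith [Int.floor_le B]

/-- The scaled coordinates are affine in the coordinates of a point. -/
lemma exists_forms (D : RootData d L) (Q₀ : ℕ) (hQ₀ : Q₀ ≠ 0) (z₀ : Pt d L) :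
    ∃ φ : Option (Fin d) ⊕ Option (Fin d) → MvPolynomial (Option (Fin d)) L,
      (∀ j, (φ j).totalDegree ≤ 1) ∧
      ∀ (u : Pt d L → Fin d → ℤ) (w : Pt d L → ℤ) (z : Pt d L),
        (∀ l, z.c l = z₀.c l + Q₀ * u z l) → z.m = z₀.m + Q₀ * w z →
        ∀ j, MvPolynomial.eval (D.coord z) (φ j) =
          Sum.elim (fun o => o.elim (w z : L) fun l => (u z l : L)) (D.coord z) j := by
  classical
  set V := Matrix.vandermonde (fun i => (D.θ i : L)) with hV
  have hdet : IsUnit V.det := isUnit_iff_ne_zero.2 (Matrix.det_vandermonde_ne_zero_iff.2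
    fun i j h => D.inj (RingOfIntegers.coe_injective h))
  refine ⟨Sum.elim (fun o => o.elim
      (MvPolynomial.C (Q₀ : L)⁻¹ * (MvPolynomial.X none - MvPolynomial.C (z₀.m : L)))
      fun l => MvPolynomial.C (Q₀ : L)⁻¹ *
        ((∑ i, MvPolynomial.C (V⁻¹ l i) * MvPolynomial.X (some i)) -
          MvPolynomial.C (z₀.c l : L))) MvPolynomial.X, ?_, ?_⟩
  · have hmul : ∀ (c : L) (P : MvPolynomial (Option (Fin d)) L), P.totalDegree ≤ 1 →
        (MvPolynomial.C c * P).totalDegree ≤ 1 := fun c P hP =>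
      (MvPolynomial.totalDegree_mul _ _).trans (by rw [MvPolynomial.totalDegree_C, zero_add]; exact hP)
    rintro ((_ | l) | j)
    · exact hmul _ _ ((MvPolynomial.totalDegree_sub _ _).trans (by simp [-map_intCast]))
    · refine hmul _ _ ((MvPolynomial.totalDegree_sub _ _).trans (max_le ?_ (by simp [-map_intCast])))
      refine (MvPolynomial.totalDegree_finsetSum _ _).trans (Finset.sup_le fun i _ => ?_)
      exact hmul _ _ (by simp)
    · simp
  · intro u w z hc hm j
    have hQ : (Q₀ : L) ≠ 0 := by exact_mod_cast hQ₀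
    rcases j with (_ | l) | j
    · simp only [Sum.elim_inl, Option.elim_none, map_mul, map_sub, MvPolynomial.eval_C,
        MvPolynomial.eval_X, RootData.coord, hm]
      push_cast
      field_simp
      ring
    · have hvec : ∑ i, V⁻¹ l i * (D.ρ z i : L) = (z.c l : L) := by
        have h1 : (fun i => (D.ρ z i : L)) = V.mulVec fun l => (z.c l : L) := by
          funext i
          simp [RootData.ρ, hV, Matrix.mulVec, dotProduct, Matrix.vandermonde, mul_comm]
        have h2 := congrFun (congrArg (V⁻¹).mulVec h1) l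
        rw [Matrix.mulVec_mulVec, Matrix.nonsing_inv_mul _ hdet, Matrix.one_mulVec] at h2
        exact h2
      simp only [Sum.elim_inl, Option.elim_some, map_mul, map_sub, map_sum, MvPolynomial.eval_C,
        MvPolynomial.eval_X, RootData.coord, hvec, hc l]
      push_cast
      field_simp
      ring
    · simp

/-- The values of the coordinates and of their scalings. -/
noncomputable def cellVal (D : RootData d L) (u : Pt d L → Fin d → ℤ) (w : Pt d L → ℤ)
    (j : Option (Fin d) ⊕ Option (Fin d)) (z : Pt d L) : L :=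
  Sum.elim (fun o => o.elim (w z : L) fun l => (u z l : L)) (D.coord z) j

open Classical in
/-- Outside boundedly many values of a coordinate, a slice has relations between all pairs. -/
lemma exists_exceptional (D : RootData d L) {δt : ℕ}
    {Q₀ : ℕ} (hQ₀ : Q₀ ≠ 0) {z₀ : Pt d L} {u : Pt d L → Fin d → ℤ} {w : Pt d L → ℤ}
    {v : Pt d L → Fin d → 𝓞 L} {W : Finset (Pt d L)} (hsc : Scaled Q₀ z₀ u w v W)
    (hforms : ∀ φ : Fin 3 → MvPolynomial (Option (Fin d)) L, (∀ j, (φ j).totalDegree ≤ 1) →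
      ∃ P : MvPolynomial (Fin 3) L, P ≠ 0 ∧ P.totalDegree ≤ δt ∧
        ∀ z ∈ W, MvPolynomial.eval (fun j => MvPolynomial.eval (D.coord z) (φ j)) P = 0)
    (s : Fin d) :
    ∃ E : Finset L, E.card ≤ Fintype.card ((Option (Fin d) ⊕ Option (Fin d)) ×
        (Option (Fin d) ⊕ Option (Fin d))) * δt ∧
      ∀ t ∉ E, ∀ i j, PairRel δt (cellVal D u w i) (cellVal D u w j)
        (W.filter fun z => (u z s : L) = t) := by
  classical
  obtain ⟨φ, hφd, hφe⟩ := exists_forms D Q₀ hQ₀ z₀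
  have htri : ∀ j : (Option (Fin d) ⊕ Option (Fin d)) × (Option (Fin d) ⊕ Option (Fin d)),
      ∃ E : Finset L, E.card ≤ δt ∧ ∀ t ∉ E, PairRel δt (cellVal D u w j.1) (cellVal D u w j.2)
        (W.filter fun z => (u z s : L) = t) := by
    intro j
    obtain ⟨P, hP0, hPd, hPz⟩ := hforms ![φ (Sum.inl (some s)), φ j.1, φ j.2]
      (Fin.forall_fin_succ.2 ⟨hφd _, Fin.forall_fin_succ.2 ⟨hφd _, Fin.forall_fin_one.2 (hφd _)⟩⟩)
    obtain ⟨E, hE, hEQ⟩ := exists_slice_relation P hP0 hPd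
    refine ⟨E, hE, fun t ht => ?_⟩
    obtain ⟨Q, hQ0, hQd, hQe⟩ := hEQ t ht
    obtain ⟨B, hB0, hBd, hBe⟩ := exists_biv Q hQ0 hQd
    refine ⟨B, hB0, hBd, fun z hz => ?_⟩
    obtain ⟨hzW, hzt⟩ := Finset.mem_filter.1 hz
    have he : ∀ i, MvPolynomial.eval (D.coord z) (φ i) = cellVal D u w i z :=
      hφe u w z (hsc.cu z hzW) (hsc.mw z hzW)
    have h1 := hBe ![cellVal D u w j.1 z, cellVal D u w j.2 z]
    rw [Matrix.cons_val_zero, Matrix.cons_val_one, Matrix.cons_val_zero] at h1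
    rw [h1, ← hQe, ← hPz z hzW]
    have hv : (Fin.cons t ![cellVal D u w j.1 z, cellVal D u w j.2 z] : Fin 3 → L) =
        fun i => MvPolynomial.eval (D.coord z) (![φ (Sum.inl (some s)), φ j.1, φ j.2] i) := by
      funext i
      refine Fin.cases ?_ (fun i => ?_) i
      · show t = MvPolynomial.eval (D.coord z) (φ (Sum.inl (some s)))
        rw [he]
        exact hzt.symm
      · refine Fin.cases ?_ (fun i => ?_) i
        · exact (he _).symm
        · obtain rfl : i = 0 := Subsingleton.elim _ _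
          exact (he _).symm
    exact congrArg (fun x => MvPolynomial.eval x P) hv
  choose E hEc hEQ using htri
  refine ⟨univ.biUnion E, ?_, fun t ht i j => hEQ (i, j) t fun h =>
    ht (Finset.mem_biUnion.2 ⟨_, Finset.mem_univ _, h⟩)⟩
  refine Finset.card_biUnion_le.trans ((Finset.sum_le_sum fun j _ => hEc j).trans ?_)
  rw [Finset.sum_const, Finset.card_univ, smul_eq_mul]

/-- Pairs of coordinates related give `Rel` at level one. -/
lemma rel_of_pair (D : RootData d L) {δ : ℕ} {U : Finset (Pt d L)}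
    [DecidableEq (Option (Fin d) → L)]
    (h : ∀ i j, PairRel δ (fun z => D.coord z i) (fun z => D.coord z j) U) :
    Rel (2 * δ) 1 univ (U.image D.coord) := by
  classical
  intro V _ hV
  obtain ⟨i, j, hij, rfl⟩ := Finset.card_eq_two.1 hV
  obtain ⟨P, hP0, hPd, hPz⟩ := h i j
  let f : ℕ → ℕ → MvPolynomial (Option (Fin d)) L := fun m n =>
    MvPolynomial.monomial (Finsupp.single i m + Finsupp.single j n) ((P.coeff n).coeff m)
  have hinj : ∀ m n m' n' : ℕ, (Finsupp.single i m + Finsupp.single j n : Option (Fin d) →₀ ℕ) =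
      Finsupp.single i m' + Finsupp.single j n' → m = m' ∧ n = n' := by
    intro m n m' n' e
    have h1 := DFunLike.congr_fun e i
    have h2 := DFunLike.congr_fun e j
    simp [hij, hij.symm] at h1 h2
    exact ⟨h1, h2⟩
  refine ⟨∑ n ∈ range (δ + 1), ∑ m ∈ range (δ + 1), f m n, ?_, ?_, ?_, fun x hx => ?_⟩
  · intro h0
    apply hP0
    ext n m
    rw [Polynomial.coeff_zero, Polynomial.coeff_zero]
    by_cases hn : n ≤ δ
    · by_cases hm : m ≤ δ
      · have h1 := congrArg (MvPolynomial.coeff (Finsupp.single i m + Finsupp.single j n)) h0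
        simp only [MvPolynomial.coeff_sum, f, MvPolynomial.coeff_monomial, MvPolynomial.coeff_zero]
          at h1
        rw [Finset.sum_eq_single n, Finset.sum_eq_single m, if_pos rfl] at h1
        · exact h1
        · exact fun m' _ hne => if_neg fun e => hne (hinj _ _ _ _ e).1
        · exact fun hh => absurd (Finset.mem_range.2 (Nat.lt_succ_of_le hm)) hh
        · exact fun n' _ hne => Finset.sum_eq_zero fun m' _ =>
            if_neg fun e => hne (hinj _ _ _ _ e).2
        · exact fun hh => absurd (Finset.mem_range.2 (Nat.lt_succ_of_le hn)) hh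
      · exact Polynomial.coeff_eq_zero_of_natDegree_lt (by have := hPd.2 n; omega)
    · rw [Polynomial.coeff_eq_zero_of_natDegree_lt (show P.natDegree < n by have := hPd.1; omega),
        Polynomial.coeff_zero]
  · refine (MvPolynomial.vars_sum_subset _ _).trans (Finset.biUnion_subset.2 fun n _ =>
      (MvPolynomial.vars_sum_subset _ _).trans (Finset.biUnion_subset.2 fun m _ x hx => ?_))
    rw [MvPolynomial.mem_vars_iff_mem_support] at hx
    obtain ⟨e, he, hxe⟩ := hx
    rw [Finset.mem_singleton.1 (MvPolynomial.support_monomial_subset he)] at hxe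
    rcases Finset.mem_union.1 (Finsupp.support_add hxe) with h | h
    · rw [Finset.mem_singleton.1 (Finsupp.support_single_subset h)]; simp
    · rw [Finset.mem_singleton.1 (Finsupp.support_single_subset h)]; simp
  · refine (MvPolynomial.totalDegree_finsetSum _ _).trans (Finset.sup_le fun n hn =>
      (MvPolynomial.totalDegree_finsetSum _ _).trans (Finset.sup_le fun m hm => ?_))
    refine (MvPolynomial.totalDegree_monomial_le _ _).trans ?_
    rw [Finsupp.sum_add_index' (fun _ => rfl) (fun _ _ _ => rfl), Finsupp.sum_single_index rfl,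
      Finsupp.sum_single_index rfl]
    simp only [Finset.mem_range] at hn hm
    show m + n ≤ 2 * δ
    omega
  · obtain ⟨z, hz, rfl⟩ := Finset.mem_image.1 hx
    have h1 := hPz z hz
    rw [Polynomial.evalEval, Polynomial.eval_eq_sum_range' (n := δ + 1)
      (Nat.lt_succ_of_le hPd.1), Polynomial.eval_finsetSum] at h1
    rw [map_sum, ← h1]
    refine Finset.sum_congr rfl fun n _ => ?_
    rw [map_sum, Polynomial.eval_mul, Polynomial.eval_pow, Polynomial.eval_C,
      Polynomial.eval_eq_sum_range' (n := δ + 1) (Nat.lt_succ_of_le (hPd.2 n)), Finset.sum_mul]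
    refine Finset.sum_congr rfl fun m _ => ?_
    simp only [f, MvPolynomial.eval_monomial]
    rw [Finsupp.prod_add_index' (fun _ => pow_zero _) (fun _ _ _ => pow_add _ _ _),
      Finsupp.prod_single_index (a := i) (h := fun x e => D.coord z x ^ e) (pow_zero _),
      Finsupp.prod_single_index (a := j) (h := fun x e => D.coord z x ^ e) (pow_zero _), mul_assoc]

/-- The second level of the descent: slices of a surface by a coordinate and doubling on curves. -/
theorem surface_bound (D : RootData d L) {k : ℕ} (hd : 2 ≤ d) (hk : 2 ≤ k) {R : ℤ} (hR : R ≠ 0)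
    {A M a b g η : ℝ} (G : ℕ → ℝ)
    (ha : 0 ≤ a) (haG : A ≤ a + G 2) (hb : 0 ≤ b) (hbG : M ≤ b + G 2)
    (hg1 : a < 2 * g) (hg2 : a * b < g * (a + b))
    (hg3 : b < g * ((d * (k - 1) + 1 - k : ℕ) : ℝ)) (hη : 0 < η) (hη1 : η < 1)
    {C₀ : ℝ} (hC₀ : 1 ≤ C₀) (C₁ : ℝ) (B₀ : ℕ) :
    D.LevelBound k R A M G C₀ C₁ B₀ 2 (a + g + η) := by
  classical
  intro K₀ δ
  have hg : 0 < g := by linarith
  set bc := if a = 0 then g else a with hbc
  have hbca : a ≤ bc ∧ a * bc < g * (a + bc) ∧ bc < 2 * g := by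
    rw [hbc]
    split_ifs with h
    · subst h; exact ⟨hg.le, by simp; positivity, by linarith⟩
    · have : 0 < a := lt_of_le_of_ne ha (Ne.symm h)
      exact ⟨le_rfl, by nlinarith, by linarith⟩
  set b₁ := max (1 - G 2) 0 with hb₁
  obtain ⟨δt, hforms⟩ := exists_relation_forms (K := L) (ι := Option (Fin d)) δ 2
  obtain ⟨cs, xs, hcs, hslice⟩ := slice_bound D hd hk hR (A := A) (M := M) (bc := bc) (b₁ := b₁)
    ha hbca.1 (le_max_right _ _) hb hg1 hbca.2.1 hbca.2.2 hg2 hg3 hη hη1 hC₀ C₁ B₀ K₀ (2 * δt)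
  set NE := Fintype.card ((Option (Fin d) ⊕ Option (Fin d)) × (Option (Fin d) ⊕ Option (Fin d))) * δt
    with hNE
  refine ⟨((B₀ * NE ^ d : ℕ) : ℝ) + d * ((4 * C₀ + 1) * cs), max xs 1, by positivity,
    fun X hX S₀ hS₀ hS₀' hQ W hW hcong _ hrel => ?_⟩
  simp only [max_le_iff] at hX
  have hX0 : 0 < X := by linarith [hX.2]
  have hp : 0 ≤ X ^ (g + η) := Real.rpow_nonneg hX0.le _
  have hge : 1 ≤ X ^ (a + g + η) := Real.one_le_rpow hX.2 (by linarith)
  rcases W.eq_empty_or_nonempty with hWe | ⟨z₀, hz₀⟩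
  · rw [hWe, Finset.card_empty, Nat.cast_zero]
    positivity
  set Q₀ := ∏ q ∈ S₀, q with hQ₀
  have hS₀p : ∀ q ∈ S₀, q.Prime := fun q hq => (hS₀' q hq).1.1
  have hQ0 : Q₀ ≠ 0 := Finset.prod_ne_zero_iff.2 fun q hq => (hS₀p q hq).ne_zero
  obtain ⟨u, w, v, hsc⟩ := exists_cell_scaling D (hW.pt z₀ hz₀) W hW.pt
    (fun z hz => coprime_prod D S₀ z fun q hq =>
      hW.cop q (hS₀p q hq) (hS₀' q hq).2.1 (hS₀' q hq).2.2 z hz)
    (fun z hz => hcong z hz z₀ hz₀)
  have hC0 : 0 ≤ C₀ := by linarith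
  have hQZ : (0 : ℤ) < (Q₀ : ℤ) := by exact_mod_cast Nat.pos_of_ne_zero hQ0
  have hub : ∀ z ∈ W, ∀ l, |(u z l : ℝ)| ≤ 2 * C₀ * X ^ a := fun z hz l => by
    have h1 := abs_scaled_le hQZ (hsc.cu z hz l) ((hW.bdd z hz).c_le l) ((hW.bdd z₀ hz₀).c_le l)
    push_cast at h1
    exact h1.trans (div_rpow_le hC0 hX.2 hQ haG)
  have hwb : ∀ z ∈ W, |(w z : ℝ)| ≤ 2 * C₀ * X ^ b₁ := fun z hz => by
    have h1 := abs_scaled_le hQZ (hsc.mw z hz) (hW.bdd z hz).m_le (hW.bdd z₀ hz₀).m_le
    push_cast at h1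
    rw [← Real.rpow_one X] at h1
    exact h1.trans (div_rpow_le hC0 hX.2 hQ (by linarith [le_max_left (1 - G 2) 0]))
  have hvb : ∀ z ∈ W, ∀ i, ∀ φ : L →+* ℂ, ‖φ (v z i : L)‖ ≤ 2 * C₀ * X ^ b := fun z hz i φ => by
    refine le_trans ?_ (div_rpow_le hC0 hX.2 hQ hbG)
    have hQR : (0 : ℝ) < (Q₀ : ℝ) := by exact_mod_cast Nat.pos_of_ne_zero hQ0
    rw [le_div_iff₀ hQR]
    have e : φ (z.μ i : L) - φ (z₀.μ i : L) = (Q₀ : ℂ) * φ (v z i : L) := by
      rw [hsc.μv z hz i]
      simp only [map_add, map_mul, map_natCast]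
      ring
    calc ‖φ (v z i : L)‖ * (Q₀ : ℝ) = ‖φ (z.μ i : L) - φ (z₀.μ i : L)‖ := by
          rw [e, norm_mul, Complex.norm_natCast, mul_comm]
      _ ≤ ‖φ (z.μ i : L)‖ + ‖φ (z₀.μ i : L)‖ := norm_sub_le _ _
      _ ≤ 2 * (C₀ * X ^ M) := by
          linarith [(hW.bdd z hz).μ_le φ i, (hW.bdd z₀ hz₀).μ_le φ i]
  have hexc := exists_exceptional D hQ0 hsc (δt := δt) (fun φ hφ => by
    obtain ⟨P, h1, h2, h3⟩ := hforms (W.image D.coord) (by convert hrel using 2) φ hφ
    exact ⟨P, h1, h2, fun z hz => h3 _ (Finset.mem_image_of_mem _ hz)⟩)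
  choose Es hEs hEQ using hexc
  let W₀ := W.filter fun z => ∀ s, (u z s : L) ∈ Es s
  have hW₀ : W₀.card ≤ B₀ * NE ^ d :=
    card_le_of_coords (hsc.mono (Finset.filter_subset _ _)) (hW.mono (Finset.filter_subset _ _))
      Es hEs fun z hz => (Finset.mem_filter.1 hz).2
  let T : Fin d → Finset ℤ := fun s =>
    (W.image fun z => u z s).filter fun t : ℤ => (t : L) ∉ Es s
  let U : Fin d → ℤ → Finset (Pt d L) := fun s t => W.filter fun z => u z s = t
  have hcov : W ⊆ W₀ ∪ univ.biUnion fun s => (T s).biUnion (U s) := by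
    intro z hz
    by_cases h0 : ∀ s, (u z s : L) ∈ Es s
    · exact Finset.mem_union_left _ (Finset.mem_filter.2 ⟨hz, h0⟩)
    push Not at h0
    obtain ⟨s, hs⟩ := h0
    exact Finset.mem_union_right _ (Finset.mem_biUnion.2 ⟨s, Finset.mem_univ _,
      Finset.mem_biUnion.2 ⟨u z s,
        Finset.mem_filter.2 ⟨Finset.mem_image_of_mem _ hz, hs⟩, Finset.mem_filter.2 ⟨hz, rfl⟩⟩⟩)
  have hUb : ∀ s, ∀ t ∈ T s, ((U s t).card : ℝ) ≤ cs * X ^ (g + η) := by
    intro s t ht
    have hsub : U s t ⊆ W := Finset.filter_subset _ _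
    have hU' : W.filter (fun z => (u z s : L) = (t : L)) = U s t :=
      Finset.filter_congr fun z _ => Int.cast_inj
    have hpair : ∀ i j, PairRel δt (cellVal D u w i) (cellVal D u w j) (U s t) :=
      hU' ▸ hEQ s t (Finset.mem_filter.1 ht).2
    have hpair' : ∀ i j, PairRel (2 * δt) (cellVal D u w i) (cellVal D u w j) (U s t) :=
      fun i j => by
        obtain ⟨P, h1, h2, h3⟩ := hpair i j
        exact ⟨P, h1, h2.mono (by omega), h3⟩
    exact hslice X hX.1 S₀ hS₀ hS₀p _ (hW.mono hsub) z₀ u w v (hsc.mono hsub)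
      (fun z hz => hub z (hsub hz)) (fun z hz => hwb z (hsub hz)) (fun z hz => hvb z (hsub hz))
      (rel_of_pair D fun i j => hpair (Sum.inr i) (Sum.inr j))
      (fun s l => hpair' (Sum.inl (some s)) (Sum.inl (some l)))
      (fun s => hpair' (Sum.inl (some s)) (Sum.inl none))
  have hT : ∀ s, ((T s).card : ℝ) ≤ (4 * C₀ + 1) * X ^ a := fun s => by
    refine (card_abs_le (T s) (B := 2 * C₀ * X ^ a) (by positivity) fun t ht => ?_).trans ?_
    · obtain ⟨z, hz, rfl⟩ := Finset.mem_image.1 (Finset.mem_filter.1 ht).1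
      exact hub z hz s
    · have := Real.one_le_rpow hX.2 ha
      linarith
  calc (W.card : ℝ)
      ≤ (W₀.card : ℝ) + ∑ s, ∑ t ∈ T s, ((U s t).card : ℝ) := by
        have := (Finset.card_le_card hcov).trans ((Finset.card_union_le _ _).trans
          (Nat.add_le_add_left (Finset.card_biUnion_le.trans
            (Finset.sum_le_sum fun s _ => Finset.card_biUnion_le)) _))
        exact_mod_cast this
    _ ≤ ((B₀ * NE ^ d : ℕ) : ℝ) * X ^ (a + g + η) +
          ∑ _s : Fin d, (4 * C₀ + 1) * X ^ a * (cs * X ^ (g + η)) := by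
        refine add_le_add ((Nat.cast_le.2 hW₀).trans
          (le_mul_of_one_le_right (Nat.cast_nonneg _) hge)) (Finset.sum_le_sum fun s _ => ?_)
        refine (Finset.sum_le_sum (hUb s)).trans ?_
        rw [Finset.sum_const, nsmul_eq_mul]
        exact mul_le_mul_of_nonneg_right (hT s) (mul_nonneg hcs hp)
    _ = _ := by
        rw [Finset.sum_const, Finset.card_univ, Fintype.card_fin, nsmul_eq_mul,
          show a + g + η = a + (g + η) by ring, Real.rpow_add hX0]
        ring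

end Vale.Agent.P018
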