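import Vale.Agent.P018.Main
import Vale.Agent.P018.SurfaceCell

/-!
# The pair `(5, 3)`
-/

namespace Vale.Agent.P018

open Filter Topology NumberField

/-- A certificate for the range `lo ≤ log p / log X ≤ hi`; `imp` says whether the second level
is improved by the curve argument. -/
structure CellRow where
  lo : ℚ
  hi : ℚ
  imp : Bool
  A : ℚ
  M : ℚ
  a : ℚ
  b : ℚ
  g : ℚ
  G : List ℚ

/-- The levels. -/
def CellRow.lev (r : CellRow) (s : ℕ) : ℚ := r.G.getD s 0

/-- The exponent of the count. -/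
def CellRow.total (r : CellRow) : ℚ :=
  (if r.imp then r.a + r.g else 0) +
    ((List.Ico (if r.imp then 2 else 0) 6).map fun i : ℕ =>
      ((i : ℚ) + 1) * (r.lev i - r.lev (i + 1))).sum

/-- The condition of the determinant step. -/
def CellRow.stepOK (r : CellRow) (s : ℕ) : Bool :=
  decide (r.lev s = r.lev 0) ||
    decide (0 < r.lev s ∧ 1 < r.lev s ^ (s + 1) * (1 / r.A + 3 / r.M) ^ s)

/-- The checks of a row. -/
def CellRow.ok (r : CellRow) : Bool :=
  decide (0 < r.A ∧ r.A ≤ 1 ∧ 0 < r.M ∧ r.A < r.lev 0) &&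
  decide (r.hi ≤ 5 * r.A ∧ 1 - 3 * r.lo / 5 ≤ r.M) &&
  (List.range 6).all (fun s => decide (r.lev (s + 1) ≤ r.lev s)) &&
  decide (r.lev 6 = 0) && decide (r.total < 1) &&
  (List.Ico (if r.imp then 2 else 1) 6).all r.stepOK &&
  (!r.imp || decide (0 ≤ r.lev 2 ∧ 0 ≤ r.a ∧ r.A ≤ r.a + r.lev 2 ∧ 0 ≤ r.b ∧ r.M ≤ r.b + r.lev 2 ∧
    r.a < 2 * r.g ∧ r.a * r.b < r.g * (r.a + r.b) ∧ r.b < r.g * 8))

/-- The rows. -/
def rowsFiveThree : List CellRow := [
  ⟨1, 5071/5000, false,
    2029/10000, 4001/10000, 0, 0, 0,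
    [20291/100000, 20291/100000, 18641/100000, 1511/10000, 6661/50000, 12249/100000]⟩,
  ⟨5071/5000, 2561/2500, false,
    2049/10000, 979/2500, 0, 0, 0,
    [20491/100000, 20491/100000, 18527/100000, 15007/100000, 1653/12500, 2431/20000]⟩,
  ⟨2561/2500, 10331/10000, false,
    2067/10000, 771/2000, 0, 0, 0,
    [20671/100000, 20671/100000, 369/2000, 1867/12500, 6579/50000, 3023/25000]⟩,
  ⟨10331/10000, 5197/5000, false,
    2079/10000, 3803/10000, 0, 0, 0,
    [20791/100000, 20791/100000, 9187/50000, 14867/100000, 13093/100000, 1203/10000]⟩,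
  ⟨5197/5000, 10481/10000, true,
    2097/10000, 753/2000, 2633/100000, 19313/100000, 151/6250,
    [20971/100000, 20971/100000, 18337/100000, 7417/50000, 6531/50000, 3/25]⟩,
  ⟨10481/10000, 10583/10000, true,
    2117/10000, 3713/10000, 2897/100000, 18857/100000, 2513/100000,
    [21171/100000, 21171/100000, 18273/100000, 1847/12500, 13007/100000, 2987/25000]⟩,
  ⟨10583/10000, 2137/2000, true,
    2137/10000, 913/2500, 1591/50000, 4583/25000, 2713/100000,
    [21371/100000, 21371/100000, 4547/25000, 7349/50000, 6467/50000, 5939/50000]⟩,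
  ⟨2137/2000, 10787/10000, true,
    1079/5000, 359/1000, 1741/50000, 8901/50000, 1457/50000,
    [21581/100000, 21581/100000, 9049/50000, 1827/12500, 12857/100000, 2951/25000]⟩,
  ⟨10787/10000, 10889/10000, true,
    1089/5000, 3529/10000, 118/3125, 8643/50000, 3101/100000,
    [21781/100000, 21781/100000, 4501/25000, 14531/100000, 12777/100000, 733/6250]⟩,
  ⟨10889/10000, 11009/10000, true,
    1101/5000, 867/2500, 4107/100000, 16767/100000, 33/1000,
    [22021/100000, 22021/100000, 17913/100000, 903/6250, 127/1000, 5827/50000]⟩,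
  ⟨11009/10000, 11151/10000, true,
    2231/10000, 849/2500, 4509/100000, 16159/100000, 3527/100000,
    [22311/100000, 22311/100000, 17801/100000, 14347/100000, 2521/20000, 11563/100000]⟩,
  ⟨11151/10000, 5659/5000, true,
    283/1250, 3311/10000, 4981/100000, 15451/100000, 471/12500,
    [22641/100000, 22641/100000, 17659/100000, 7109/50000, 3121/25000, 1431/12500]⟩,
  ⟨5659/5000, 11549/10000, true,
    231/1000, 3211/10000, 5609/100000, 14619/100000, 811/20000,
    [23101/100000, 23101/100000, 17491/100000, 7033/50000, 6171/50000, 707/6250]⟩,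
  ⟨11549/10000, 5963/5000, true,
    1193/5000, 192/625, 413/6250, 3367/25000, 2217/50000,
    [23861/100000, 23861/100000, 4313/25000, 277/2000, 607/5000, 11119/100000]⟩,
  ⟨5963/5000, 1581/1250, true,
    253/1000, 1423/5000, 2119/25000, 2909/25000, 981/20000,
    [25301/100000, 25301/100000, 2103/12500, 1683/12500, 11779/100000, 431/4000]⟩,
  ⟨1581/1250, 853/625, true,
    273/1000, 2413/10000, 2903/25000, 4221/50000, 363/6250,
    [27301/100000, 27301/100000, 1961/12500, 6223/50000, 677/6250, 4937/50000]⟩,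
  ⟨853/625, 1831/1250, false,
    293/1000, 1813/10000, 0, 0, 0,
    [29301/100000, 4477/20000, 1699/12500, 10591/100000, 9119/100000, 8253/100000]⟩,
  ⟨1831/1250, 978/625, false,
    313/1000, 1213/10000, 0, 0, 0,
    [31301/100000, 4731/25000, 2173/20000, 8233/100000, 6971/100000, 6239/100000]⟩,
  ⟨978/625, 2081/1250, false,
    333/1000, 613/10000, 0, 0, 0,
    [33301/100000, 13877/100000, 1437/20000, 517/10000, 1061/25000, 93/2500]⟩,
  ⟨2081/1250, 1103/625, false,
    353/1000, 13/10000, 0, 0, 0,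
    [35301/100000, 1041/50000, 287/50000, 151/50000, 41/20000, 159/100000]⟩]

/-- Consecutive rows share their end points and cover `[1, 5/3 + 1/1000]`. -/
def chainOK : ℚ → List CellRow → Bool
  | x, [] => decide ((5 : ℚ) / 3 + 1 / 1000 ≤ x)
  | x, r :: l => decide (r.lo ≤ x) && chainOK r.hi l

lemma chain_cover : ∀ (x : ℚ) (l : List CellRow), chainOK x l = true → ∀ t : ℝ, (x : ℝ) ≤ t →
    t ≤ 5 / 3 + 1 / 1000 → t ≤ (x : ℝ) ∨ ∃ r ∈ l, (r.lo : ℝ) ≤ t ∧ t ≤ (r.hi : ℝ) := by
  intro x l
  induction l generalizing x with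
  | nil =>
    intro h t _ ht
    simp only [chainOK, decide_eq_true_eq] at h
    have := (Rat.cast_le (K := ℝ)).2 h
    push_cast at this
    exact Or.inl (ht.trans this)
  | cons r l ih =>
    intro h t hxt ht
    simp only [chainOK, Bool.and_eq_true, decide_eq_true_eq] at h
    have h1 : (r.lo : ℝ) ≤ x := by exact_mod_cast h.1
    rcases le_total t (r.hi : ℝ) with hc | hc
    · exact Or.inr ⟨r, List.mem_cons_self .., h1.trans hxt, hc⟩
    · rcases ih r.hi h.2 t hc ht with h2 | ⟨r', hr', h3⟩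
      · exact Or.inr ⟨r, List.mem_cons_self .., h1.trans hxt, h2⟩
      · exact Or.inr ⟨r', List.mem_cons_of_mem _ hr', h3⟩

lemma rowsFiveThree_ok : rowsFiveThree.all CellRow.ok = true ∧ chainOK 1 rowsFiveThree = true := by
  decide +kernel

/-- The count of one row. -/
lemma cellRow_bound {r : CellRow} (h : r.ok = true) (L : Type) [Field L] [NumberField L]
    (D : RootData 5 L) (R : ℤ) (hR : R ≠ 0) {C₀ : ℝ} (hC₀ : 1 ≤ C₀) (C₁ : ℝ) (B₀ : ℕ) :
    ∃ Cst X₁ : ℝ, 0 ≤ Cst ∧ ∀ X : ℝ, X₁ ≤ X → ∀ W : Finset (Pt 5 L),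
      D.Good 3 R C₀ C₁ X r.A r.M B₀ W → (W.card : ℝ) ≤ Cst * X ^ (((r.total : ℝ) + 1) / 2) := by
  simp only [CellRow.ok, Bool.and_eq_true, decide_eq_true_eq, List.all_eq_true, List.mem_range,
    List.Ico.mem, Bool.or_eq_true, Bool.not_eq_true'] at h
  obtain ⟨⟨⟨⟨⟨⟨⟨hA, -, hM, hcap⟩, -⟩, hanti⟩, hlast⟩, htot⟩, hstep⟩, himp⟩ := h
  have hA' : (0 : ℝ) < r.A := by exact_mod_cast hA
  have hM' : (0 : ℝ) < r.M := by exact_mod_cast hM
  let G : ℕ → ℝ := fun s => (r.lev s : ℝ)
  have hcap' : (r.A : ℝ) < G 0 := by simpa [G] using (Rat.cast_lt (K := ℝ)).2 hcap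
  have hanti' : ∀ s ≤ 5, G (s + 1) ≤ G s := fun s hs => by
    simpa [G] using (Rat.cast_le (K := ℝ)).2 (hanti s (by omega))
  have hlast' : G (5 + 1) = 0 := by simp [G, hlast]
  have hcond : ∀ s, (if r.imp then 2 else 1) ≤ s → s ≤ 5 →
      G s = G 0 ∨ (0 < G s ∧ 1 < G s ^ (s + 1) * (1 / (r.A : ℝ) + ((3 : ℕ) : ℝ) / r.M) ^ s) := by
    intro s h1 h2
    have h3 := hstep s ⟨h1, by omega⟩
    simp only [CellRow.stepOK, Bool.or_eq_true, decide_eq_true_eq] at h3
    rcases h3 with h3 | ⟨h3, h4⟩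
    · exact Or.inl (by simp [G, h3])
    · refine Or.inr ⟨by simpa [G] using (Rat.cast_pos (K := ℝ)).2 h3, ?_⟩
      have h5 := (Rat.cast_lt (K := ℝ)).2 h4
      push_cast at h5
      simpa [G] using h5
  set η : ℝ := (1 - (r.total : ℝ)) / 4 with hη
  have htot' : (r.total : ℝ) < 1 := by exact_mod_cast htot
  have hη0 : 0 < η := by rw [hη]; linarith
  cases hi : r.imp with
  | false =>
    simp only [hi, Bool.false_eq_true, if_false] at hcond
    obtain ⟨Cst, X₁, hC, hb⟩ := cell_bound D (k := 3) (by norm_num) hR hA' hM' G hcap' hanti' hlast'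
      hcond hη0 hC₀ C₁ B₀
    refine ⟨Cst, max X₁ 1, hC, fun X hX W hW => (hb X (le_trans (le_max_left _ _) hX) W hW).trans ?_⟩
    refine mul_le_mul_of_nonneg_left (Real.rpow_le_rpow_of_exponent_le
      (le_trans (le_max_right _ _) hX) ?_) hC
    have e : (r.total : ℝ) = ∑ s ∈ Finset.range (5 + 1), G s := by
      simp [CellRow.total, hi, G, List.Ico, List.range', Finset.sum_range_succ, hlast]
      ring
    rw [← e, hη]
    linarith
  | true =>
    simp only [hi, if_true] at hcond
    rw [hi] at himp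
    simp only [Bool.true_eq_false, false_or] at himp
    obtain ⟨-, ha, haG, hb0, hbG, hg1, hg2, hg3⟩ := himp
    have hR' := surface_bound D (k := 3) (a := (r.a : ℝ)) (b := (r.b : ℝ)) (g := (r.g : ℝ))
      (A := (r.A : ℝ)) (M := (r.M : ℝ)) (η := η) (by norm_num) (by norm_num) hR G (by exact_mod_cast ha)
      (by have := (Rat.cast_le (K := ℝ)).2 haG; push_cast at this; simpa [G] using this)
      (by exact_mod_cast hb0)
      (by have := (Rat.cast_le (K := ℝ)).2 hbG; push_cast at this; simpa [G] using this)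
      (by exact_mod_cast hg1) (by exact_mod_cast hg2)
      (by have := (Rat.cast_lt (K := ℝ)).2 hg3; push_cast at this; norm_num; linarith)
      hη0 (by
        rw [hη]
        have : (-3 : ℝ) < r.total := by
          have h0 : (-3 : ℚ) < r.total := by
            have a0 := hanti 0 (by omega)
            have a1 := hanti 1 (by omega)
            have a2 := hanti 2 (by omega)
            have a3 := hanti 3 (by omega)
            have a4 := hanti 4 (by omega)
            have a5 := hanti 5 (by omega)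
            have hag : 0 ≤ r.g := by linarith
            simp [CellRow.total, hi, List.Ico, List.range'] at *
            linarith
          exact_mod_cast h0
        linarith) hC₀ C₁ B₀
    have hg0 : (0 : ℝ) ≤ r.g := by
      have : r.a < 2 * r.g := hg1
      have : (0 : ℚ) ≤ r.g := by linarith
      exact_mod_cast this
    obtain ⟨Cst, X₁, hC, hb⟩ := cell_bound_from D (k := 3) (by norm_num) hR hA' hM' G hcap' hanti'
      hlast' hη0 hC₀ C₁ B₀ 2 (by norm_num) ((r.a : ℝ) + r.g + η)
      (by have : (0 : ℝ) ≤ r.a := by exact_mod_cast ha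
          linarith) hR' (fun s h1 _ h2 => hcond s h1 h2)
    refine ⟨Cst, max X₁ 1, hC, fun X hX W hW => (hb X (le_trans (le_max_left _ _) hX) W hW).trans ?_⟩
    refine mul_le_mul_of_nonneg_left (Real.rpow_le_rpow_of_exponent_le
      (le_trans (le_max_right _ _) hX) ?_) hC
    have e : (r.total : ℝ) = r.a + r.g +
        ∑ i ∈ Finset.Ico (2 : ℕ) (5 + 1), ((i : ℝ) + 1) * (G i - G (i + 1)) := by
      simp [CellRow.total, hi, G, List.Ico, List.range', Finset.sum_Ico_succ_top]
      ring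
    rw [hη] at *
    linarith

/-- The asymptotic input for `(5, 3)`. -/
theorem largeCount_five_three (f : Polynomial ℤ) (hdeg : f.natDegree = 5)
    (hf : Irreducible (f.map (Int.castRingHom ℚ))) :
    Tendsto (fun X : ℕ => (largeCount f 3 X : ℝ) / X) atTop (𝓝 0) := by
  obtain ⟨hok, hchain⟩ := rowsFiveThree_ok
  rw [List.all_eq_true] at hok
  let row : ℕ → CellRow := fun j => rowsFiveThree.getD j ⟨0, 0, false, 0, 0, 0, 0, 0, []⟩
  have hrow : ∀ j < rowsFiveThree.length, row j ∈ rowsFiveThree := fun j hj => by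
    simp only [row, List.getD_eq_getElem _ _ hj]
    exact List.getElem_mem hj
  refine largeCount_tendsto_of_cells f hdeg hf (k := 3) (by norm_num) (by norm_num)
    (h := 1 / 1000) (by norm_num) rowsFiveThree.length (fun j => ((row j).A : ℝ))
    (fun j => ((row j).M : ℝ)) (fun j => (((row j).total : ℝ) + 1) / 2) ?_ ?_ ?_ ?_
  · intro j hj
    have h := hok _ (hrow j hj)
    simp only [CellRow.ok, Bool.and_eq_true, decide_eq_true_eq] at h
    obtain ⟨⟨⟨⟨⟨⟨⟨hA, hA1, -⟩, -⟩, -⟩, -⟩, -⟩, -⟩, -⟩ := h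
    exact ⟨by exact_mod_cast hA, by exact_mod_cast hA1⟩
  · intro j hj
    have h := hok _ (hrow j hj)
    simp only [CellRow.ok, Bool.and_eq_true, decide_eq_true_eq] at h
    obtain ⟨⟨⟨-, htot⟩, -⟩, -⟩ := h
    have : ((row j).total : ℝ) < 1 := by exact_mod_cast htot
    linarith
  · intro t ht1 ht2
    push_cast at ht2
    have h1 := chain_cover 1 _ hchain t (by push_cast; linarith) ht2
    push_cast at h1
    rcases h1 with h1 | ⟨r, hr, h2, h3⟩
    · linarith
    · obtain ⟨j, hj, rfl⟩ := List.getElem_of_mem hr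
      have h := hok _ hr
      simp only [CellRow.ok, Bool.and_eq_true, decide_eq_true_eq] at h
      obtain ⟨⟨⟨⟨⟨⟨-, hA, hM⟩, -⟩, -⟩, -⟩, -⟩, -⟩ := h
      have e : row j = rowsFiveThree[j] := List.getD_eq_getElem _ _ hj
      have hA' := (Rat.cast_le (K := ℝ)).2 hA
      have hM' := (Rat.cast_le (K := ℝ)).2 hM
      push_cast at hA' hM'
      refine ⟨j, hj, ?_, ?_⟩
      · push_cast; rw [e]; linarith
      · push_cast; rw [e]; linarith
  · intro j hj L _ _ D R hR C₀ hC₀ C₁ B₀
    exact cellRow_bound (hok _ (hrow j hj)) L D R hR hC₀ C₁ B₀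

end Vale.Agent.P018
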