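import Vale.Agent.P018.Relations

/-!
# Relations among affine forms in the coordinates
-/

namespace Vale.Agent.P018

open Finset MvPolynomial

variable {ι : Type*} {K : Type*} [Field K]

/-- Monomial functions of degree at most `T` in the coordinates in `M`, cut off outside `Z`. -/
noncomputable def monSpan (M : Finset ι) (T : ℕ) (Z : Set (ι → K)) :
    Submodule K ((ι → K) → K) :=
  Submodule.span K ((fun P : MvPolynomial ι K => Z.indicator fun z => eval z P) ''
    {P | P.vars ⊆ M ∧ P.totalDegree ≤ T})

lemma mem_monSpan {M : Finset ι} {T : ℕ} {Z : Set (ι → K)} (P : MvPolynomial ι K)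
    (h1 : P.vars ⊆ M) (h2 : P.totalDegree ≤ T) :
    (Z.indicator fun z => eval z P) ∈ monSpan M T Z :=
  Submodule.subset_span ⟨P, ⟨h1, h2⟩, rfl⟩

/-- The monomials `x ^ e` of total degree at most `T` in `M`. -/
lemma monSpan_le_monomials (M : Finset ι) (T : ℕ) (Z : Set (ι → K)) :
    monSpan M T Z ≤ Submodule.span K ((fun e : ι →₀ ℕ => Z.indicator fun z =>
      eval z (monomial e (1 : K))) '' {e | e.support ⊆ M ∧ e.sum (fun _ n => n) ≤ T}) := by
  classical
  rw [monSpan, Submodule.span_le]
  rintro f ⟨P, ⟨hv, hd⟩, rfl⟩
  have e : (Z.indicator fun z => eval z P) = ∑ m ∈ P.support,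
      P.coeff m • (Z.indicator fun z => eval z (monomial m (1 : K))) := by
    funext z
    rw [Finset.sum_apply]
    by_cases hz : z ∈ Z
    · simp only [Pi.smul_apply, Set.indicator_of_mem hz, smul_eq_mul]
      conv_lhs => rw [P.as_sum]
      rw [map_sum]
      refine Finset.sum_congr rfl fun m _ => ?_
      rw [eval_monomial, eval_monomial, one_mul]
    · simp [Set.indicator_of_notMem hz]
  rw [SetLike.mem_coe]
  show (Z.indicator fun z => eval z P) ∈ _
  rw [e]
  refine Submodule.sum_mem _ fun m hm => Submodule.smul_mem _ _ (Submodule.subset_span ?_)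
  refine ⟨m, ⟨fun i hi => hv ((mem_vars_iff_mem_support i).2 ⟨m, hm, hi⟩), ?_⟩, rfl⟩
  exact le_trans (le_totalDegree hm) hd

instance monSpan_finite [Fintype ι] (M : Finset ι) (T : ℕ) (Z : Set (ι → K)) :
    FiniteDimensional K (monSpan M T Z) := by
  classical
  have hfin : {e : ι →₀ ℕ | e.support ⊆ M ∧ e.sum (fun _ n => n) ≤ T}.Finite := by
    refine Set.Finite.subset
      (s := (fun f : ι → ℕ => Finsupp.equivFunOnFinite.symm f) '' {f | ∀ i, f i ≤ T})
      (Set.Finite.image _ ?_) ?_
    · exact (Set.Finite.pi fun _ : ι => Set.finite_Iic T).subset fun f hf i _ => hf i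
    · intro e he
      refine ⟨fun i => e i, fun i => ?_, by ext; simp⟩
      by_cases h : i ∈ e.support
      · exact (Finset.single_le_sum (f := fun j => e j) (fun _ _ => Nat.zero_le _) h).trans he.2
      · simp [Finsupp.notMem_support_iff.1 h]
  have := FiniteDimensional.span_of_finite K (hfin.image fun e : ι →₀ ℕ =>
    Z.indicator fun z => eval z (monomial e (1 : K)))
  exact Submodule.finiteDimensional_of_le (monSpan_le_monomials M T Z)

lemma finrank_finsetSum_le {V : Type*} [AddCommGroup V] [Module K V] {α : Type*} (s : Finset α)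
    (W : α → Submodule K V) (hW : ∀ a, FiniteDimensional K (W a)) :
    FiniteDimensional K (s.sup W : Submodule K V) ∧
      Module.finrank K (s.sup W : Submodule K V) ≤ ∑ a ∈ s, Module.finrank K (W a) := by
  classical
  induction s using Finset.induction_on with
  | empty =>
    rw [Finset.sup_empty, finrank_bot]
    exact ⟨inferInstance, Nat.zero_le _⟩
  | insert a s ha ih =>
    obtain ⟨h1, h2⟩ := ih
    have := hW a
    rw [Finset.sup_insert, Finset.sum_insert ha]
    exact ⟨inferInstance, (Submodule.finrank_add_le_finrank_add_finrank _ _).trans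
      (Nat.add_le_add_left h2 _)⟩

lemma eval_monomial_erase (y : ι) (e : ι →₀ ℕ) (z : ι → K) :
    eval z (monomial e (1 : K)) = z y ^ e y * eval z (monomial (e.erase y) 1) := by
  classical
  conv_lhs => rw [← Finsupp.single_add_erase y e]
  rw [monomial_single_add, map_mul, map_pow, eval_X]

/-- Functions of low degree on a set satisfying relations form a small space. -/
theorem finrank_monSpan_le [Fintype ι] [DecidableEq ι] (δ : ℕ) :
    ∀ (M : Finset ι) (D : ℕ), ∃ C : ℕ, ∀ Z : Finset (ι → K), Rel δ D M Z → ∀ T : ℕ,
      Module.finrank K (monSpan M T (Z : Set (ι → K))) ≤ C * (T + 1) ^ D := by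
  classical
  intro M
  induction M using Finset.induction_on with
  | empty =>
    intro D
    refine ⟨1, fun Z _ T => ?_⟩
    have hle : monSpan (∅ : Finset ι) T (Z : Set (ι → K)) ≤
        Submodule.span K {((Z : Set (ι → K)).indicator fun _ => (1 : K))} := by
      refine (monSpan_le_monomials _ _ _).trans (Submodule.span_mono ?_)
      rintro f ⟨e, ⟨he, -⟩, rfl⟩
      rw [Finset.subset_empty, Finsupp.support_eq_empty] at he
      subst he
      simp
    refine (Submodule.finrank_mono hle).trans (le_trans ((finrank_span_le_card _).trans ?_)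
      (Nat.le_mul_of_pos_right 1 (pow_pos (Nat.succ_pos _) _)))
    simp
  | insert y M' hy ih =>
    intro D
    obtain ⟨C₁, hC₁⟩ := ih D
    obtain ⟨C₀, hC₀⟩ := ih (D - 1)
    set Sfam := M'.powersetCard D with hSfam
    refine ⟨C₀ + Sfam.card * (δ * (C₁ * (δ + 1) ^ D)), fun Z hZ T => ?_⟩
    have hP : ∀ S : Sfam, ∃ P : MvPolynomial ι K, P ≠ 0 ∧ P.vars ⊆ insert y (S : Finset ι) ∧
        P.totalDegree ≤ δ ∧ ∀ z ∈ Z, eval z P = 0 := by
      rintro ⟨S, hS⟩
      rw [hSfam, Finset.mem_powersetCard] at hS
      exact hZ (insert y S) (Finset.insert_subset_insert y hS.1)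
        (by rw [Finset.card_insert_of_notMem (fun h => hy (hS.1 h)), hS.2])
    choose P hP0 hPv hPd hPz using hP
    let ℓ : Sfam → MvPolynomial ι K := fun S =>
      rename Subtype.val (splitVar y (P S)).leadingCoeff
    have hℓv : ∀ S, (ℓ S).vars ⊆ (S : Finset ι) := fun S => by
      refine vars_rename_val _ _ (supported_mono ?_ (mem_supported_coeff_splitVar y (P S) _))
      intro x hx
      exact (Finset.mem_insert.1 (hPv S hx)).resolve_left x.2
    have hℓ0 : ∀ S, ℓ S ≠ 0 := fun S h0 => by
      have h1 := rename_injective _ Subtype.val_injective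
        (show rename Subtype.val (splitVar y (P S)).leadingCoeff = rename Subtype.val 0 by
          rw [map_zero]; exact h0)
      rw [Polynomial.leadingCoeff_eq_zero, map_eq_zero_iff _ (splitVar y).injective] at h1
      exact hP0 S h1
    have hℓd : ∀ S, (ℓ S).totalDegree ≤ δ := fun S =>
      (totalDegree_rename_le _ _).trans ((totalDegree_coeff_splitVar y _ _).trans (hPd S))
    let lab : (ι → K) → Option Sfam := fun z =>
      if h : ∃ S, eval z (ℓ S) ≠ 0 then some h.choose else none
    let Zs : Sfam → Finset (ι → K) := fun S => Z.filter fun z => lab z = some S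
    have hne' : ∀ S, ∀ z ∈ Zs S, eval z (ℓ S) ≠ 0 := by
      intro S z hz
      obtain ⟨-, hz2⟩ := Finset.mem_filter.1 hz
      simp only [lab] at hz2
      split at hz2
      · rename_i h
        rw [← Option.some.inj hz2]
        exact h.choose_spec
      · exact absurd hz2 (by simp)
    let Z0 : Finset (ι → K) := Z.filter fun z => ∀ S, eval z (ℓ S) = 0
    -- the part where all leading coefficients vanish
    have h0 : Module.finrank K (monSpan (insert y M') T (Z0 : Set (ι → K))) ≤
        C₀ * (T + 1) ^ D := by
      rcases Nat.eq_zero_or_pos D with hD | hD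
      · have hZ0 : Z0 = ∅ := by
          refine Finset.filter_eq_empty_iff.2 fun z _ hz => ?_
          have hS : (∅ : Finset ι) ∈ Sfam := by simp [hSfam, hD]
          have h1 := hz ⟨∅, hS⟩
          have h2 : ℓ ⟨∅, hS⟩ ∈ supported K (∅ : Set ι) := by
            rw [mem_supported]
            simpa using hℓv ⟨∅, hS⟩
          rw [supported_empty, Algebra.mem_bot] at h2
          obtain ⟨c, hc⟩ := h2
          rw [← hc, algebraMap_eq, eval_C] at h1
          exact hℓ0 ⟨∅, hS⟩ (by rw [← hc, h1, map_zero])
        have : monSpan (insert y M') T (Z0 : Set (ι → K)) = ⊥ := by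
          rw [monSpan, Submodule.span_eq_bot]
          rintro f ⟨Q, -, rfl⟩
          funext z
          simp [hZ0]
        rw [this, finrank_bot]
        exact Nat.zero_le _
      have hrel : Rel δ (D - 1) M' Z0 := by
        intro U hU hUc
        have hS : U ∈ Sfam := Finset.mem_powersetCard.2 ⟨hU, by omega⟩
        exact ⟨ℓ ⟨U, hS⟩, hℓ0 _, hℓv _, hℓd _, fun z hz => (Finset.mem_filter.1 hz).2 _⟩
      let W : Fin (T + 1) → Submodule K ((ι → K) → K) := fun j =>
        (monSpan M' T (Z0 : Set (ι → K))).map
          (LinearMap.mulLeft K fun z : ι → K => z y ^ (j : ℕ))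
      have hle : monSpan (insert y M') T (Z0 : Set (ι → K)) ≤ Finset.univ.sup W := by
        refine (monSpan_le_monomials _ _ _).trans (Submodule.span_le.2 ?_)
        rintro f ⟨e, ⟨hes, hed⟩, rfl⟩
        have hey : e y ≤ T := by
          by_cases h : y ∈ e.support
          · exact (Finset.single_le_sum (f := fun j => e j) (fun _ _ => Nat.zero_le _) h).trans hed
          · simp [Finsupp.notMem_support_iff.1 h]
        refine (Finset.le_sup (f := W) (Finset.mem_univ ⟨e y, Nat.lt_succ_iff.2 hey⟩)) ?_
        refine ⟨(Z0 : Set (ι → K)).indicator fun z => eval z (monomial (e.erase y) (1 : K)),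
          mem_monSpan _ ?_ ?_, ?_⟩
        · rw [vars_monomial one_ne_zero, Finsupp.support_erase]
          intro i hi
          rw [Finset.mem_erase] at hi
          exact (Finset.mem_insert.1 (hes hi.2)).resolve_left hi.1
        · rw [totalDegree_monomial _ one_ne_zero]
          refine le_trans ?_ hed
          have h1 := Finsupp.add_sum_erase' e y (fun _ n => n) (fun _ => rfl)
          omega
        · funext z
          by_cases hz : z ∈ (Z0 : Set (ι → K))
          · simp only [LinearMap.mulLeft_apply, Pi.mul_apply, Set.indicator_of_mem hz]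
            rw [eval_monomial_erase y e z]
          · simp [LinearMap.mulLeft_apply, Set.indicator_of_notMem hz]
      obtain ⟨hfd, hsum⟩ := finrank_finsetSum_le Finset.univ W fun j => inferInstance
      refine (Submodule.finrank_mono hle).trans (hsum.trans ?_)
      refine (Finset.sum_le_sum fun j _ => Submodule.finrank_map_le _ _).trans ?_
      simp only [Finset.sum_const, Finset.card_univ, Fintype.card_fin, smul_eq_mul]
      calc (T + 1) * Module.finrank K (monSpan M' T (Z0 : Set (ι → K)))
          ≤ (T + 1) * (C₀ * (T + 1) ^ (D - 1)) := Nat.mul_le_mul_left _ (hC₀ Z0 hrel T)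
        _ = C₀ * (T + 1) ^ (D - 1 + 1) := by ring
        _ = C₀ * (T + 1) ^ D := by rw [Nat.sub_add_cancel hD]
    -- the parts where a leading coefficient does not vanish
    have hs : ∀ S, Module.finrank K (monSpan (insert y M') T (Zs S : Set (ι → K))) ≤
        δ * (C₁ * (δ + 1) ^ D) * (T + 1) ^ D := by
      intro S
      set A := splitVar y (P S) with hA
      set r := A.natDegree with hr
      have hrδ : r ≤ δ := by
        rw [hr, hA, natDegree_splitVar]; exact (degreeOf_le_totalDegree _ _).trans (hPd S)
      set co : ℕ → MvPolynomial ι K := fun i => rename Subtype.val (A.coeff i) with hco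
      have hcov : ∀ i, (co i).vars ⊆ M' := fun i => by
        refine (vars_rename_val _ (S : Finset ι) (supported_mono ?_
          (mem_supported_coeff_splitVar y (P S) i))).trans (Finset.mem_powersetCard.1 S.2).1
        intro x hx
        exact (Finset.mem_insert.1 (hPv S hx)).resolve_left x.2
      have hcod : ∀ i, (co i).totalDegree ≤ δ := fun i =>
        (totalDegree_rename_le _ _).trans ((totalDegree_coeff_splitVar y _ _).trans (hPd S))
      -- reduction of powers of `y`
      have hred : ∀ j : ℕ, ∃ Q : ℕ → MvPolynomial ι K,
          (∀ i, (Q i).vars ⊆ M' ∧ (Q i).totalDegree ≤ j * δ) ∧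
          ∀ z ∈ Zs S, eval z (ℓ S) ^ j * z y ^ j = ∑ i ∈ range r, z y ^ i * eval z (Q i) := by
        have hlead : ∀ z ∈ Zs S,
            eval z (ℓ S) * z y ^ r = -∑ i ∈ range r, z y ^ i * eval z (co i) := by
          intro z hz
          obtain ⟨hzZ, -⟩ := Finset.mem_filter.1 hz
          have h1 := eval_splitVar y z (P S)
          rw [hPz S z hzZ, Polynomial.eval_map, Polynomial.eval₂_eq_sum_range,
            Finset.sum_range_succ] at h1
          rw [eq_neg_iff_add_eq_zero]
          refine Eq.trans ?_ h1.symm
          rw [add_comm]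
          refine congrArg₂ (· + ·) (Finset.sum_congr rfl fun i _ => ?_) ?_
          · rw [hco]; simp only [eval_rename]; rw [mul_comm]; rfl
          · simp only [ℓ, eval_rename, Polynomial.leadingCoeff]; rfl
        have hr1 : ∀ z ∈ Zs S, 1 ≤ r := by
          intro z hz
          by_contra hc
          have h1 := hlead z hz
          rw [show r = 0 by omega] at h1
          simp at h1
          exact hne' S z hz h1
        intro j
        induction j with
        | zero =>
          refine ⟨fun i => if i = 0 then 1 else 0, fun i => ?_, fun z hz => ?_⟩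
          · by_cases h : i = 0 <;> simp [h]
          · have := hr1 z hz
            rw [Finset.sum_eq_single 0] <;> simp (config := { contextual := true })
            omega
        | succ j ihj =>
          obtain ⟨Q, hQ, hQz⟩ := ihj
          refine ⟨fun i => (if i = 0 then 0 else ℓ S * Q (i - 1)) - Q (r - 1) * co i,
            fun i => ⟨?_, ?_⟩, fun z hz => ?_⟩
          · refine (vars_sub_subset _).trans (Finset.union_subset ?_ ((vars_mul _ _).trans
              (Finset.union_subset (hQ _).1 (hcov _))))
            split
            · simp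
            · exact (vars_mul _ _).trans (Finset.union_subset
                ((hℓv S).trans (Finset.mem_powersetCard.1 S.2).1) (hQ _).1)
          · rw [Nat.succ_mul]
            refine (totalDegree_sub _ _).trans (max_le ?_ ((totalDegree_mul _ _).trans
              (add_le_add (hQ _).2 (hcod _))))
            split
            · simp
            · refine (totalDegree_mul _ _).trans ?_
              have := (hQ (i - 1)).2
              have := hℓd S
              omega
          · have := hr1 z hz
            obtain ⟨r', hr'⟩ : ∃ r', r = r' + 1 := ⟨r - 1, by omega⟩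
            have h1 := hQz z hz
            have h2 := hlead z hz
            rw [pow_succ, pow_succ, show eval z (ℓ S) ^ j * eval z (ℓ S) * (z y ^ j * z y) =
              (eval z (ℓ S) ^ j * z y ^ j) * (eval z (ℓ S) * z y) by ring, h1, hr']
            rw [hr', pow_succ, eq_neg_iff_add_eq_zero, Finset.sum_range_succ'] at h2
            simp only [map_sub, map_mul, mul_sub, Finset.sum_sub_distrib, Nat.add_sub_cancel]
            conv_rhs => arg 1; rw [Finset.sum_range_succ']
            rw [Finset.sum_range_succ (n := r'), add_mul, Finset.sum_mul]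
            simp only [Nat.add_one_sub_one, if_true, map_zero, mul_zero, add_zero, map_mul,
              Nat.succ_ne_zero, if_false]
            rw [Finset.sum_range_succ']
            have e1 : ∑ i ∈ range r', z y ^ (i + 1) * (eval z (ℓ S) * eval z (Q i)) =
                ∑ i ∈ range r', z y ^ i * eval z (Q i) * (eval z (ℓ S) * z y) :=
              Finset.sum_congr rfl fun i _ => by ring
            have e2 : ∑ i ∈ range r', z y ^ (i + 1) * (eval z (Q r') * eval z (co (i + 1))) =
                eval z (Q r') * ∑ i ∈ range r', z y ^ (i + 1) * eval z (co (i + 1)) := by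
              rw [Finset.mul_sum]; exact Finset.sum_congr rfl fun i _ => by ring
            rw [e1, e2]
            linear_combination (eval z (Q r')) * h2
      choose Q hQv hQz using hred
      let g : (ι → K) → K := fun z => (eval z (ℓ S) ^ T)⁻¹
      let W : Fin r → Submodule K ((ι → K) → K) := fun i =>
        (monSpan M' (T + T * δ) (Zs S : Set (ι → K))).map
          (LinearMap.mulLeft K fun z : ι → K => z y ^ (i : ℕ) * g z)
      have hle : monSpan (insert y M') T (Zs S : Set (ι → K)) ≤ Finset.univ.sup W := by
        refine (monSpan_le_monomials _ _ _).trans (Submodule.span_le.2 ?_)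
        rintro f ⟨e, ⟨hes, hed⟩, rfl⟩
        set j := e y with hj
        have hsum := Finsupp.add_sum_erase' e y (fun _ n => n) (fun _ => rfl)
        have hjT : j + (e.erase y).sum (fun _ n => n) ≤ T := by omega
        have hf : ((Zs S : Set (ι → K)).indicator fun z => eval z (monomial e (1 : K))) =
            ∑ i : Fin r, (fun z : ι → K => z y ^ (i : ℕ) * g z) *
              ((Zs S : Set (ι → K)).indicator fun z =>
                eval z (monomial (e.erase y) 1 * ℓ S ^ (T - j) * Q j i)) := by
          funext z
          rw [Finset.sum_apply]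
          by_cases hz : z ∈ Zs S
          · simp only [Pi.mul_apply, Set.indicator_of_mem (Finset.mem_coe.2 hz), map_mul, map_pow]
            have hne : eval z (ℓ S) ≠ 0 := hne' S z hz
            have h1 := hQz j z hz
            rw [← Fin.sum_univ_eq_sum_range] at h1
            calc eval z (monomial e 1)
                = g z * eval z (monomial (e.erase y) 1) * eval z (ℓ S) ^ (T - j) *
                    (eval z (ℓ S) ^ j * z y ^ j) := by
                  rw [eval_monomial_erase y e z, ← hj]
                  have e3 : eval z (ℓ S) ^ (T - j) * eval z (ℓ S) ^ j = eval z (ℓ S) ^ T := by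
                    rw [← pow_add]; congr 1; omega
                  have hne' := pow_ne_zero T hne
                  simp only [g]
                  field_simp
                  rw [← e3]; ring
              _ = _ := by
                  rw [h1, Finset.mul_sum]
                  exact Finset.sum_congr rfl fun i _ => by ring
          · simp [Set.indicator_of_notMem (show z ∉ (Zs S : Set (ι → K)) from hz)]
        rw [SetLike.mem_coe]
        show ((Zs S : Set (ι → K)).indicator fun z => eval z (monomial e (1 : K))) ∈ _
        rw [hf]
        refine Submodule.sum_mem _ fun i _ =>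
          (Finset.le_sup (f := W) (Finset.mem_univ i)) ⟨_, mem_monSpan _ ?_ ?_, rfl⟩
        · refine (vars_mul _ _).trans (Finset.union_subset ((vars_mul _ _).trans
            (Finset.union_subset ?_ ((vars_pow _ _).trans
              ((hℓv S).trans (Finset.mem_powersetCard.1 S.2).1)))) (hQv j i).1)
          rw [vars_monomial one_ne_zero, Finsupp.support_erase]
          intro k hk
          rw [Finset.mem_erase] at hk
          exact (Finset.mem_insert.1 (hes hk.2)).resolve_left hk.1
        · refine (totalDegree_mul _ _).trans ?_
          refine (add_le_add ((totalDegree_mul _ _).trans (add_le_add le_rfl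
            (totalDegree_pow _ _))) (hQv j i).2).trans ?_
          rw [totalDegree_monomial _ one_ne_zero]
          have h1 : (T - j) * (ℓ S).totalDegree ≤ (T - j) * δ := Nat.mul_le_mul_left _ (hℓd S)
          have h2 : (T - j) * δ + j * δ = T * δ := by rw [← add_mul]; congr 1; omega
          omega
      have hrel : Rel δ D M' (Zs S) := fun U hU hUc => by
        obtain ⟨P', a, b, c, h⟩ := hZ U (hU.trans (Finset.subset_insert _ _)) hUc
        exact ⟨P', a, b, c, fun z hz => h z (Finset.mem_filter.1 hz).1⟩
      obtain ⟨hfd, hsum⟩ := finrank_finsetSum_le Finset.univ W fun i => inferInstance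
      refine (Submodule.finrank_mono hle).trans (hsum.trans ?_)
      refine (Finset.sum_le_sum fun i _ => (Submodule.finrank_map_le _ _).trans
        (hC₁ (Zs S) hrel (T + T * δ))).trans ?_
      simp only [Finset.sum_const, Finset.card_univ, Fintype.card_fin, smul_eq_mul]
      calc r * (C₁ * (T + T * δ + 1) ^ D) ≤ δ * (C₁ * ((δ + 1) * (T + 1)) ^ D) := by
            refine Nat.mul_le_mul hrδ (Nat.mul_le_mul_left _ (Nat.pow_le_pow_left ?_ _))
            nlinarith
        _ = _ := by rw [mul_pow]; ring
    let W : Option Sfam → Submodule K ((ι → K) → K) := fun o =>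
      o.elim (monSpan (insert y M') T (Z0 : Set (ι → K)))
        fun S => monSpan (insert y M') T (Zs S : Set (ι → K))
    have hle : monSpan (insert y M') T (Z : Set (ι → K)) ≤ Finset.univ.sup W := by
      rw [monSpan, Submodule.span_le]
      rintro f ⟨Q, hQ, rfl⟩
      have hf : ((Z : Set (ι → K)).indicator fun z => eval z Q) = ∑ o : Option Sfam,
          ((Z.filter fun z => lab z = o : Finset _) : Set (ι → K)).indicator fun z => eval z Q := by
        funext z
        rw [Finset.sum_apply, Finset.sum_eq_single (lab z)]
        · by_cases hz : z ∈ Z <;> simp [Set.indicator, hz]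
        · intro o _ ho
          simp [Set.indicator, Ne.symm ho]
        · simp
      rw [SetLike.mem_coe]
      show ((Z : Set (ι → K)).indicator fun z => eval z Q) ∈ _
      rw [hf]
      refine Submodule.sum_mem _ fun o _ => (Finset.le_sup (f := W) (Finset.mem_univ o)) ?_
      cases o with
      | none =>
        have e : (Z.filter fun z => lab z = none) = Z0 := by
          refine Finset.filter_congr fun z _ => ?_
          simp [lab]
        rw [e]
        exact mem_monSpan Q hQ.1 hQ.2
      | some S => exact mem_monSpan Q hQ.1 hQ.2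
    obtain ⟨hfd, hsum⟩ := finrank_finsetSum_le Finset.univ W fun o => by
      cases o <;> exact monSpan_finite _ _ _
    refine (Submodule.finrank_mono hle).trans (hsum.trans ?_)
    rw [Fintype.sum_option]
    refine (add_le_add h0 (Finset.sum_le_sum fun S _ => hs S)).trans (le_of_eq ?_)
    simp only [Finset.sum_const, Finset.card_univ, Fintype.card_coe, smul_eq_mul]
    ring

/-- Any `D + 1` affine forms satisfy a relation of bounded degree. -/
theorem exists_relation_forms [Fintype ι] [DecidableEq ι] (δ D : ℕ) :
    ∃ δ' : ℕ, ∀ Z : Finset (ι → K), Rel δ D univ Z →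
      ∀ φ : Fin (D + 1) → MvPolynomial ι K, (∀ j, (φ j).totalDegree ≤ 1) →
      ∃ P : MvPolynomial (Fin (D + 1)) K, P ≠ 0 ∧ P.totalDegree ≤ δ' ∧
        ∀ z ∈ Z, eval (fun j => eval z (φ j)) P = 0 := by
  classical
  obtain ⟨C, hC⟩ := finrank_monSpan_le (K := K) δ (univ : Finset ι) D
  set τ := C * (D + 1) ^ D with hτ
  refine ⟨(D + 1) * τ, fun Z hZ φ hφ => ?_⟩
  let expo : (Fin (D + 1) → Fin (τ + 1)) → (Fin (D + 1) →₀ ℕ) := fun e =>
    Finsupp.equivFunOnFinite.symm fun j => (e j : ℕ)
  have hexpo : Function.Injective expo := fun e e' h => by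
    funext j
    have := DFunLike.congr_fun h j
    simpa [expo, Fin.ext_iff] using this
  let f : (Fin (D + 1) → Fin (τ + 1)) → (ι → K) → K := fun e =>
    (Z : Set (ι → K)).indicator fun z => eval z (∏ j, φ j ^ (e j : ℕ))
  have hmem : ∀ e, f e ∈ monSpan (univ : Finset ι) ((D + 1) * τ) (Z : Set (ι → K)) := fun e => by
    refine mem_monSpan _ (Finset.subset_univ _) ((totalDegree_finsetProd _ _).trans ?_)
    refine (Finset.sum_le_sum (g := fun _ => τ) fun j _ => ?_).trans (by simp)
    refine (totalDegree_pow _ _).trans ?_
    calc (e j : ℕ) * (φ j).totalDegree ≤ τ * 1 :=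
          Nat.mul_le_mul (Nat.lt_succ_iff.1 (e j).2) (hφ j)
      _ = τ := mul_one _
  have hdep : ¬ LinearIndependent K fun e =>
      (⟨f e, hmem e⟩ : monSpan (univ : Finset ι) ((D + 1) * τ) (Z : Set (ι → K))) := by
    intro hli
    have h1 := hli.fintype_card_le_finrank
    rw [Fintype.card_fun, Fintype.card_fin, Fintype.card_fin] at h1
    have h2 := hC Z hZ ((D + 1) * τ)
    have h3 : C * ((D + 1) * τ + 1) ^ D < (τ + 1) ^ (D + 1) := by
      calc C * ((D + 1) * τ + 1) ^ D ≤ C * ((D + 1) * (τ + 1)) ^ D := by
            refine Nat.mul_le_mul_left _ (Nat.pow_le_pow_left ?_ _)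
            nlinarith
        _ = τ * (τ + 1) ^ D := by rw [hτ, mul_pow]; ring
        _ < (τ + 1) * (τ + 1) ^ D := by
            have : 0 < (τ + 1) ^ D := pow_pos (Nat.succ_pos _) _
            nlinarith
        _ = (τ + 1) ^ (D + 1) := by ring
    omega
  obtain ⟨c, hc, e₀, he₀⟩ := Fintype.not_linearIndependent_iff.1 hdep
  refine ⟨∑ e, monomial (expo e) (c e), ?_, ?_, fun z hz => ?_⟩
  · intro h0
    have h1 := congrArg (fun P : MvPolynomial (Fin (D + 1)) K => P.coeff (expo e₀)) h0
    simp only [coeff_sum, coeff_monomial, coeff_zero] at h1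
    rw [Finset.sum_eq_single e₀ (fun e _ he => if_neg fun h => he (hexpo h)) (by simp)] at h1
    simp at h1
    exact he₀ h1
  · refine (totalDegree_finsetSum _ _).trans (Finset.sup_le fun e _ => ?_)
    refine le_trans (totalDegree_monomial_le _ _) ?_
    rw [Finsupp.sum_fintype _ _ (fun _ => rfl)]
    refine (Finset.sum_le_sum (g := fun _ => τ) fun j _ => ?_).trans (by simp)
    simpa [expo] using Nat.lt_succ_iff.1 (e j).2
  · have h1 := congrArg (fun v : monSpan (univ : Finset ι) ((D + 1) * τ) (Z : Set (ι → K)) =>
      (v : (ι → K) → K) z) hc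
    simp only [f, Submodule.coe_sum, Submodule.coe_smul, Submodule.coe_zero, Finset.sum_apply,
      Pi.smul_apply, Pi.zero_apply, smul_eq_mul, Set.indicator_of_mem (Finset.mem_coe.2 hz),
      map_prod, map_pow] at h1
    rw [map_sum]
    refine Eq.trans (Finset.sum_congr rfl fun e _ => ?_) h1
    rw [eval_monomial, Finsupp.prod_fintype _ _ (fun _ => pow_zero _)]
    simp [expo]

end Vale.Agent.P018
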