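import Mathlib

/-!
# Points of a finite grid satisfying all relations among few coordinates
-/

namespace Vale.Agent.P018

open MvPolynomial

/-- A relation among the coordinates in `S`, of total degree at most `Δ`, vanishing on `A`. -/
def HasRelation {F : Type*} [Field F] {m : ℕ} (A : Finset (Fin m → F)) (S : Finset (Fin m))
    (Δ : ℕ) : Prop :=
  ∃ P : MvPolynomial (Fin m) F, P ≠ 0 ∧ (∀ e ∈ P.support, ∀ i, i ∉ S → e i = 0) ∧
    P.totalDegree ≤ Δ ∧ ∀ x ∈ A, MvPolynomial.eval x P = 0

/-- The constant in `card_le_of_relations`. -/
def gridConst (Δ : ℕ) : ℕ → ℕ → ℕ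
  | 0, _ => 1
  | m + 1, 0 => Δ * gridConst Δ m 0
  | m + 1, j + 1 => Δ * gridConst Δ m (j + 1) + gridConst Δ m j

theorem card_le_of_relations {F : Type*} [Field F] (E : Finset F) (hE : 1 ≤ E.card) (Δ : ℕ) :
    ∀ (m j : ℕ) (A : Finset (Fin m → F)), (∀ x ∈ A, ∀ i, x i ∈ E) →
      (∀ S : Finset (Fin m), S.card = j + 1 → HasRelation A S Δ) →
      A.card ≤ gridConst Δ m j * E.card ^ j := by
  classical
  intro m
  induction m with
  | zero =>
    intro j A _ _
    calc A.card ≤ 1 := Finset.card_le_one.2 fun x _ y _ => Subsingleton.elim x y
      _ ≤ E.card ^ j := Nat.one_le_pow _ _ hE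
      _ = gridConst Δ 0 j * E.card ^ j := by simp [gridConst]
  | succ m ih =>
    intro j A hA hrel
    set A' := A.image Fin.tail with hA'
    have hA'E : ∀ x ∈ A', ∀ i, x i ∈ E := by
      intro x hx i
      obtain ⟨y, hy, rfl⟩ := Finset.mem_image.1 hx
      exact hA y hy i.succ
    -- relations for `A'`
    have hA'rel : ∀ S : Finset (Fin m), S.card = j + 1 → HasRelation A' S Δ := by
      intro S hS
      obtain ⟨P, hP0, hPs, hPd, hPv⟩ := hrel (S.map (Fin.succEmb m)) (by simpa using hS)
      refine ⟨(finSuccEquiv F m P).coeff 0, ?_, ?_, ?_, ?_⟩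
      · intro h0
        obtain ⟨e, he⟩ := MvPolynomial.ne_zero_iff.1 hP0
        have he0 : e 0 = 0 := hPs e (mem_support_iff.2 he) 0 (by
          simp [Fin.succEmb, (Fin.succ_ne_zero _)])
        apply he
        have := congrArg (MvPolynomial.coeff (Finsupp.tail e)) h0
        rw [finSuccEquiv_coeff_coeff, coeff_zero] at this
        rwa [← he0, Finsupp.cons_tail] at this
      · intro e he i hi
        rw [mem_support_coeff_finSuccEquiv] at he
        have := hPs _ he i.succ (by simp [Fin.succEmb, hi])
        simpa using this
      · by_cases h : (finSuccEquiv F m P).coeff 0 = 0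
        · simp [h]
        · exact (le_of_eq (add_zero _).symm).trans
            ((totalDegree_coeff_finSuccEquiv_add_le P 0 h).trans hPd)
      · intro x hx
        obtain ⟨y, hy, rfl⟩ := Finset.mem_image.1 hx
        have hpoly : finSuccEquiv F m P = Polynomial.C ((finSuccEquiv F m P).coeff 0) := by
          refine Polynomial.eq_C_of_natDegree_eq_zero ?_
          rw [natDegree_finSuccEquiv, degreeOf_eq_sup]
          refine Nat.le_zero.1 (Finset.sup_le fun e he => ?_)
          exact le_of_eq (hPs e he 0 (by simp [Fin.succEmb, (Fin.succ_ne_zero _)]))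
        have := hPv y hy
        rw [← Fin.cons_self_tail y, eval_eq_eval_mv_eval', hpoly] at this
        simpa using this
    have h1 : A'.card ≤ gridConst Δ m j * E.card ^ j := ih j A' hA'E hA'rel
    -- the fibre is small unless all the slices vanish
    set good := A'.filter fun x => ∃ S : Finset (Fin m), S.card = j ∧
      ∃ P : MvPolynomial (Fin (m + 1)) F, P.totalDegree ≤ Δ ∧ (∀ y ∈ A, eval y P = 0) ∧
        (finSuccEquiv F m P).map (eval x) ≠ 0 with hgood
    have hfib_good : ∀ x ∈ good, (A.filter fun y => Fin.tail y = x).card ≤ Δ := by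
      intro x hx
      obtain ⟨-, S, -, P, hPd, hPv, hne⟩ := Finset.mem_filter.1 hx
      calc (A.filter fun y => Fin.tail y = x).card
          ≤ ((finSuccEquiv F m P).map (eval x)).roots.toFinset.card := by
            refine Finset.card_le_card_of_injOn (fun y => y 0) ?_ ?_
            · intro y hy
              rw [Finset.mem_coe, Finset.mem_filter] at hy
              rw [Finset.mem_coe, Multiset.mem_toFinset, Polynomial.mem_roots hne,
                Polynomial.IsRoot.def, ← eval_eq_eval_mv_eval', ← hy.2, Fin.cons_self_tail]
              exact hPv y hy.1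
            · intro y hy z hz h
              rw [Finset.mem_coe, Finset.mem_filter] at hy hz
              rw [← Fin.cons_self_tail y, ← Fin.cons_self_tail z, hy.2, hz.2]
              simp only at h
              rw [h]
        _ ≤ Multiset.card ((finSuccEquiv F m P).map (eval x)).roots := Multiset.toFinset_card_le _
        _ ≤ _ := Polynomial.card_roots' _
        _ ≤ (finSuccEquiv F m P).natDegree := Polynomial.natDegree_map_le
        _ ≤ Δ := by
            rw [natDegree_finSuccEquiv]
            exact (degreeOf_le_totalDegree P 0).trans hPd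
    have hfib_all : ∀ x, (A.filter fun y => Fin.tail y = x).card ≤ E.card := by
      intro x
      refine Finset.card_le_card_of_injOn (fun y => y 0) ?_ ?_
      · intro y hy
        rw [Finset.mem_coe, Finset.mem_filter] at hy
        exact hA y hy.1 0
      · intro y hy z hz h
        rw [Finset.mem_coe, Finset.mem_filter] at hy hz
        rw [← Fin.cons_self_tail y, ← Fin.cons_self_tail z, hy.2, hz.2]
        simp only at h
        rw [h]
    have hsplit : A.card ≤ Δ * good.card + E.card * (A' \ good).card := by
      rw [Finset.card_eq_sum_card_image Fin.tail A, ← hA',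
        ← Finset.sum_sdiff (Finset.filter_subset _ A' : good ⊆ A'), add_comm]
      refine add_le_add ?_ ?_
      · rw [mul_comm, ← smul_eq_mul]; exact Finset.sum_le_card_nsmul _ _ _ hfib_good
      · rw [mul_comm, ← smul_eq_mul]; exact Finset.sum_le_card_nsmul _ _ _ fun x _ => hfib_all x
    -- slices that vanish give relations one level lower
    have hbad_rel : ∀ S : Finset (Fin m), S.card = j →
        HasRelation (A' \ good) S Δ := by
      intro S hS
      obtain ⟨P, hP0, hPs, hPd, hPv⟩ := hrel (insert 0 (S.map (Fin.succEmb m))) (by
        rw [Finset.card_insert_of_notMem (by simp [Fin.succEmb, Fin.succ_ne_zero]),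
          Finset.card_map, hS])
      have hne : finSuccEquiv F m P ≠ 0 := by simpa using hP0
      obtain ⟨i, hi⟩ : ∃ i, (finSuccEquiv F m P).coeff i ≠ 0 := by
        by_contra! h
        exact hne (Polynomial.ext (by simpa using h))
      refine ⟨_, hi, ?_, ?_, ?_⟩
      · intro e he l hl
        rw [mem_support_coeff_finSuccEquiv] at he
        have := hPs _ he l.succ (by simp [Fin.succEmb, Fin.succ_ne_zero, hl])
        simpa using this
      · exact (Nat.le_add_right _ i).trans ((totalDegree_coeff_finSuccEquiv_add_le P i hi).trans hPd)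
      · intro x hx
        obtain ⟨hxA, hxg⟩ := Finset.mem_sdiff.1 hx
        by_contra hne'
        refine hxg (Finset.mem_filter.2 ⟨hxA, S, hS, P, hPd, hPv, fun h0 => hne' ?_⟩)
        have := congrArg (fun q => Polynomial.coeff q i) h0
        simpa [Polynomial.coeff_map] using this
    have hg : good.card ≤ gridConst Δ m j * E.card ^ j :=
      (Finset.card_le_card (Finset.filter_subset _ _)).trans h1
    rcases j with _ | j
    · have hbad : A' \ good = ∅ := by
        obtain ⟨P, hP0, hPs, -, hPv⟩ := hbad_rel ∅ rfl
        refine Finset.eq_empty_of_forall_notMem fun x hx => ?_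
        have hC : P = MvPolynomial.C (MvPolynomial.coeff 0 P) := by
          ext e
          rw [coeff_C]
          split_ifs with h
          · rw [← h]
          · by_contra hc
            exact h (Finsupp.ext fun i => (hPs e (mem_support_iff.2 hc) i (by simp)).symm)
        have := hPv x hx
        rw [hC, eval_C] at this
        apply hP0
        rw [hC, this, map_zero]
      rw [hbad, Finset.card_empty, mul_zero, add_zero] at hsplit
      calc A.card ≤ Δ * good.card := hsplit
        _ ≤ Δ * (gridConst Δ m 0 * E.card ^ 0) := Nat.mul_le_mul_left _ hg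
        _ = _ := by simp [gridConst]
    · have hb : (A' \ good).card ≤ gridConst Δ m j * E.card ^ j :=
        ih j _ (fun x hx => hA'E x (Finset.mem_sdiff.1 hx).1) hbad_rel
      calc A.card ≤ _ := hsplit
        _ ≤ Δ * (gridConst Δ m (j + 1) * E.card ^ (j + 1)) +
            E.card * (gridConst Δ m j * E.card ^ j) := by gcongr
        _ = _ := by simp only [gridConst]; ring

end Vale.Agent.P018
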