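import Mathlib
import Vale.Agent.P018.Defs

/-!
# Roots of the monicised polynomial and the points attached to large prime powers
-/

namespace Vale.Agent.P018

open NumberField Polynomial

theorem exists_rootData (f : ℤ[X]) {d : ℕ} (hd : 2 ≤ d) (hdeg : f.natDegree = d)
    (hf : Irreducible (f.map (Int.castRingHom ℚ))) :
    ∃ (L : Type) (_ : Field L) (_ : NumberField L) (D : RootData d L),
      ∀ x : ℤ, D.g.eval (f.leadingCoeff * x) = f.leadingCoeff ^ (d - 1) * f.eval x := by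
  classical
  set a := f.leadingCoeff with ha
  have hf0 : f ≠ 0 := by rintro rfl; simp at hdeg; omega
  have ha0 : a ≠ 0 := leadingCoeff_ne_zero.2 hf0
  set g := f.integralNormalization with hg
  have hd1 : 1 ≤ f.natDegree := by omega
  have hgm : g.Monic := monic_integralNormalization hf0
  have hgd : g.natDegree = d := by rw [hg, natDegree_integralNormalization, hdeg]
  have hevZ : ∀ x : ℤ, g.eval (a * x) = a ^ (d - 1) * f.eval x := by
    intro x
    have h := integralNormalization_eval₂_leadingCoeff_mul hd1 (RingHom.id ℤ) x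
    rw [hdeg, ← ha] at h
    exact h
  set φ := Int.castRingHom ℚ with hφ
  set fQ := f.map φ with hfQ
  set gQ := g.map φ with hgQ
  have haQ : (a : ℚ) ≠ 0 := by exact_mod_cast ha0
  have hfun : gQ = C ((a : ℚ) ^ (d - 1)) * fQ.comp (C ((a : ℚ)⁻¹) * X + C 0) := by
    refine Polynomial.funext fun x => ?_
    have h1 := integralNormalization_eval₂_leadingCoeff_mul hd1 φ ((a : ℚ)⁻¹ * x)
    rw [hdeg, ← ha] at h1
    rw [hgQ, hfQ, eval_mul, eval_C, eval_comp, eval_add, eval_mul, eval_C, eval_X, eval_C,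
      add_zero, eval_map, eval_map, hg]
    simpa [hφ, ← mul_assoc, mul_inv_cancel₀ haQ] using h1
  have hgirr : Irreducible gQ := by
    have : Invertible (a : ℚ)⁻¹ := invertibleOfNonzero (inv_ne_zero haQ)
    have h1 : Irreducible (fQ.comp (C ((a : ℚ)⁻¹) * X + C 0)) := by
      have := (MulEquiv.irreducible_iff (algEquivCMulXAddC ((a : ℚ)⁻¹) 0).toMulEquiv (x := fQ)).2 hf
      simpa [algEquivCMulXAddC, aeval_def, comp] using this
    rw [hfun]
    exact (irreducible_isUnit_mul (isUnit_C.2 (pow_ne_zero _ haQ).isUnit)).2 h1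
  let L := gQ.SplittingField
  have : NumberField L := {}
  set gL := g.map (algebraMap ℤ L) with hgL
  have hgL' : gL = gQ.map (algebraMap ℚ L) := by
    change g.map (algebraMap ℤ L) = (g.map φ).map (algebraMap ℚ L)
    rw [map_map]; congr 1
  have hspl : gL.Splits := by rw [hgL']; exact SplittingField.splits gQ
  have hsep : gL.Separable := by rw [hgL']; exact (hgirr.separable).map
  have hnd : gL.roots.Nodup := nodup_roots hsep
  have hgLm : gL.Monic := hgm.map _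
  have hcard : gL.roots.toFinset.card = d := by
    rw [Multiset.toFinset_card_of_nodup hnd, ← hspl.natDegree_eq_card_roots, hgL,
      hgm.natDegree_map, hgd]
  let e : Fin d ≃ gL.roots.toFinset := (gL.roots.toFinset.equivFinOfCardEq hcard).symm
  have hroot : ∀ i, aeval ((e i : L)) g = 0 := by
    intro i
    have h1 := Multiset.mem_toFinset.1 (e i).2
    rw [mem_roots hgLm.ne_zero, IsRoot.def] at h1
    change (g.map (algebraMap ℤ L)).eval (e i : L) = 0 at h1
    rwa [eval_map] at h1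
  let θ : Fin d → 𝓞 L := fun i => ⟨(e i : L), ⟨g, hgm, hroot i⟩⟩
  have hθ : ∀ i, ((θ i : 𝓞 L) : L) = (e i : L) := fun i => rfl
  have hinj : Function.Injective θ := fun i j h => by
    have := congrArg (fun x : 𝓞 L => (x : L)) h
    simp only [hθ] at this
    exact e.injective (Subtype.ext this)
  have hsplit : g.map (algebraMap ℤ (𝓞 L)) = ∏ i, (Polynomial.X - Polynomial.C (θ i)) := by
    apply Polynomial.map_injective (algebraMap (𝓞 L) L) RingOfIntegers.coe_injective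
    rw [map_map, Polynomial.map_prod,
      show (algebraMap (𝓞 L) L).comp (algebraMap ℤ (𝓞 L)) = algebraMap ℤ L from
        Subsingleton.elim _ _, ← hgL]
    simp only [Polynomial.map_sub, Polynomial.map_X, Polynomial.map_C]
    conv_lhs => rw [hspl.eq_prod_roots_of_monic hgLm, ← Multiset.toFinset_val gL.roots |>.trans
      (Multiset.dedup_eq_self.2 hnd)]
    rw [← Finset.prod_eq_multiset_prod, ← Finset.prod_coe_sort]
    exact (Fintype.prod_equiv e _ _ fun i => rfl).symm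
  have hindep : ∀ (i : Fin d) (c : Fin d → ℤ),
      (∑ l, (c l : 𝓞 L) * θ i ^ (l : ℕ)) = 0 → c = 0 := by
    intro i c hc
    set q : ℚ[X] := ∑ l : Fin d, C (c l : ℚ) * X ^ (l : ℕ) with hq
    have hroot' : aeval ((e i : L)) gQ = 0 := by
      change aeval ((e i : L)) (g.map φ) = 0
      rw [hφ, ← algebraMap_int_eq, aeval_map_algebraMap]
      exact hroot i
    have hmin : gQ = minpoly ℚ ((e i : L)) :=
      minpoly.eq_of_irreducible_of_monic hgirr hroot' (hgm.map _)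
    have hqroot : aeval ((e i : L)) q = 0 := by
      have h1 := congrArg (fun x : 𝓞 L => (x : L)) hc
      simp only [map_sum, map_mul, map_pow, map_intCast, map_zero, hθ] at h1
      simpa [hq] using h1
    have hq0 : q = 0 := by
      by_contra hne
      have h1 := natDegree_le_of_dvd (minpoly.dvd ℚ _ hqroot) hne
      rw [← hmin, show gQ.natDegree = d from
        (natDegree_map_eq_of_injective Int.cast_injective g).trans hgd] at h1
      have h2 : q.natDegree ≤ d - 1 := by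
        refine natDegree_sum_le_of_forall_le _ _ fun l _ => ?_
        exact (natDegree_C_mul_X_pow_le _ _).trans (by omega)
      omega
    funext l
    have h1 := congrArg (fun P : ℚ[X] => P.coeff (l : ℕ)) hq0
    simp only [hq, finsetSum_coeff, coeff_C_mul, coeff_X_pow, mul_ite, mul_one, mul_zero,
      coeff_zero] at h1
    rw [Finset.sum_eq_single l (fun b _ hb => by rw [if_neg]; exact fun h => hb (Fin.ext h.symm))
      (by simp)] at h1
    simpa using h1
  exact ⟨L, inferInstance, inferInstance, ⟨g, hgm, hgd, θ, hinj, hsplit, hindep⟩, hevZ⟩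

variable {d : ℕ} {L : Type} [Field L] [NumberField L]

lemma natAbs_norm_eq_prod (x : 𝓞 L) :
    (((Algebra.norm ℤ x).natAbs : ℕ) : ℝ) = ∏ σ : L →+* ℂ, ‖σ (x : L)‖ := by
  have h1 := Algebra.norm_eq_prod_embeddings (K := ℚ) (L := L) ℂ (x : L)
  rw [← Algebra.coe_norm_int] at h1
  have h2 : ((Algebra.norm ℤ x : ℤ) : ℂ) = ∏ σ : L →ₐ[ℚ] ℂ, σ (x : L) := by
    rw [← h1]; simp
  rw [Nat.cast_natAbs, Int.cast_abs, ← Complex.norm_intCast, h2, norm_prod]
  exact Fintype.prod_equiv (RingHom.equivRatAlgHom L ℂ).symm _ _ fun σ => rfl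

/-- The point attached to a large prime power dividing `g m`. -/
theorem exists_point (D : RootData d L) {k : ℕ} (hk : 1 ≤ k) :
    ∃ (R : ℤ) (C : ℝ), R ≠ 0 ∧ 1 ≤ C ∧ ∀ (m : ℤ) (M : ℝ) (p : ℕ), p.Prime → C < p →
      |(m : ℝ)| ≤ M → 1 ≤ M → (p : ℤ) ^ k ∣ D.g.eval m →
      ∃ z : Pt d L, z.m = m ∧ D.IsPt k R z ∧
        (∀ l, |(z.c l : ℝ)| ≤ C * (p : ℝ) ^ (1 / (d : ℝ))) ∧
        (∀ (φ : L →+* ℂ) i, ‖φ (D.ρ z i : L)‖ ≤ C * (p : ℝ) ^ (1 / (d : ℝ))) ∧
        (∀ (φ : L →+* ℂ) i, ‖φ (z.μ i : L)‖ ≤ C * M / (p : ℝ) ^ ((k : ℝ) / (d : ℝ))) ∧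
        (p : 𝓞 L) ∣ ∏ i, D.ρ z i ∧
        (∀ Q : ℕ, Nat.Coprime Q p → (∀ q : ℕ, q.Prime → q ∣ Q → C < q) → D.Coprime Q z) := by
  classical
  set Θ := ∑ φ : L →+* ℂ, ∑ i, ‖φ (D.θ i : L)‖ with hΘ
  have hΘ0 : 0 ≤ Θ := by positivity
  set C2 : ℝ := 1 + ∑ φ : L →+* ℂ, ∑ i, ∑ l : Fin d, ‖φ (D.θ i : L)‖ ^ (l : ℕ) with hC2
  have hC21 : 1 ≤ C2 := le_add_of_nonneg_right (by positivity)
  set e := (Finset.univ : Finset (L →+* ℂ)).card with he
  set Kb := ⌊(C2 ^ d) ^ e⌋₊ with hKb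
  set R0 : ℕ := Kb.factorial with hR0
  have hR00 : (1 : ℝ) ≤ R0 := by exact_mod_cast Nat.factorial_pos _
  set C3 : ℝ := C2 ^ (d - 1) * (C2 ^ d) ^ (e - 1) with hC3
  have hC31 : 1 ≤ C3 := one_le_mul_of_one_le_of_one_le (one_le_pow₀ hC21)
    (one_le_pow₀ (one_le_pow₀ hC21))
  set C : ℝ := max C2 (max (R0 : ℝ) ((R0 : ℝ) ^ k * (1 + Θ) * C3 ^ k)) with hC
  have hC2C : C2 ≤ C := le_max_left _ _
  refine ⟨(R0 : ℤ) ^ k, C, pow_ne_zero _ (by exact_mod_cast (Nat.factorial_pos _).ne'),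
    hC21.trans hC2C, fun m M p hp hpC hm hM hdvd => ?_⟩
  have hp0 : (0 : ℝ) < p := by exact_mod_cast hp.pos
  have hd0 : 0 < d := by
    by_contra h
    push Not at h
    have hd0 : d = 0 := by omega
    have h1 : D.g = 1 := Polynomial.eq_one_of_monic_natDegree_zero D.monic (D.natDegree_eq.trans hd0)
    rw [h1, eval_one] at hdvd
    have h2 := Int.eq_one_of_dvd_one (by positivity) hdvd
    have h3 : p ^ k = 1 := by exact_mod_cast h2
    exact absurd h3 (Nat.one_lt_pow (by omega) hp.one_lt).ne'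
  set q := (p : ℝ) ^ (1 / (d : ℝ)) with hq
  have hq0 : 0 < q := Real.rpow_pos_of_pos hp0 _
  have hqd : q ^ d = p := by rw [hq, one_div, Real.rpow_inv_natCast_pow hp0.le hd0.ne']
  set B := ⌊q⌋₊ with hB
  have hBp : p < (B + 1) ^ d := by
    have h2 := pow_lt_pow_left₀ (Nat.lt_floor_add_one q) hq0.le hd0.ne'
    rw [hqd] at h2
    exact_mod_cast h2
  have : NeZero p := ⟨hp.ne_zero⟩
  obtain ⟨u, v, huv, heq⟩ := Fintype.exists_ne_map_eq_of_card_lt
    (fun c : Fin d → Fin (B + 1) => ((∑ l, ((c l : ℕ) : ℤ) * m ^ (l : ℕ) : ℤ) : ZMod p))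
    (by simpa [Fintype.card_fun, ZMod.card] using hBp)
  set c : Fin d → ℤ := fun l => ((u l : ℕ) : ℤ) - (v l : ℕ) with hc
  have hc0 : c ≠ 0 := by
    intro h
    apply huv
    funext l
    have := congrFun h l
    simp only [hc, Pi.zero_apply] at this
    exact Fin.ext (by omega)
  have hcB : ∀ l, |(c l : ℝ)| ≤ q := by
    intro l
    have h1 := (u l).isLt
    have h2 := (v l).isLt
    have : |c l| ≤ (B : ℤ) := by simp only [hc, abs_le]; omega
    calc |(c l : ℝ)| ≤ (B : ℝ) := by rw [← Int.cast_abs]; exact_mod_cast this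
      _ ≤ q := Nat.floor_le hq0.le
  have hcp : (p : ℤ) ∣ ∑ l, c l * m ^ (l : ℕ) := by
    rw [← ZMod.intCast_zmod_eq_zero_iff_dvd]
    simp only [hc, sub_mul, Finset.sum_sub_distrib, Int.cast_sub]
    exact sub_eq_zero.2 heq
  set ρ : Fin d → 𝓞 L := fun i => ∑ l, (c l : 𝓞 L) * D.θ i ^ (l : ℕ) with hρdef
  have hρ0 : ∀ i, ρ i ≠ 0 := fun i h => hc0 (D.indep i c h)
  set a : Fin d → 𝓞 L := fun i => (m : 𝓞 L) - D.θ i with hadef
  -- congruences
  have hga : (p : 𝓞 L) ^ k ∣ ∏ i, a i := by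
    have h1 : ∏ i, a i = ((D.g.eval m : ℤ) : 𝓞 L) := by
      calc ∏ i, a i = (∏ i, (Polynomial.X - Polynomial.C (D.θ i))).eval (m : 𝓞 L) := by
            simp [eval_prod, hadef]
        _ = (D.g.map (algebraMap ℤ (𝓞 L))).eval (m : 𝓞 L) := by rw [D.split]
        _ = _ := by rw [algebraMap_int_eq, eval_intCast_map]; rfl
    rw [h1]
    have h2 := (Int.castRingHom (𝓞 L)).map_dvd hdvd
    rw [map_pow] at h2
    simpa using h2
  have hρa : ∀ i, ∃ x : 𝓞 L, (p : 𝓞 L) ∣ ρ i - x * a i := by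
    intro i
    have h1 : a i ∣ ((∑ l, c l * m ^ (l : ℕ) : ℤ) : 𝓞 L) - ρ i := by
      rw [hρdef, Int.cast_sum, ← Finset.sum_sub_distrib]
      refine Finset.dvd_sum fun l _ => ?_
      push_cast
      rw [← mul_sub]
      exact (sub_dvd_pow_sub_pow (m : 𝓞 L) (D.θ i) _).mul_left _
    obtain ⟨x, hx⟩ := h1
    obtain ⟨y, hy⟩ := (Int.castRingHom (𝓞 L)).map_dvd hcp
    refine ⟨-x, y, ?_⟩
    change ((∑ l, c l * m ^ (l : ℕ) : ℤ) : 𝓞 L) = ((p : ℤ) : 𝓞 L) * y at hy
    rw [Int.cast_natCast] at hy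
    linear_combination (-1 : 𝓞 L) * hx + hy
  have hρk : ∀ i, ∃ x : 𝓞 L, (p : 𝓞 L) ^ k ∣ ρ i ^ k - x * a i := by
    intro i
    obtain ⟨x, y, hy⟩ := hρa i
    obtain ⟨w, hw⟩ := sub_dvd_pow_sub_pow ((p : 𝓞 L) * y + x * a i) ((p : 𝓞 L) * y) k
    refine ⟨x * w, y ^ k, ?_⟩
    rw [show ρ i = (p : 𝓞 L) * y + x * a i by linear_combination hy]
    linear_combination hw
  choose x hx using hρk
  choose x1 hx1 using hρa
  have hcongr : ∀ (P : 𝓞 L) (s : Finset (Fin d)) (A B : Fin d → 𝓞 L),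
      (∀ j ∈ s, P ∣ A j - B j) → P ∣ ∏ j ∈ s, A j - ∏ j ∈ s, B j := by
    intro P s A B h
    rw [← Ideal.mem_span_singleton, ← Ideal.Quotient.eq, map_prod, map_prod]
    exact Finset.prod_congr rfl fun j hj =>
      Ideal.Quotient.eq.2 (Ideal.mem_span_singleton.2 (h j hj))
  have hpN : (p : 𝓞 L) ∣ ∏ i, ρ i := by
    have h1 := hcongr (p : 𝓞 L) Finset.univ ρ (fun i => x1 i * a i) fun i _ => hx1 i
    rw [Finset.prod_mul_distrib] at h1
    have h2 : (p : 𝓞 L) ∣ (∏ i, x1 i) * ∏ i, a i :=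
      ((dvd_pow_self _ (by omega)).trans hga).mul_left _
    exact (dvd_sub_left h2).1 h1
  have hw : ∀ i, ∃ w : 𝓞 L, a i * ∏ j ∈ Finset.univ.erase i, ρ j ^ k = (p : 𝓞 L) ^ k * w := by
    intro i
    have h1 := (hcongr ((p : 𝓞 L) ^ k) (Finset.univ.erase i) (fun j => ρ j ^ k)
      (fun j => x j * a j) fun j _ => hx j).mul_left (a i)
    rw [mul_sub] at h1
    have h2 : (p : 𝓞 L) ^ k ∣ a i * ∏ j ∈ Finset.univ.erase i, x j * a j := by
      rw [Finset.prod_mul_distrib, mul_left_comm,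
        Finset.mul_prod_erase _ _ (Finset.mem_univ i)]
      exact hga.mul_left _
    exact (dvd_sub_left h2).1 h1
  obtain ⟨r, hr⟩ := hpN
  have hN0 : ∏ i, ρ i ≠ 0 := Finset.prod_ne_zero_iff.2 fun i _ => hρ0 i
  have hpne : (p : 𝓞 L) ≠ 0 := Nat.cast_ne_zero.2 hp.ne_zero
  have hr0 : r ≠ 0 := right_ne_zero_of_mul (hr ▸ hN0)
  have hρup : ∀ (φ : L →+* ℂ) i, ‖φ (ρ i : L)‖ ≤ C2 * q := by
    intro φ i
    simp only [hρdef, map_sum, map_mul, map_pow, map_intCast]
    refine (norm_sum_le _ _).trans ?_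
    calc ∑ l : Fin d, ‖(c l : ℂ) * φ (D.θ i : L) ^ (l : ℕ)‖
        ≤ ∑ l : Fin d, q * ‖φ (D.θ i : L)‖ ^ (l : ℕ) := by
          refine Finset.sum_le_sum fun l _ => ?_
          rw [norm_mul, Complex.norm_intCast, norm_pow]
          exact mul_le_mul_of_nonneg_right (hcB l) (by positivity)
      _ = q * ∑ l : Fin d, ‖φ (D.θ i : L)‖ ^ (l : ℕ) := (Finset.mul_sum _ _ _).symm
      _ ≤ q * C2 := by
          refine mul_le_mul_of_nonneg_left ?_ hq0.le
          have h1 := Finset.single_le_sum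
            (f := fun ψ : L →+* ℂ => ∑ j, ∑ l : Fin d, ‖ψ (D.θ j : L)‖ ^ (l : ℕ))
            (fun ψ _ => by positivity) (Finset.mem_univ φ)
          have h2 := Finset.single_le_sum
            (f := fun j : Fin d => ∑ l : Fin d, ‖φ (D.θ j : L)‖ ^ (l : ℕ))
            (fun j _ => by positivity) (Finset.mem_univ i)
          linarith
      _ = _ := mul_comm _ _
  have hrup : ∀ φ : L →+* ℂ, ‖φ (r : L)‖ ≤ C2 ^ d := by
    intro φ
    have h1 := congrArg (fun z : 𝓞 L => ‖φ (z : L)‖) hr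
    simp only [map_prod, map_mul, map_natCast, norm_prod, norm_mul, Complex.norm_natCast] at h1
    have h2 : ∏ i, ‖φ (ρ i : L)‖ ≤ C2 ^ d * p := by
      refine (Finset.prod_le_prod (fun i _ => norm_nonneg _) (fun i _ => hρup φ i)).trans
        (le_of_eq ?_)
      rw [Finset.prod_const, Finset.card_univ, Fintype.card_fin, mul_pow, hqd]
    rw [h1, mul_comm] at h2
    exact le_of_mul_le_mul_right h2 hp0
  set n0 := (Algebra.norm ℤ r).natAbs with hn0
  have hn0pos : 0 < n0 := Int.natAbs_pos.2 (Algebra.norm_ne_zero_iff.2 hr0)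
  have hn0le : n0 ≤ Kb := by
    refine Nat.le_floor ?_
    rw [natAbs_norm_eq_prod]
    refine (Finset.prod_le_prod (fun φ _ => norm_nonneg _) (fun φ _ => hrup φ)).trans (le_of_eq ?_)
    rw [Finset.prod_const]
  obtain ⟨s, hs⟩ : r ∣ (R0 : 𝓞 L) := by
    have h1 : r ∣ (n0 : 𝓞 L) := by
      rw [← Ideal.mem_span_singleton, hn0, ← Ideal.absNorm_span_singleton]
      exact Ideal.absNorm_mem _
    exact h1.trans (Nat.cast_dvd_cast (Nat.dvd_factorial hn0pos hn0le))
  choose w hw using hw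
  have hrel : ∀ i, (w i * s ^ k) * ρ i ^ k = ((((R0 : ℤ) ^ k : ℤ)) : 𝓞 L) * a i := by
    intro i
    have h1 : (p : 𝓞 L) ^ k * (w i * ρ i ^ k) = (p : 𝓞 L) ^ k * (a i * r ^ k) := by
      rw [← mul_assoc, ← hw, mul_assoc, mul_comm _ (ρ i ^ k),
        Finset.mul_prod_erase _ (fun j => ρ j ^ k) (Finset.mem_univ i), Finset.prod_pow, hr]
      ring
    have h2 := mul_left_cancel₀ (pow_ne_zero k hpne) h1
    push_cast
    calc w i * s ^ k * ρ i ^ k = s ^ k * (w i * ρ i ^ k) := by ring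
      _ = s ^ k * (a i * r ^ k) := by rw [h2]
      _ = (r * s) ^ k * a i := by ring
      _ = _ := by rw [hs]
  have hρlow : ∀ (φ : L →+* ℂ) i, q ≤ C3 * ‖φ (ρ i : L)‖ := by
    intro φ i
    have hrlow : (1 : ℝ) ≤ ‖φ (r : L)‖ * (C2 ^ d) ^ (e - 1) := by
      calc (1 : ℝ) ≤ (n0 : ℝ) := by exact_mod_cast hn0pos
        _ = ‖φ (r : L)‖ * ∏ ψ ∈ Finset.univ.erase φ, ‖ψ (r : L)‖ := by
            rw [natAbs_norm_eq_prod, Finset.mul_prod_erase _ (fun ψ : L →+* ℂ => ‖ψ (r : L)‖)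
              (Finset.mem_univ φ)]
        _ ≤ _ := by
            refine mul_le_mul_of_nonneg_left ((Finset.prod_le_prod (fun ψ _ => norm_nonneg _)
              (fun ψ _ => hrup ψ)).trans (le_of_eq ?_)) (norm_nonneg _)
            rw [Finset.prod_const, Finset.card_erase_of_mem (Finset.mem_univ φ)]
    have h1 := congrArg (fun z : 𝓞 L => ‖φ (z : L)‖) hr
    simp only [map_prod, map_mul, map_natCast, norm_prod, norm_mul, Complex.norm_natCast] at h1
    have h2 : (p : ℝ) * ‖φ (r : L)‖ ≤ ‖φ (ρ i : L)‖ * (C2 * q) ^ (d - 1) := by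
      rw [← h1, ← Finset.mul_prod_erase _ (fun j => ‖φ (ρ j : L)‖) (Finset.mem_univ i)]
      refine mul_le_mul_of_nonneg_left ((Finset.prod_le_prod (fun j _ => norm_nonneg _)
        (fun j _ => hρup φ j)).trans (le_of_eq ?_)) (norm_nonneg _)
      rw [Finset.prod_const, Finset.card_erase_of_mem (Finset.mem_univ i), Finset.card_univ,
        Fintype.card_fin]
    have h3 : (p : ℝ) ≤ C3 * ‖φ (ρ i : L)‖ * q ^ (d - 1) := by
      calc (p : ℝ) = p * 1 := (mul_one _).symm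
        _ ≤ p * (‖φ (r : L)‖ * (C2 ^ d) ^ (e - 1)) := by gcongr
        _ = (p * ‖φ (r : L)‖) * (C2 ^ d) ^ (e - 1) := by ring
        _ ≤ (‖φ (ρ i : L)‖ * (C2 * q) ^ (d - 1)) * (C2 ^ d) ^ (e - 1) := by gcongr
        _ = _ := by rw [hC3, mul_pow]; ring
    rw [← hqd, show d = (d - 1) + 1 by omega, pow_succ'] at h3
    simp only [Nat.add_sub_cancel] at h3
    exact le_of_mul_le_mul_right h3 (pow_pos hq0 _)
  have hrelnorm : ∀ (φ : L →+* ℂ) i, ‖φ ((w i * s ^ k : 𝓞 L) : L)‖ * ‖φ (ρ i : L)‖ ^ k ≤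
      (R0 : ℝ) ^ k * (1 + Θ) * M := by
    intro φ i
    have h1 := congrArg (fun z : 𝓞 L => ‖φ (z : L)‖) (hrel i)
    simp only [hadef, map_mul, map_pow, map_sub, map_intCast, Int.cast_pow, Int.cast_natCast,
      map_natCast, norm_mul, norm_pow, Complex.norm_natCast] at h1 ⊢
    rw [h1, mul_assoc ((R0 : ℝ) ^ k)]
    refine mul_le_mul_of_nonneg_left ((norm_sub_le _ _).trans ?_) (by positivity)
    rw [Complex.norm_intCast]
    have h2 : ‖φ (D.θ i : L)‖ ≤ Θ :=
      (Finset.single_le_sum (f := fun j => ‖φ (D.θ j : L)‖) (fun _ _ => norm_nonneg _)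
        (Finset.mem_univ i)).trans (Finset.single_le_sum
          (f := fun ψ : L →+* ℂ => ∑ j, ‖ψ (D.θ j : L)‖) (fun _ _ => by positivity)
          (Finset.mem_univ φ))
    nlinarith
  have hpk : (p : ℝ) ^ ((k : ℝ) / (d : ℝ)) = q ^ k := by
    rw [hq, ← Real.rpow_natCast, ← Real.rpow_mul hp0.le]; congr 1; ring
  refine ⟨⟨m, c, fun i => w i * s ^ k⟩, rfl, ⟨fun i => hrel i, hρ0⟩, fun l => ?_,
    fun φ i => ?_, fun φ i => ?_, ⟨r, hr⟩, fun Q hQ hQC i => ?_⟩
  · exact (hcB l).trans (le_mul_of_one_le_left hq0.le (hC21.trans hC2C))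
  · exact (hρup φ i).trans (mul_le_mul_of_nonneg_right hC2C hq0.le)
  · rw [hpk, le_div_iff₀ (pow_pos hq0 k)]
    calc ‖φ ((w i * s ^ k : 𝓞 L) : L)‖ * q ^ k
        ≤ ‖φ ((w i * s ^ k : 𝓞 L) : L)‖ * (C3 * ‖φ (ρ i : L)‖) ^ k := by
          gcongr; exact hρlow φ i
      _ = C3 ^ k * (‖φ ((w i * s ^ k : 𝓞 L) : L)‖ * ‖φ (ρ i : L)‖ ^ k) := by ring
      _ ≤ C3 ^ k * ((R0 : ℝ) ^ k * (1 + Θ) * M) :=
          mul_le_mul_of_nonneg_left (hrelnorm φ i) (by positivity)
      _ = ((R0 : ℝ) ^ k * (1 + Θ) * C3 ^ k) * M := by ring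
      _ ≤ C * M := mul_le_mul_of_nonneg_right
          ((le_max_right _ _).trans (le_max_right _ _)) (by linarith)
  · have h1 : ρ i ∣ (p : 𝓞 L) * (R0 : 𝓞 L) := by
      refine (Finset.dvd_prod_of_mem ρ (Finset.mem_univ i)).trans ?_
      rw [hr, hs]
      exact mul_dvd_mul_left _ (dvd_mul_right r s)
    have h2 : Nat.Coprime Q (p * R0) := by
      refine hQ.mul_right (Nat.coprime_of_dvd fun q hq hqQ hqR => ?_)
      have h3 := Nat.le_of_dvd (Nat.factorial_pos _) hqR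
      have h4 := hQC q hq hqQ
      have h5 : (R0 : ℝ) ≤ C := (le_max_left _ _).trans (le_max_right _ _)
      have : (q : ℝ) ≤ R0 := by exact_mod_cast h3
      linarith
    have h6 := (Nat.Coprime.isCoprime h2).map (Int.castRingHom (𝓞 L))
    simp only [eq_intCast, Int.cast_natCast, Nat.cast_mul, Int.cast_mul] at h6
    exact h6.of_isCoprime_of_dvd_right h1

end Vale.Agent.P018
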