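import Mathlib
import Vale.Agent.P018.Local

/-!
# The sieve: reduction to large primes
-/

namespace Vale.Agent.P018

open Polynomial Filter Topology

/-- `a` is nonzero and no prime `k`-th power divides it. -/
def PowerFree (k : ℕ) (a : ℤ) : Prop := a ≠ 0 ∧ ∀ p : ℕ, p.Prime → ¬ ((p : ℤ) ^ k ∣ a)

/-- `S_{f,k}(X)`. -/
noncomputable def powerFreeCount (f : ℤ[X]) (k X : ℕ) : ℕ :=
  Nat.card {n : ℕ // n ∈ Finset.Icc 1 X ∧ PowerFree k (f.eval (n : ℤ))}

/-- The Euler product `c_{f,k}`. -/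
noncomputable def density (f : ℤ[X]) (k : ℕ) : ℝ :=
  ∏' p : Nat.Primes, (1 - (rho f ((p : ℕ) ^ k) : ℝ) / ((p : ℕ) : ℝ) ^ k)

/-- Number of `n ≤ X` such that a prime `p > X` has `p ^ k ∣ f n`, `f n ≠ 0`. -/
noncomputable def largeCount (f : ℤ[X]) (k X : ℕ) : ℕ :=
  Nat.card {n : ℕ // n ∈ Finset.Icc 1 X ∧ f.eval (n : ℤ) ≠ 0 ∧
    ∃ p : ℕ, p.Prime ∧ X < p ∧ (p : ℤ) ^ k ∣ f.eval (n : ℤ)}

section
open Classical

lemma powerFreeCount_eq (f : ℤ[X]) (k X : ℕ) :
    powerFreeCount f k X = ((Finset.Icc 1 X).filter fun n : ℕ => PowerFree k (f.eval (n : ℤ))).card := by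
  rw [powerFreeCount, Nat.subtype_card]
  intro n; simp [Finset.mem_filter]

lemma largeCount_eq (f : ℤ[X]) (k X : ℕ) :
    largeCount f k X = ((Finset.Icc 1 X).filter fun n : ℕ => f.eval (n : ℤ) ≠ 0 ∧
    ∃ p : ℕ, p.Prime ∧ X < p ∧ (p : ℤ) ^ k ∣ f.eval (n : ℤ)).card := by
  rw [largeCount, Nat.subtype_card]
  intro n; simp [Finset.mem_filter]

/-- residues avoiding a finite set of moduli -/
noncomputable def goodRes (f : ℤ[X]) (k : ℕ) (T : Finset ℕ) : Finset ℕ :=
  (Finset.range (∏ p ∈ T, p ^ k)).filter fun a : ℕ => ∀ p ∈ T, ¬ ((p ^ k : ℕ) : ℤ) ∣ f.eval (a : ℤ)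

lemma card_goodRes (f : ℤ[X]) (k : ℕ) (T : Finset ℕ) (hT : ∀ p ∈ T, p.Prime) :
    (goodRes f k T).card = ∏ p ∈ T, (p ^ k - rho f (p ^ k)) := by
  induction T using Finset.induction_on with
  | empty => simp [goodRes]
  | @insert q T hq ih =>
    rw [Finset.prod_insert hq, ← ih fun p hp => hT p (Finset.mem_insert_of_mem hp)]
    have hqp : q.Prime := hT q (Finset.mem_insert_self _ _)
    set M := ∏ p ∈ T, p ^ k with hM
    set m := q ^ k with hm
    have hcop : Nat.Coprime m M := by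
      refine Nat.Coprime.prod_right fun p hp => ?_
      refine Nat.Coprime.pow _ _ ((Nat.coprime_primes hqp (hT p (Finset.mem_insert_of_mem hp))).2 ?_)
      rintro rfl; exact hq hp
    have hm0 : 0 < m := pow_pos hqp.pos k
    have hM0 : 0 < M := Finset.prod_pos fun p hp =>
      pow_pos (hT p (Finset.mem_insert_of_mem hp)).pos k
    have hA : (((Finset.range m).filter fun a : ℕ => ¬ (m : ℤ) ∣ f.eval (a : ℤ))).card =
        m - rho f m := by
      rw [rho, Finset.filter_not, Finset.card_sdiff_of_subset (Finset.filter_subset _ _),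
        Finset.card_range]
    rw [← hA, ← Finset.card_product]
    have hdvd : ∀ p ∈ T, ∀ n : ℕ, ((p ^ k : ℕ) : ℤ) ∣ f.eval ((n % M : ℕ) : ℤ) ↔
        ((p ^ k : ℕ) : ℤ) ∣ f.eval (n : ℤ) := by
      intro p hp n
      have hpM : p ^ k ∣ M := Finset.dvd_prod_of_mem (fun p => p ^ k) hp
      rw [← dvd_eval_mod f (p ^ k) (n % M), Nat.mod_mod_of_dvd _ hpM, dvd_eval_mod]
    refine Finset.card_bij' (fun a _ => (a % m, a % M))
      (fun ab _ => (Nat.chineseRemainder hcop ab.1 ab.2).1) ?_ ?_ ?_ ?_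
    · intro a ha
      simp only [goodRes, Finset.mem_filter, Finset.mem_range, Finset.mem_insert,
        forall_eq_or_imp, Finset.mem_product] at ha ⊢
      refine ⟨⟨Nat.mod_lt _ hm0, ?_⟩, Nat.mod_lt _ hM0, fun p hp h => ha.2.2 p hp ((hdvd p hp a).1 h)⟩
      exact fun h => ha.2.1 ((dvd_eval_mod f m a).1 h)
    · intro ab hab
      simp only [goodRes, Finset.mem_filter, Finset.mem_range, Finset.mem_insert,
        forall_eq_or_imp, Finset.mem_product, Finset.prod_insert hq] at hab ⊢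
      have h1 := (Nat.chineseRemainder hcop ab.1 ab.2).2
      refine ⟨Nat.chineseRemainder_lt_mul hcop _ _ hm0.ne' hM0.ne', ?_, fun p hp h => ?_⟩
      · intro h
        apply hab.1.2
        rw [← dvd_eval_mod f m] at h
        rwa [show _ % m = ab.1 % m from h1.1, Nat.mod_eq_of_lt hab.1.1] at h
      · apply hab.2.2 p hp
        rw [← hdvd p hp] at h
        rwa [show _ % M = ab.2 % M from h1.2, Nat.mod_eq_of_lt hab.2.1] at h
    · intro a ha
      simp only [goodRes, Finset.mem_filter, Finset.mem_range, Finset.prod_insert hq] at ha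
      have h1 := Nat.chineseRemainder_modEq_unique hcop (z := a)
        (a := a % m) (b := a % M) (Nat.mod_modEq _ _).symm (Nat.mod_modEq _ _).symm
      have h2 : a % (m * M) =
          (Nat.chineseRemainder hcop (a % m) (a % M) : ℕ) % (m * M) := h1
      rw [Nat.mod_eq_of_lt ha.1, Nat.mod_eq_of_lt
        (Nat.chineseRemainder_lt_mul hcop _ _ hm0.ne' hM0.ne')] at h2
      exact h2.symm
    · intro ab hab
      simp only [goodRes, Finset.mem_filter, Finset.mem_range, Finset.mem_product] at hab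
      have h1 := (Nat.chineseRemainder hcop ab.1 ab.2).2
      refine Prod.ext ?_ ?_
      · exact Eq.trans h1.1 (Nat.mod_eq_of_lt hab.1.1)
      · exact Eq.trans h1.2 (Nat.mod_eq_of_lt hab.2.1)

lemma periodic_count (P : ℕ → Prop) (M : ℕ) (hM : 0 < M) (hP : ∀ n, P (n % M) ↔ P n) (X : ℕ) :
    |((((Finset.Icc 1 X).filter P).card : ℝ)) -
      (((Finset.range M).filter P).card : ℝ) / M * X| ≤ 2 * M := by
  set g := ((Finset.range M).filter P).card with hg
  have hper : Function.Periodic P M := by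
    intro n
    rw [← hP (n + M), ← hP n, Nat.add_mod_right]
  have hblock : ∀ j, ((Finset.Ico j (j + M)).filter P).card = g := fun j => by
    rw [Nat.filter_Ico_card_eq_of_periodic _ _ _ hper, hg, Nat.count_eq_card_filter_range]
  have hsum : ∀ q : ℕ, ((Finset.Ico 1 (1 + q * M)).filter P).card = q * g := by
    intro q
    induction q with
    | zero => simp
    | succ q ih =>
      rw [show 1 + (q + 1) * M = (1 + q * M) + M by ring,
        ← Finset.Ico_union_Ico_eq_Ico (b := 1 + q * M) (by omega) (by omega),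
        Finset.filter_union, Finset.card_union_of_disjoint, ih, hblock]
      · ring
      · exact Finset.disjoint_filter_filter (Finset.Ico_disjoint_Ico_consecutive _ _ _)
  set q := X / M with hq
  have hqX : q * M ≤ X := Nat.div_mul_le_self X M
  have hXq : X < q * M + M := by
    have := Nat.mod_add_div X M
    have := Nat.mod_lt X hM
    rw [hq, mul_comm (X / M) M]; omega
  have hgM : g ≤ M := (Finset.card_filter_le _ _).trans (by simp)
  have hlow : q * g ≤ ((Finset.Icc 1 X).filter P).card := by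
    rw [← hsum q]
    refine Finset.card_le_card (Finset.filter_subset_filter _ fun x hx => ?_)
    simp only [Finset.mem_Ico, Finset.mem_Icc] at hx ⊢; omega
  have hup : ((Finset.Icc 1 X).filter P).card ≤ (q + 1) * g := by
    rw [← hsum (q + 1)]
    refine Finset.card_le_card (Finset.filter_subset_filter _ fun x hx => ?_)
    simp only [Finset.mem_Ico, Finset.mem_Icc] at hx ⊢
    rw [add_mul, one_mul]; omega
  have hM' : (0 : ℝ) < M := by exact_mod_cast hM
  have h1 : (g : ℝ) / M * X ≤ ((q : ℝ) + 1) * g := by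
    rw [div_mul_eq_mul_div, div_le_iff₀ hM']
    have h : (X : ℝ) ≤ ((q : ℝ) + 1) * M := by
      have : X ≤ (q + 1) * M := by rw [add_mul, one_mul]; omega
      exact_mod_cast this
    calc (g : ℝ) * X ≤ g * (((q : ℝ) + 1) * M) := by gcongr
      _ = _ := by ring
  have h2 : (q : ℝ) * g ≤ (g : ℝ) / M * X := by
    rw [div_mul_eq_mul_div, le_div_iff₀ hM']
    have h : (q : ℝ) * M ≤ X := by exact_mod_cast hqX
    calc (q : ℝ) * g * M = g * ((q : ℝ) * M) := by ring
      _ ≤ _ := by gcongr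
  have h3 : (q : ℝ) * g ≤ ((Finset.Icc 1 X).filter P).card := by exact_mod_cast hlow
  have h4 : (((Finset.Icc 1 X).filter P).card : ℝ) ≤ ((q : ℝ) + 1) * g := by exact_mod_cast hup
  have h5 : (g : ℝ) ≤ M := by exact_mod_cast hgM
  rw [abs_le]
  constructor <;> nlinarith

lemma card_multiples_le (f : ℤ[X]) (q : ℕ) (hq : 0 < q) (X : ℕ) :
    ((Finset.Icc 1 X).filter fun n : ℕ => (q : ℤ) ∣ f.eval (n : ℤ)).card ≤
      rho f q * (X / q + 1) := by
  calc _ ≤ (((Finset.range q).filter fun a : ℕ => (q : ℤ) ∣ f.eval (a : ℤ)) ×ˢ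
        Finset.range (X / q + 1)).card := by
        refine Finset.card_le_card_of_injOn (fun n => (n % q, n / q)) ?_ ?_
        · intro n hn
          simp only [Finset.coe_filter, Set.mem_ofPred_eq, Finset.mem_Icc] at hn
          simp only [Finset.coe_product, Set.mem_prod, Finset.coe_filter, Set.mem_ofPred_eq,
            Finset.mem_range, Finset.coe_range, Set.mem_Iio]
          refine ⟨⟨Nat.mod_lt _ hq, (dvd_eval_mod f q n).2 hn.2⟩, ?_⟩
          exact Nat.lt_succ_of_le (Nat.div_le_div_right hn.1.2)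
        · intro x _ y _ h
          simp only [Prod.mk.injEq] at h
          rw [← Nat.mod_add_div x q, ← Nat.mod_add_div y q, h.1, h.2]
    _ = _ := by rw [Finset.card_product, Finset.card_range, rho]

end

/-- The Euler product converges. -/
lemma summable_rho (f : ℤ[X]) (hd : 1 ≤ f.natDegree)
    (hf : Irreducible (f.map (Int.castRingHom ℚ))) {k : ℕ} (hk : 2 ≤ k) :
    Summable fun p : Nat.Primes => (rho f ((p : ℕ) ^ k) : ℝ) / ((p : ℕ) : ℝ) ^ k := by
  obtain ⟨C, hC⟩ := exists_rho_bound f hd hf (k := k) (by omega)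
  have h := (Real.summable_nat_pow_inv.2 (show 1 < k by omega)).mul_left (C : ℝ)
  refine Summable.of_nonneg_of_le (fun p => by positivity) (fun p => ?_)
    (h.comp_injective (i := fun p : Nat.Primes => (p : ℕ)) Nat.Primes.coe_nat_injective)
  simp only [Function.comp_apply]
  rw [← div_eq_mul_inv]
  have : (rho f ((p : ℕ) ^ k) : ℝ) ≤ C := by exact_mod_cast hC p p.2
  gcongr

lemma hasProd_density (f : ℤ[X]) (hd : 1 ≤ f.natDegree)
    (hf : Irreducible (f.map (Int.castRingHom ℚ))) {k : ℕ} (hk : 2 ≤ k) :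
    HasProd (fun p : Nat.Primes => 1 - (rho f ((p : ℕ) ^ k) : ℝ) / ((p : ℕ) : ℝ) ^ k)
      (density f k) := by
  refine Multipliable.hasProd ?_
  simpa only [sub_eq_add_neg] using
    Real.multipliable_one_add_of_summable (summable_rho f hd hf hk).neg

/-- Positivity of the predicted density under the local condition. -/
lemma density_pos (f : ℤ[X]) (hd : 1 ≤ f.natDegree)
    (hf : Irreducible (f.map (Int.castRingHom ℚ))) {k : ℕ} (hk : 2 ≤ k)
    (hloc : ∀ p : ℕ, p.Prime → rho f (p ^ k) < p ^ k) : 0 < density f k := by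
  have hpos : ∀ p : Nat.Primes,
      0 < 1 - (rho f ((p : ℕ) ^ k) : ℝ) / ((p : ℕ) : ℝ) ^ k := fun p => by
    have h1 : (0 : ℝ) < ((p : ℕ) : ℝ) ^ k := pow_pos (by exact_mod_cast p.2.pos) k
    rw [sub_pos, div_lt_one h1]
    exact_mod_cast hloc p p.2
  have hlog : Summable fun p : Nat.Primes =>
      Real.log (1 - (rho f ((p : ℕ) ^ k) : ℝ) / ((p : ℕ) : ℝ) ^ k) := by
    simpa only [sub_eq_add_neg] using
      Real.summable_log_one_add_of_summable (summable_rho f hd hf hk).neg
  rw [density, ← Real.rexp_tsum_eq_tprod hpos hlog]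
  exact Real.exp_pos _

/-- finite Euler product up to `z`. -/
noncomputable def partialDensity (f : ℤ[X]) (k z : ℕ) : ℝ :=
  ∏ p ∈ Nat.primesLE z, (1 - (rho f (p ^ k) : ℝ) / (p : ℝ) ^ k)

lemma tendsto_partialDensity (f : ℤ[X]) (hd : 1 ≤ f.natDegree)
    (hf : Irreducible (f.map (Int.castRingHom ℚ))) {k : ℕ} (hk : 2 ≤ k) :
    Tendsto (fun z => partialDensity f k z) atTop (𝓝 (density f k)) := by
  have h := hasProd_density f hd hf hk
  let s : ℕ → Finset Nat.Primes := fun z => (Nat.primesLE z).subtype Nat.Prime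
  have hs : Tendsto s atTop atTop := by
    refine tendsto_atTop_finset_of_monotone ?_ ?_
    · intro a b hab p hp
      have h' := Nat.mem_primesLE.1 (Finset.mem_subtype.1 hp)
      exact Finset.mem_subtype.2 (Nat.mem_primesLE.2 ⟨h'.1.trans hab, h'.2⟩)
    · intro p
      exact ⟨p, Finset.mem_subtype.2 (Nat.mem_primesLE.2 ⟨le_rfl, p.2⟩)⟩
  refine (h.comp hs).congr fun z => ?_
  change ∏ q ∈ (Nat.primesLE z).subtype Nat.Prime, _ = partialDensity f k z
  rw [partialDensity, ← Finset.prod_subtype_of_mem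
    (f := fun p : ℕ => 1 - (rho f (p ^ k) : ℝ) / (p : ℝ) ^ k)
    (p := Nat.Prime) (fun p hp => (Nat.mem_primesLE.1 hp).2)]

lemma tendsto_sum_tail (C : ℝ) :
    Tendsto (fun z : ℕ => C / (z : ℝ)) atTop (𝓝 0) := tendsto_const_div_atTop_nhds_zero_nat C

lemma tendsto_primeCounting_div :
    Tendsto (fun X : ℕ => (Nat.primeCounting X : ℝ) / X) atTop (𝓝 0) := by
  have h1 : Tendsto (fun x : ℝ => Real.log 4 / Real.log (√x) + 1 / √x) atTop (𝓝 0) := by
    have hs : Tendsto Real.sqrt atTop atTop := Real.tendsto_sqrt_atTop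
    have a : Tendsto (fun x : ℝ => Real.log 4 / Real.log (√x)) atTop (𝓝 0) :=
      tendsto_const_nhds.div_atTop (Real.tendsto_log_atTop.comp hs)
    have b : Tendsto (fun x : ℝ => 1 / √x) atTop (𝓝 0) :=
      tendsto_const_nhds.div_atTop hs
    simpa using a.add b
  refine tendsto_of_tendsto_of_tendsto_of_le_of_le' tendsto_const_nhds
    (h1.comp tendsto_natCast_atTop_atTop) (Eventually.of_forall fun X => by positivity) ?_
  filter_upwards [eventually_ge_atTop 2] with X hX
  have hX1 : (1 : ℝ) < X := by exact_mod_cast (show 1 < X by omega)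
  have h := Chebyshev.pi_le_log4_mul_div hX1
  rw [Nat.floor_natCast] at h
  simp only [Function.comp_apply]
  rw [div_le_iff₀ (by linarith)]
  refine h.trans (le_of_eq ?_)
  rw [add_mul, div_mul_eq_mul_div, div_mul_eq_mul_div, one_mul, Real.div_sqrt]

lemma sum_inv_pow_tail_le {k : ℕ} (hk : 2 ≤ k) (z X : ℕ) (hz : 0 < z) :
    ∑ p ∈ Finset.Ioc z X, 1 / (p : ℝ) ^ k ≤ 1 / z := by
  have h : ∀ X, z ≤ X → ∑ p ∈ Finset.Ioc z X, 1 / (p : ℝ) ^ k ≤ 1 / z - 1 / X := by
    intro X hX
    induction X, hX using Nat.le_induction with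
    | base => simp
    | succ n hn ih =>
      rw [Finset.sum_Ioc_succ_top hn]
      have hn0 : (0 : ℝ) < n := by exact_mod_cast (show 0 < n by omega)
      have h1 : 1 / ((n + 1 : ℕ) : ℝ) ^ k ≤ 1 / n - 1 / ((n + 1 : ℕ) : ℝ) := by
        push_cast
        have h2 : ((n : ℝ) + 1) * n ≤ ((n : ℝ) + 1) ^ k :=
          calc ((n : ℝ) + 1) * n ≤ ((n : ℝ) + 1) ^ 2 := by nlinarith
            _ ≤ _ := pow_le_pow_right₀ (by linarith) hk
        calc 1 / ((n : ℝ) + 1) ^ k ≤ 1 / (((n : ℝ) + 1) * n) :=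
              one_div_le_one_div_of_le (by positivity) h2
          _ = _ := by field_simp; ring
      linarith
  rcases le_or_gt z X with h' | h'
  · have := h X h'
    have : (0 : ℝ) ≤ 1 / X := by positivity
    linarith
  · rw [Finset.Ioc_eq_empty (by omega), Finset.sum_empty]
    positivity

open Classical in
lemma powerFree_upper (f : ℤ[X]) (k z X : ℕ) :
    powerFreeCount f k X ≤ ((Finset.Icc 1 X).filter fun n : ℕ =>
      ∀ p ∈ Nat.primesLE z, ¬ ((p ^ k : ℕ) : ℤ) ∣ f.eval (n : ℤ)).card := by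
  rw [powerFreeCount_eq]
  refine Finset.card_le_card (Finset.monotone_filter_right _ fun n _ h p hp => ?_)
  simpa using h.2 p (Nat.mem_primesLE.1 hp).2

open Classical in
lemma powerFree_lower (f : ℤ[X]) (k z X : ℕ) (C : ℕ) (hf0 : f ≠ 0)
    (hC : ∀ p : ℕ, p.Prime → rho f (p ^ k) ≤ C) (hz : 0 < z) (hk : 2 ≤ k) :
    (((Finset.Icc 1 X).filter fun n : ℕ =>
      ∀ p ∈ Nat.primesLE z, ¬ ((p ^ k : ℕ) : ℤ) ∣ f.eval (n : ℤ)).card : ℝ) ≤
      powerFreeCount f k X + f.natDegree + largeCount f k X +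
        C * (X / (z : ℝ) + Nat.primeCounting X) := by
  set A := (Finset.Icc 1 X).filter fun n : ℕ =>
      ∀ p ∈ Nat.primesLE z, ¬ ((p ^ k : ℕ) : ℤ) ∣ f.eval (n : ℤ) with hA
  set S := (Finset.Icc 1 X).filter fun n : ℕ => PowerFree k (f.eval (n : ℤ)) with hS
  set Z := (Finset.Icc 1 X).filter fun n : ℕ => f.eval (n : ℤ) = 0 with hZ
  set L := (Finset.Icc 1 X).filter fun n : ℕ => f.eval (n : ℤ) ≠ 0 ∧
    ∃ p : ℕ, p.Prime ∧ X < p ∧ (p : ℤ) ^ k ∣ f.eval (n : ℤ) with hL
  set B := ((Finset.Ioc z X).filter Nat.Prime).biUnion fun p =>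
    (Finset.Icc 1 X).filter fun n : ℕ => ((p ^ k : ℕ) : ℤ) ∣ f.eval (n : ℤ) with hB
  have hsub : A ⊆ S ∪ Z ∪ L ∪ B := by
    intro n hn
    simp only [hA, hS, hZ, hL, hB, Finset.mem_union, Finset.mem_biUnion,
      Finset.mem_filter, Finset.mem_Ioc] at hn ⊢
    by_contra hcon
    simp only [not_or, not_exists, not_and] at hcon
    obtain ⟨⟨⟨h1, h2⟩, h3⟩, h4⟩ := hcon
    refine h1 hn.1 ⟨h2 hn.1, fun p hp hdiv => ?_⟩
    by_cases hpz : p ≤ z
    · exact hn.2 p (Nat.mem_primesLE.2 ⟨hpz, hp⟩) (by simpa using hdiv)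
    by_cases hpX : p ≤ X
    · exact h4 p ⟨⟨by omega, hpX⟩, hp⟩ hn.1 (by simpa using hdiv)
    · exact h3 hn.1 (h2 hn.1) p hp (by omega) hdiv
  have hZc : Z.card ≤ f.natDegree := by
    calc Z.card ≤ f.roots.toFinset.card := by
          refine Finset.card_le_card_of_injOn (fun n : ℕ => (n : ℤ)) ?_
            (fun x _ y _ h => by simpa using h)
          intro n hn
          simp only [hZ, Finset.coe_filter, Set.mem_ofPred_eq] at hn
          rw [Finset.mem_coe, Multiset.mem_toFinset, mem_roots hf0]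
          exact hn.2
      _ ≤ Multiset.card f.roots := Multiset.toFinset_card_le _
      _ ≤ f.natDegree := card_roots' f
  have hBc : (B.card : ℝ) ≤ C * (X / (z : ℝ) + Nat.primeCounting X) := by
    have h1 : B.card ≤ ∑ p ∈ (Finset.Ioc z X).filter Nat.Prime, C * (X / p ^ k + 1) := by
      refine Finset.card_biUnion_le.trans (Finset.sum_le_sum fun p hp => ?_)
      simp only [Finset.mem_filter] at hp
      exact (card_multiples_le f _ (pow_pos hp.2.pos k) X).trans
        (Nat.mul_le_mul_right _ (hC p hp.2))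
    have h2 : (B.card : ℝ) ≤
        ∑ p ∈ (Finset.Ioc z X).filter Nat.Prime, (C : ℝ) * (X * (1 / (p : ℝ) ^ k) + 1) := by
      refine (Nat.cast_le.2 h1).trans ?_
      push_cast
      refine Finset.sum_le_sum fun p _ => ?_
      gcongr
      refine Nat.cast_div_le.trans (le_of_eq ?_)
      push_cast
      ring
    refine h2.trans ?_
    rw [← Finset.mul_sum, Finset.sum_add_distrib, ← Finset.mul_sum, Finset.sum_const,
      nsmul_eq_mul, mul_one]
    gcongr
    · rw [div_eq_mul_one_div (X : ℝ)]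
      gcongr
      exact (Finset.sum_le_sum_of_subset_of_nonneg (Finset.filter_subset _ _)
        (fun p _ _ => by positivity)).trans (sum_inv_pow_tail_le hk z X hz)
    · rw [← Nat.primesLE_card_eq_primeCounting]
      refine Finset.card_le_card fun p hp => ?_
      simp only [Finset.mem_filter, Finset.mem_Ioc] at hp
      exact Nat.mem_primesLE.2 ⟨hp.1.2, hp.2⟩
  have h5 : A.card ≤ S.card + Z.card + L.card + B.card := by
    calc A.card ≤ (S ∪ Z ∪ L ∪ B).card := Finset.card_le_card hsub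
      _ ≤ (S ∪ Z ∪ L).card + B.card := Finset.card_union_le _ _
      _ ≤ (S ∪ Z).card + L.card + B.card := by gcongr; exact Finset.card_union_le _ _
      _ ≤ _ := by gcongr; exact Finset.card_union_le _ _
  have h6 : (A.card : ℝ) ≤ S.card + Z.card + L.card + B.card := by exact_mod_cast h5
  rw [powerFreeCount_eq, largeCount_eq]
  have : (Z.card : ℝ) ≤ f.natDegree := by exact_mod_cast hZc
  linarith

open Classical in
lemma tendsto_sifted (f : ℤ[X]) (k z : ℕ) :
    Tendsto (fun X : ℕ => (((Finset.Icc 1 X).filter fun n : ℕ =>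
      ∀ p ∈ Nat.primesLE z, ¬ ((p ^ k : ℕ) : ℤ) ∣ f.eval (n : ℤ)).card : ℝ) / X)
      atTop (𝓝 (partialDensity f k z)) := by
  set T := Nat.primesLE z with hTdef
  have hT : ∀ p ∈ T, p.Prime := fun p hp => (Nat.mem_primesLE.1 hp).2
  set M := ∏ p ∈ T, p ^ k with hM
  have hM0 : 0 < M := Finset.prod_pos fun p hp => pow_pos (hT p hp).pos k
  have hP : ∀ n : ℕ, (∀ p ∈ T, ¬ ((p ^ k : ℕ) : ℤ) ∣ f.eval ((n % M : ℕ) : ℤ)) ↔
      (∀ p ∈ T, ¬ ((p ^ k : ℕ) : ℤ) ∣ f.eval (n : ℤ)) := by
    intro n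
    refine forall₂_congr fun p hp => not_congr ?_
    have hpM : p ^ k ∣ M := Finset.dvd_prod_of_mem (fun p => p ^ k) hp
    rw [← dvd_eval_mod f (p ^ k) (n % M), Nat.mod_mod_of_dvd _ hpM, dvd_eval_mod]
  have hg : (((Finset.range M).filter fun a : ℕ =>
      ∀ p ∈ T, ¬ ((p ^ k : ℕ) : ℤ) ∣ f.eval (a : ℤ)).card : ℝ) / M = partialDensity f k z := by
    have h1 : ((Finset.range M).filter fun a : ℕ =>
        ∀ p ∈ T, ¬ ((p ^ k : ℕ) : ℤ) ∣ f.eval (a : ℤ)).card =
        ∏ p ∈ T, (p ^ k - rho f (p ^ k)) := by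
      rw [← card_goodRes f k T hT, goodRes]
    rw [h1, hM, partialDensity]
    push_cast
    rw [← Finset.prod_div_distrib]
    refine Finset.prod_congr rfl fun p hp => ?_
    have hp0 : (p : ℝ) ^ k ≠ 0 := pow_ne_zero _ (by exact_mod_cast (hT p hp).ne_zero)
    rw [Nat.cast_sub (rho_le_self f _), sub_div]
    push_cast
    rw [div_self hp0]
  rw [← hg]
  refine tendsto_iff_norm_sub_tendsto_zero.2 (squeeze_zero'
    (Eventually.of_forall fun X => norm_nonneg _) ?_
    (tendsto_const_div_atTop_nhds_zero_nat ((2 : ℝ) * M + 1)))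
  filter_upwards [eventually_gt_atTop 0] with X hX
  have hX' : (0 : ℝ) < X := by exact_mod_cast hX
  have h := periodic_count (fun a : ℕ => ∀ p ∈ T, ¬ ((p ^ k : ℕ) : ℤ) ∣ f.eval (a : ℤ)) M hM0 hP X
  rw [Real.norm_eq_abs, div_sub' hX'.ne', abs_div, abs_of_pos hX']
  gcongr
  rw [mul_comm (X : ℝ)]
  refine le_trans (le_of_eq ?_) (h.trans (by linarith))
  congr!

/-- The predicted asymptotic follows from the estimate for primes `p > X`. -/
theorem asymptotic_of_largeCount (f : ℤ[X]) (hd : 1 ≤ f.natDegree)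
    (hf : Irreducible (f.map (Int.castRingHom ℚ))) {k : ℕ} (hk : 2 ≤ k)
    (hlarge : Tendsto (fun X : ℕ => (largeCount f k X : ℝ) / X) atTop (𝓝 0)) :
    Tendsto (fun X : ℕ => (powerFreeCount f k X : ℝ) / X) atTop (𝓝 (density f k)) := by
  classical
  obtain ⟨C, hC⟩ := exists_rho_bound f hd hf (k := k) (by omega)
  have hf0 : f ≠ 0 := by rintro rfl; simp at hd
  rw [Metric.tendsto_atTop]
  intro ε hε
  obtain ⟨z, hz0, hz1, hz2⟩ : ∃ z : ℕ, 0 < z ∧ (C : ℝ) / z < ε / 4 ∧
      |partialDensity f k z - density f k| < ε / 4 := by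
    have e1 := (tendsto_sum_tail C).eventually (gt_mem_nhds (show (0 : ℝ) < ε / 4 by linarith))
    have e2 := (tendsto_partialDensity f hd hf hk).eventually
      (Metric.ball_mem_nhds _ (show (0 : ℝ) < ε / 4 by linarith))
    obtain ⟨z, h1, h2, h3⟩ := ((eventually_gt_atTop 0).and (e1.and e2)).exists
    exact ⟨z, h1, h2, by simpa [Real.dist_eq] using h3⟩
  have e1 := (tendsto_sifted f k z).eventually
    (Metric.ball_mem_nhds _ (show (0 : ℝ) < ε / 4 by linarith))
  have herr : Tendsto (fun X : ℕ => (f.natDegree : ℝ) / X + (largeCount f k X : ℝ) / X +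
      C * ((Nat.primeCounting X : ℝ) / X)) atTop (𝓝 0) := by
    simpa using ((tendsto_const_div_atTop_nhds_zero_nat (f.natDegree : ℝ)).add hlarge).add
      (tendsto_primeCounting_div.const_mul (C : ℝ))
  have e2 := herr.eventually (gt_mem_nhds (show (0 : ℝ) < ε / 4 by linarith))
  obtain ⟨X0, hX0⟩ := eventually_atTop.1 ((eventually_gt_atTop 0).and (e1.and e2))
  refine ⟨X0, fun X hX => ?_⟩
  obtain ⟨hXpos, h1, h2⟩ := hX0 X hX
  rw [Real.dist_eq] at h1
  have hX' : (0 : ℝ) < X := by exact_mod_cast hXpos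
  set A : ℝ := (((Finset.Icc 1 X).filter fun n : ℕ =>
      ∀ p ∈ Nat.primesLE z, ¬ ((p ^ k : ℕ) : ℤ) ∣ f.eval (n : ℤ)).card : ℝ) with hA
  have hu : (powerFreeCount f k X : ℝ) / X ≤ A / X := by
    gcongr
    rw [hA]
    exact_mod_cast powerFree_upper f k z X
  have hl : A / X ≤ (powerFreeCount f k X : ℝ) / X + ((f.natDegree : ℝ) / X +
      (largeCount f k X : ℝ) / X + C * ((Nat.primeCounting X : ℝ) / X)) + C / z := by
    calc A / X ≤ ((powerFreeCount f k X : ℝ) + f.natDegree + largeCount f k X +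
        C * (X / (z : ℝ) + Nat.primeCounting X)) / X := by
          gcongr
          exact powerFree_lower f k z X C hf0 hC hz0 hk
      _ = _ := by field_simp; ring
  rw [Real.dist_eq, abs_lt] at *
  constructor <;> linarith [h1.1, h1.2, hz2, hu, hl]

end Vale.Agent.P018
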