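import Vale.Agent.P018.CritDef
import Vale.Agent.P018.Descent
import Vale.Agent.P018.Setup
import Vale.Agent.P018.Sieve

/-!
# From the criterion to the count of large prime powers
-/

namespace Vale.Agent.P018

open Filter Topology NumberField

/-- `A` as a function of the left end of a range of `log p / log X` and the step. -/
noncomputable def aPar (d : ℕ) (x h : ℝ) : ℝ := (x + 2 * h) / d

/-- `M` as a function of the left end of a range of `log p / log X` and the step. -/
noncomputable def mPar (d k : ℕ) (x h : ℝ) : ℝ := max (1 - k * x / d) 0 + h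

/-- The size of the moduli at level `s`. -/
noncomputable def gPar (d k : ℕ) (x h : ℝ) (s : ℕ) : ℝ :=
  if s ≤ d then
    min ((aPar d x h * mPar d k x h / (mPar d k x h + k * aPar d x h)) ^ ((s : ℝ) / (s + 1)) + h)
      (aPar d x h + h)
  else 0

lemma exists_step {d k : ℕ} (hd : 0 < d) (hk : 2 ≤ k) (hcrit : Crit d k) :
    ∃ h : ℝ, 0 < h ∧ h < 1 / 4 ∧ ∀ x : ℝ, 1 ≤ x → x ≤ (d : ℝ) / k →
      (∑ s ∈ Finset.range (d + 1), gPar d k x h s) + h < 1 := by
  have hdR : (0 : ℝ) < d := by exact_mod_cast hd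
  have hev : ∀ᶠ h in 𝓝 (0 : ℝ), ∀ x ∈ Set.Icc (1 : ℝ) ((d : ℝ) / k),
      (∑ s ∈ Finset.range (d + 1), gPar d k x h s) + h < 1 := by
    refine IsCompact.eventually_forall_of_forall_eventually isCompact_Icc
      (P := fun h x => (∑ s ∈ Finset.range (d + 1), gPar d k x h s) + h < 1) fun x hx => ?_
    have hne : mPar d k x 0 + k * aPar d x 0 ≠ 0 := by
      have : 0 ≤ mPar d k x 0 := by unfold mPar; simp
      have h1 : 0 < (k : ℝ) * aPar d x 0 := by
        have : 0 < x := by linarith [hx.1]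
        unfold aPar
        positivity
      linarith
    have hA : ContinuousAt (fun z : ℝ × ℝ => aPar d z.2 z.1) ((0 : ℝ), x) := by
      unfold aPar; fun_prop
    have hM : ContinuousAt (fun z : ℝ × ℝ => mPar d k z.2 z.1) ((0 : ℝ), x) := by
      unfold mPar; fun_prop
    have hc : ContinuousAt
        (fun z : ℝ × ℝ => (∑ s ∈ Finset.range (d + 1), gPar d k z.2 z.1 s) + z.1) ((0 : ℝ), x) := by
      refine ContinuousAt.add (tendsto_finsetSum _ fun s hs => ?_) continuousAt_fst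
      have hsd : s ≤ d := Nat.lt_succ_iff.1 (Finset.mem_range.1 hs)
      simp only [gPar, if_pos hsd]
      refine Filter.Tendsto.min (ContinuousAt.add ?_ continuousAt_fst) (hA.add continuousAt_fst)
      exact ((hA.mul hM).div (hM.add (continuousAt_const.mul hA)) hne).rpow_const
        (Or.inr (by positivity))
    refine hc.eventually (Iio_mem_nhds ?_)
    simp only [add_zero]
    refine lt_of_le_of_lt (le_of_eq (Finset.sum_congr rfl fun s hs => ?_)) (hcrit x hx.1 hx.2)
    have hsd : s ≤ d := Nat.lt_succ_iff.1 (Finset.mem_range.1 hs)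
    have hM0 : 0 ≤ 1 - (k : ℝ) * x / d := by
      have h1 := (le_div_iff₀ (show (0 : ℝ) < k by exact_mod_cast (by omega : 0 < k))).1 hx.2
      rw [sub_nonneg, div_le_one hdR]
      linarith
    have e1 : aPar d x 0 = x / d := by simp [aPar]
    have e2 : mPar d k x 0 = 1 - k * x / d := by simp [mPar, max_eq_left hM0]
    simp only [gPar, if_pos hsd, e1, e2, add_zero]
    rw [show (1 - k * x / d) + k * (x / d) = (1 : ℝ) by ring, div_one]
  obtain ⟨ε, hε, hball⟩ := Metric.eventually_nhds_iff.1 hev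
  refine ⟨min (ε / 2) (1 / 8), lt_min (by linarith) (by norm_num),
    lt_of_le_of_lt (min_le_right _ _) (by norm_num), fun x h1 h2 => hball ?_ x ⟨h1, h2⟩⟩
  rw [Real.dist_0_eq_abs, abs_of_pos (lt_min (by linarith) (by norm_num))]
  linarith [min_le_left (ε / 2) (1 / 8 : ℝ)]

/-- All hypotheses of the descent for one range of `log p / log X`. -/
lemma gPar_spec {d k : ℕ} (hk : 2 ≤ k) (hkd : k ≤ d) {x h : ℝ} (h1 : 1 ≤ x)
    (h2 : x ≤ (d : ℝ) / k) (hh : 0 < h) (hh' : h < 1 / 4) :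
    0 < aPar d x h ∧ aPar d x h ≤ 1 ∧ 0 < mPar d k x h ∧
    aPar d x h < gPar d k x h 0 ∧ (∀ s ≤ d, gPar d k x h (s + 1) ≤ gPar d k x h s) ∧
    gPar d k x h (d + 1) = 0 ∧
    ∀ s, 1 ≤ s → s ≤ d → gPar d k x h s = gPar d k x h 0 ∨ (0 < gPar d k x h s ∧
      1 < gPar d k x h s ^ (s + 1) * (1 / aPar d x h + k / mPar d k x h) ^ s) := by
  have hd : 0 < d := by omega
  have hdR : (0 : ℝ) < d := by exact_mod_cast hd
  have hd2 : (2 : ℝ) ≤ d := by exact_mod_cast (by omega : 2 ≤ d)
  have hk2 : (2 : ℝ) ≤ k := by exact_mod_cast hk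
  have hxd : x ≤ (d : ℝ) / 2 := h2.trans (div_le_div_of_nonneg_left hdR.le (by norm_num) hk2)
  set A := aPar d x h with hA
  set M := mPar d k x h with hM
  have hA0 : 0 < A := by
    rw [hA, aPar]
    positivity
  have hA1 : A ≤ 1 := by
    rw [hA, aPar, div_le_one hdR]
    linarith
  have hM0 : 0 < M := by
    rw [hM, mPar]
    linarith [le_max_right (1 - (k : ℝ) * x / d) 0]
  set γ := A * M / (M + k * A) with hγ
  have hden : 0 < M + k * A := by positivity
  have hγ0 : 0 < γ := by positivity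
  have hγ1 : γ ≤ 1 := by
    rw [hγ, div_le_one hden]
    nlinarith [mul_le_mul_of_nonneg_right hA1 hM0.le]
  have hval : ∀ s ≤ d, gPar d k x h s = min (γ ^ ((s : ℝ) / (s + 1)) + h) (A + h) := fun s hs => by
    rw [gPar, if_pos hs]
  have h0 : gPar d k x h 0 = A + h := by
    rw [hval 0 (Nat.zero_le _)]
    simp [hA1]
  refine ⟨hA0, hA1, hM0, by linarith, fun s hs => ?_, by simp [gPar], fun s hs1 hsd => ?_⟩
  · by_cases hsd : s + 1 ≤ d
    · rw [hval _ hsd, hval _ hs]
      refine min_le_min_right _ (add_le_add (Real.rpow_le_rpow_of_exponent_ge hγ0 hγ1 ?_) le_rfl)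
      rw [div_le_div_iff₀ (by positivity) (by positivity)]
      push_cast
      nlinarith
    · rw [gPar, if_neg hsd, hval _ hs]
      exact le_min (by positivity) (by positivity)
  · rw [hval s hsd, h0]
    by_cases hc : A + h ≤ γ ^ ((s : ℝ) / (s + 1)) + h
    · exact Or.inl (min_eq_right hc)
    · push Not at hc
      rw [min_eq_left hc.le]
      refine Or.inr ⟨by positivity, ?_⟩
      have hpow : (γ ^ ((s : ℝ) / (s + 1))) ^ (s + 1) = γ ^ s := by
        rw [← Real.rpow_natCast (γ ^ ((s : ℝ) / (s + 1))), ← Real.rpow_mul hγ0.le, Nat.cast_add,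
          Nat.cast_one, div_mul_cancel₀ _ (by positivity), Real.rpow_natCast]
      have hinv : 1 / A + k / M = γ⁻¹ := by
        rw [hγ]
        field_simp
      calc (1 : ℝ) = (γ ^ ((s : ℝ) / (s + 1))) ^ (s + 1) * (1 / A + k / M) ^ s := by
            rw [hpow, hinv, ← mul_pow, mul_inv_cancel₀ hγ0.ne', one_pow]
        _ < _ := by
            refine mul_lt_mul_of_pos_right
              (pow_lt_pow_left₀ (by linarith) (by positivity) (by omega)) ?_
            rw [hinv]
            positivity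

lemma abs_eval_le (f : Polynomial ℤ) {d : ℕ} (hdeg : f.natDegree = d) {X : ℕ} {n : ℕ} (hn : n ≤ X)
    (hX : 1 ≤ X) : |((f.eval (n : ℤ) : ℤ) : ℝ)| ≤
      (∑ i ∈ Finset.range (d + 1), |(f.coeff i : ℝ)|) * (X : ℝ) ^ d := by
  rw [Polynomial.eval_eq_sum_range, hdeg]
  push_cast
  rw [Finset.sum_mul]
  refine (Finset.abs_sum_le_sum_abs _ _).trans (Finset.sum_le_sum fun i hi => ?_)
  rw [abs_mul, abs_pow, Nat.abs_cast]
  refine mul_le_mul_of_nonneg_left ?_ (abs_nonneg _)
  calc (n : ℝ) ^ i ≤ (X : ℝ) ^ i := pow_le_pow_left₀ (Nat.cast_nonneg _) (by exact_mod_cast hn) _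
    _ ≤ (X : ℝ) ^ d := pow_le_pow_right₀ (by exact_mod_cast hX) (by
        have := Finset.mem_range.1 hi; omega)

lemma card_roots_mod_le (f : Polynomial ℤ) {d : ℕ} (hdeg : f.natDegree = d) {p X : ℕ}
    (hp : p.Prime) (hpa : f.leadingCoeff.natAbs < p) (hlead : f.leadingCoeff ≠ 0) (hXp : X < p)
    (S : Finset ℕ) (hS : ∀ n ∈ S, n ≤ X ∧ (p : ℤ) ∣ f.eval (n : ℤ)) : S.card ≤ d := by
  classical
  have : Fact p.Prime := ⟨hp⟩
  set fp := f.map (Int.castRingHom (ZMod p)) with hfp
  have hfp0 : fp ≠ 0 := by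
    intro h0
    have h1 := congrArg (fun q : Polynomial (ZMod p) => q.coeff d) h0
    simp only [hfp, Polynomial.coeff_map, Polynomial.coeff_zero, eq_intCast] at h1
    rw [← hdeg, Polynomial.coeff_natDegree, ZMod.intCast_zmod_eq_zero_iff_dvd,
      Int.natCast_dvd] at h1
    exact absurd (Nat.le_of_dvd (Int.natAbs_pos.2 hlead) h1) (not_le.2 hpa)
  calc S.card ≤ fp.roots.toFinset.card := by
        refine Finset.card_le_card_of_injOn (fun n => (n : ZMod p)) ?_ ?_
        · intro n hn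
          rw [Finset.mem_coe, Multiset.mem_toFinset, Polynomial.mem_roots hfp0,
            Polynomial.IsRoot.def]
          have h1 : fp.eval ((n : ℤ) : ZMod p) = ((f.eval (n : ℤ) : ℤ) : ZMod p) := by
            rw [hfp, Polynomial.eval_intCast_map, eq_intCast]
            rfl
          rw [Int.cast_natCast] at h1
          rw [h1, ZMod.intCast_zmod_eq_zero_iff_dvd]
          exact (hS n hn).2
        · intro a ha b hb hab
          have h1 := congrArg ZMod.val hab
          simp only [ZMod.val_natCast] at h1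
          rwa [Nat.mod_eq_of_lt (by have := (hS a ha).1; omega),
            Nat.mod_eq_of_lt (by have := (hS b hb).1; omega)] at h1
    _ ≤ fp.natDegree := (Multiset.toFinset_card_le _).trans (Polynomial.card_roots' _)
    _ ≤ d := by rw [← hdeg]; exact Polynomial.natDegree_map_le

lemma card_prime_divisors_le {N : ℕ} (hN : N ≠ 0) {X A : ℝ} (hX : 1 < X) (hNA : (N : ℝ) ≤ X ^ A)
    (P : Finset ℕ) (hP : ∀ p ∈ P, p.Prime ∧ X ≤ p ∧ p ∣ N) : (P.card : ℝ) ≤ A := by
  have h1 : ∏ p ∈ P, p ∣ N :=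
    Finset.prod_primes_dvd _ (fun p hp => (hP p hp).1.prime) (fun p hp => (hP p hp).2.2)
  have h2 : X ^ (P.card : ℝ) ≤ X ^ A := by
    refine le_trans ?_ hNA
    calc X ^ (P.card : ℝ) = ∏ _p ∈ P, X := by rw [Real.rpow_natCast, Finset.prod_const]
      _ ≤ ∏ p ∈ P, (p : ℝ) :=
          Finset.prod_le_prod (fun _ _ => by linarith) fun p hp => (hP p hp).2.1
      _ = ((∏ p ∈ P, p : ℕ) : ℝ) := by push_cast; rfl
      _ ≤ (N : ℝ) := by exact_mod_cast Nat.le_of_dvd (Nat.pos_of_ne_zero hN) h1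
  exact (Real.rpow_le_rpow_left_iff hX).1 h2

/-- Bounds for cells covering the ranges of `log p / log X` bound the number of values
divisible by a large prime power. -/
theorem largeCount_tendsto_of_cells (f : Polynomial ℤ) {d k : ℕ} (hdeg : f.natDegree = d)
    (hf : Irreducible (f.map (Int.castRingHom ℚ))) (hk : 2 ≤ k) (hkd : k ≤ d)
    {h : ℝ} (hh : 0 < h) (J : ℕ) (Av Mv θ : ℕ → ℝ) (hAv : ∀ j < J, 0 < Av j ∧ Av j ≤ 1)
    (hθ : ∀ j < J, θ j < 1)
    (hcover : ∀ π : ℝ, 1 < π → π ≤ (d : ℝ) / k + h →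
      ∃ j < J, π / d ≤ Av j ∧ 1 - k * π / d ≤ Mv j)
    (hcell : ∀ j < J, ∀ (L : Type) [Field L] [NumberField L] (D : RootData d L) (R : ℤ), R ≠ 0 →
      ∀ C₀ : ℝ, 1 ≤ C₀ → ∀ (C₁ : ℝ) (B₀ : ℕ), ∃ Cst X₁ : ℝ, 0 ≤ Cst ∧ ∀ X : ℝ, X₁ ≤ X →
        ∀ W : Finset (Pt d L), D.Good k R C₀ C₁ X (Av j) (Mv j) B₀ W →
          (W.card : ℝ) ≤ Cst * X ^ θ j) :
    Tendsto (fun X : ℕ => (largeCount f k X : ℝ) / X) atTop (𝓝 0) := by
  classical
  have hd : 2 ≤ d := le_trans hk hkd
  obtain ⟨L, _, _, D, hev⟩ := exists_rootData f hd hdeg hf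
  obtain ⟨R, C, hR, hC, hpt⟩ := exists_point D (k := k) (by omega)
  set a := f.leadingCoeff with ha
  have ha0 : a ≠ 0 := Polynomial.leadingCoeff_ne_zero.2 (by rintro rfl; simp at hdeg; omega)
  have ha1 : (1 : ℝ) ≤ |(a : ℝ)| := by exact_mod_cast Int.one_le_abs ha0
  set C₀ := C * |(a : ℝ)| with hC0
  have hC0C : C ≤ C₀ := le_mul_of_one_le_right (by linarith) ha1
  have hC0a : |(a : ℝ)| ≤ C₀ := le_mul_of_one_le_left (by positivity) hC
  set e := (Finset.univ : Finset (L →+* ℂ)).card with he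
  set B₀ := (d * e + 1) * d with hB0
  have hbound : ∀ j, ∃ Cst X₁ : ℝ, 0 ≤ Cst ∧ (j < J → ∀ X : ℝ, X₁ ≤ X → ∀ W : Finset (Pt d L),
      D.Good k R C₀ C X (Av j) (Mv j) B₀ W → (W.card : ℝ) ≤ Cst * X ^ θ j) := by
    intro j
    by_cases hj : j < J
    · obtain ⟨Cst, X₁, h1, h2⟩ := hcell j hj L D R hR C₀ (le_trans hC hC0C) C B₀
      exact ⟨Cst, X₁, h1, fun _ => h2⟩
    · exact ⟨0, 0, le_rfl, fun h => absurd h hj⟩
  choose Cst X₁ hCst hW using hbound
  set Cf := ∑ i ∈ Finset.range (d + 1), |(f.coeff i : ℝ)| with hCf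
  have hlim : Tendsto (fun X : ℕ => ∑ j ∈ Finset.range J, Cst j * (X : ℝ) ^ (θ j - 1)) atTop
      (𝓝 0) := by
    rw [show (0 : ℝ) = ∑ j ∈ Finset.range J, Cst j * 0 by simp]
    refine tendsto_finsetSum _ fun j hj => Tendsto.const_mul _ ?_
    have hneg : 0 < 1 - θ j := sub_pos.2 (hθ j (Finset.mem_range.1 hj))
    have := (tendsto_rpow_neg_atTop hneg).comp tendsto_natCast_atTop_atTop
    simpa [Function.comp_def] using this
  refine squeeze_zero' (Eventually.of_forall fun X => by positivity) ?_ hlim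
  have hevl : ∀ᶠ X : ℕ in atTop, 2 ≤ X ∧ (∀ j ∈ Finset.range J, X₁ j ≤ (X : ℝ)) ∧ C < X ∧
      |(a : ℝ)| ≤ X ∧ max Cf 1 ≤ (X : ℝ) ^ ((k : ℝ) * h) ∧ C₀ ^ (d * e) ≤ (X : ℝ) := by
    have hn := tendsto_natCast_atTop_atTop (R := ℝ)
    refine (eventually_ge_atTop 2).and
      (((Finset.range J).eventually_all.2 fun j _ => hn.eventually_ge_atTop _).and
      ((hn.eventually_gt_atTop C).and ((hn.eventually_ge_atTop _).and
      ((((tendsto_rpow_atTop (by positivity)).comp hn).eventually_ge_atTop _).and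
        (hn.eventually_ge_atTop _)))))
  filter_upwards [hevl] with X ⟨hX2, hX1, hXC, hXa, hXCf, hXe⟩
  have hXR : (1 : ℝ) < X := by exact_mod_cast (by omega : 1 < X)
  have hX0 : (0 : ℝ) < X := by linarith
  have hXn : X ≠ 0 := by omega
  set S := (Finset.Icc 1 X).filter fun n : ℕ => f.eval (n : ℤ) ≠ 0 ∧
    ∃ p : ℕ, p.Prime ∧ X < p ∧ (p : ℤ) ^ k ∣ f.eval (n : ℤ) with hS
  have hcount : largeCount f k X = S.card := by
    unfold largeCount
    rw [← Nat.card_eq_finsetCard S]
    exact Nat.card_congr (Equiv.subtypeEquivRight fun n => by simp [hS])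
  have hsel : ∀ n ∈ S, ∃ (p : ℕ) (z : Pt d L) (j : ℕ), p.Prime ∧ X < p ∧
      (p : ℤ) ∣ f.eval (n : ℤ) ∧ (p : 𝓞 L) ∣ ∏ i, D.ρ z i ∧ z.m = a * n ∧ D.IsPt k R z ∧
      j ∈ Finset.range J ∧ D.Bdd C₀ X (Av j) (Mv j) z ∧
      ∀ q : ℕ, q.Prime → C < q → (q : ℝ) < X → D.Coprime q z := by
    intro n hn
    obtain ⟨hn1, hne, p, hp, hXp, hdvd⟩ := Finset.mem_filter.1 hn
    obtain ⟨hn1, hnX⟩ := Finset.mem_Icc.1 hn1
    have hpR : (X : ℝ) < p := by exact_mod_cast hXp
    have hp0 : (0 : ℝ) < p := by linarith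
    obtain ⟨z, hzm, hzpt, hzc, hzρ, hzμ, hzp, hzcop⟩ := hpt (a * n) (|(a : ℝ)| * X) p hp
      (by linarith)
      (by
        push_cast
        rw [abs_mul, Nat.abs_cast]
        exact mul_le_mul_of_nonneg_left (by exact_mod_cast hnX) (abs_nonneg _))
      (one_le_mul_of_one_le_of_one_le ha1 hXR.le)
      (by rw [hev]; exact dvd_mul_of_dvd_right hdvd _)
    set π := Real.logb X p with hπ
    have hpπ : (X : ℝ) ^ π = p := Real.rpow_logb hX0 hXR.ne' hp0
    have hπ1 : 1 < π := by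
      rw [← Real.rpow_lt_rpow_left_iff hXR, hpπ, Real.rpow_one]
      exact hpR
    have hπd : π ≤ (d : ℝ) / k + h := by
      have hkR : (0 : ℝ) < k := by exact_mod_cast (by omega : 0 < k)
      have h1 : (p : ℝ) ^ k ≤ |((f.eval (n : ℤ) : ℤ) : ℝ)| := by
        have := Int.le_of_dvd (abs_pos.2 hne) ((dvd_abs _ _).2 hdvd)
        exact_mod_cast this
      have h2 := abs_eval_le f hdeg hnX (by omega : 1 ≤ X)
      rw [← hCf] at h2
      have h3 : (X : ℝ) ^ (π * k) ≤ (X : ℝ) ^ ((k : ℝ) * h + d) := by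
        rw [Real.rpow_mul hX0.le, hpπ, Real.rpow_natCast, Real.rpow_add hX0, Real.rpow_natCast]
        exact (h1.trans h2).trans (mul_le_mul_of_nonneg_right
          ((le_max_left _ _).trans hXCf) (by positivity))
      have h4 := (Real.rpow_le_rpow_left_iff hXR).1 h3
      have h5 : (d : ℝ) / k * k = d := div_mul_cancel₀ _ hkR.ne'
      nlinarith
    obtain ⟨j, hjJ, hjA, hjM⟩ := hcover π hπ1 hπd
    have hdR : (0 : ℝ) < d := by exact_mod_cast (by omega : 0 < d)
    have hpA : (p : ℝ) ^ (1 / (d : ℝ)) ≤ (X : ℝ) ^ Av j := by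
      rw [← hpπ, ← Real.rpow_mul hX0.le]
      refine Real.rpow_le_rpow_of_exponent_le hXR.le ?_
      rw [mul_one_div]
      exact hjA
    have hpM : (X : ℝ) / (p : ℝ) ^ ((k : ℝ) / d) ≤ (X : ℝ) ^ Mv j := by
      rw [← hpπ, ← Real.rpow_mul hX0.le]
      nth_rewrite 1 [← Real.rpow_one (X : ℝ)]
      rw [← Real.rpow_sub hX0]
      refine Real.rpow_le_rpow_of_exponent_le hXR.le (le_trans (le_of_eq ?_) hjM)
      ring
    refine ⟨p, z, j, hp, hXp, (dvd_pow_self _ (by omega)).trans hdvd, hzp, hzm, hzpt, Finset.mem_range.2 hjJ,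
      ⟨?_, fun l => ?_, fun φ i => ?_, fun φ i => ?_⟩, ?_⟩
    · rw [hzm]
      push_cast
      rw [abs_mul, Nat.abs_cast]
      exact mul_le_mul hC0a (by exact_mod_cast hnX) (Nat.cast_nonneg _) (by positivity)
    · exact (hzc l).trans (mul_le_mul hC0C hpA (by positivity) (by positivity))
    · exact (hzρ φ i).trans (mul_le_mul hC0C hpA (by positivity) (by positivity))
    · refine (hzμ φ i).trans ?_
      rw [mul_div_assoc, mul_div_assoc, ← mul_assoc]
      exact mul_le_mul_of_nonneg_left hpM (by positivity)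
    · intro q hq hqC hqX
      refine hzcop q ((Nat.coprime_primes hq hp).2 ?_) fun q' hq' hdv => ?_
      · intro he'
        rw [he'] at hqX
        linarith
      · rwa [(Nat.prime_dvd_prime_iff_eq hq' hq).1 hdv]
  have : Nonempty (Pt d L) := ⟨⟨0, 0, 0⟩⟩
  choose! pn zn jn hp hXp hpf hpρ hzm hzpt hjn hzb hzc using hsel
  have hinj : Set.InjOn zn (S : Set ℕ) := fun n hn n' hn' heq => by
    have h1 := hzm n hn
    rw [heq, hzm n' hn'] at h1
    exact_mod_cast (mul_left_cancel₀ ha0 h1).symm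
  have hfib : ∀ j ∈ Finset.range J, ((S.filter fun n => jn n = j).card : ℝ) ≤
      Cst j * (X : ℝ) ^ θ j := by
    intro j hj
    set Sj := S.filter fun n => jn n = j with hSj
    have hmem : ∀ n ∈ Sj, n ∈ S ∧ jn n = j := fun n hn => Finset.mem_filter.1 hn
    have hgood : D.Good k R C₀ C X (Av j) (Mv j) B₀ (Sj.image zn) := by
      refine ⟨?_, ?_, ?_, ?_, ?_⟩
      · intro z hz
        obtain ⟨n, hn, rfl⟩ := Finset.mem_image.1 hz
        exact hzpt n (hmem n hn).1
      · intro z hz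
        obtain ⟨n, hn, rfl⟩ := Finset.mem_image.1 hz
        obtain ⟨hnS, hnj⟩ := hmem n hn
        rw [← hnj]
        exact hzb n hnS
      · intro q hq h1 h2 z hz
        obtain ⟨n, hn, rfl⟩ := Finset.mem_image.1 hz
        exact hzc n (hmem n hn).1 q hq h1 h2
      · intro z hz z' hz' heq
        obtain ⟨n, hn, rfl⟩ := Finset.mem_image.1 hz
        obtain ⟨n', hn', rfl⟩ := Finset.mem_image.1 hz'
        rw [hzm n (hmem n hn).1, hzm n' (hmem n' hn').1] at heq
        rw [show n = n' by exact_mod_cast mul_left_cancel₀ ha0 heq]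
      · intro U hU hUc
        rcases U.eq_empty_or_nonempty with rfl | ⟨z₀, hz₀⟩
        · simp
        obtain ⟨n₀, hn₀, hn₀z⟩ := Finset.mem_image.1 (hU hz₀)
        set N := (Algebra.norm ℤ (∏ i, D.ρ z₀ i)).natAbs with hN
        have hNz : N ≠ 0 := by
          rw [hN, Int.natAbs_ne_zero, Algebra.norm_ne_zero_iff]
          refine Finset.prod_ne_zero_iff.2 fun i _ => ?_
          rw [← hn₀z]
          exact (hzpt n₀ (hmem n₀ hn₀).1).ne i
        obtain ⟨hA0, hA1⟩ := hAv j (Finset.mem_range.1 hj)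
        have hNb : (N : ℝ) ≤ (X : ℝ) ^ (((d * e + 1 : ℕ)) : ℝ) := by
          rw [Real.rpow_natCast, hN, natAbs_norm_eq_prod]
          have hb : D.Bdd C₀ X (Av j) (Mv j) z₀ := by
            rw [← hn₀z, ← (hmem n₀ hn₀).2]
            exact hzb n₀ (hmem n₀ hn₀).1
          calc ∏ σ : L →+* ℂ, ‖σ ((∏ i, D.ρ z₀ i : 𝓞 L) : L)‖
              ≤ ∏ _σ : L →+* ℂ, (C₀ * X) ^ d := by
                refine Finset.prod_le_prod (fun _ _ => norm_nonneg _) fun σ _ => ?_
                rw [RingOfIntegers.coe_eq_algebraMap, map_prod, map_prod, norm_prod]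
                calc _ ≤ ∏ _i : Fin d, C₀ * (X : ℝ) := by
                      refine Finset.prod_le_prod (fun _ _ => norm_nonneg _) fun i _ => ?_
                      refine (hb.ρ_le σ i).trans (mul_le_mul_of_nonneg_left ?_ (by linarith))
                      calc (X : ℝ) ^ Av j ≤ (X : ℝ) ^ (1 : ℝ) :=
                            Real.rpow_le_rpow_of_exponent_le hXR.le hA1
                        _ = X := Real.rpow_one _
                  _ = (C₀ * X) ^ d := by simp
            _ = C₀ ^ (d * e) * (X : ℝ) ^ (d * e) := by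
                rw [Finset.prod_const, ← he, ← pow_mul, mul_pow]
            _ ≤ (X : ℝ) * (X : ℝ) ^ (d * e) := mul_le_mul_of_nonneg_right hXe (by positivity)
            _ = _ := by ring
        set T := Sj.filter fun n => zn n ∈ U with hT
        have hUT : U = T.image zn := by
          refine Finset.Subset.antisymm (fun z hz => ?_) fun z hz => ?_
          · obtain ⟨n, hn, rfl⟩ := Finset.mem_image.1 (hU hz)
            exact Finset.mem_image.2 ⟨n, Finset.mem_filter.2 ⟨hn, hz⟩, rfl⟩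
          · obtain ⟨n, hn, rfl⟩ := Finset.mem_image.1 hz
            exact (Finset.mem_filter.1 hn).2
        have hTS : ∀ n ∈ T, n ∈ S := fun n hn => (hmem n (Finset.mem_filter.1 hn).1).1
        have hP : ∀ p ∈ T.image pn, p.Prime ∧ (X : ℝ) ≤ p ∧ p ∣ N := by
          intro p hp'
          obtain ⟨n, hn, rfl⟩ := Finset.mem_image.1 hp'
          refine ⟨hp n (hTS n hn), by exact_mod_cast (hXp n (hTS n hn)).le, ?_⟩
          have hc : (zn n).c = z₀.c := hUc _ (Finset.mem_filter.1 hn).2 _ hz₀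
          have h1 : (pn n : 𝓞 L) ∣ ∏ i, D.ρ z₀ i := by
            have h0 := hpρ n (hTS n hn)
            simp only [RootData.ρ, hc] at h0
            exact h0
          have h2 := map_dvd (Algebra.norm ℤ) h1
          rw [show ((pn n : ℕ) : 𝓞 L) = algebraMap ℤ (𝓞 L) (pn n : ℤ) by simp,
            Algebra.norm_algebraMap] at h2
          exact Int.natCast_dvd.1 ((dvd_pow_self _ Module.finrank_pos.ne').trans h2)
        have hPc : (T.image pn).card ≤ d * e + 1 := by
          exact_mod_cast card_prime_divisors_le hNz hXR hNb (T.image pn) hP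
        rw [hUT, Finset.card_image_of_injOn (hinj.mono fun n hn => hTS n hn), hB0]
        calc T.card ≤ d * (T.image pn).card := by
              refine Finset.card_le_mul_card_image T d fun p hp' => ?_
              obtain ⟨n₁, hn₁, rfl⟩ := Finset.mem_image.1 hp'
              refine card_roots_mod_le f hdeg (hp n₁ (hTS n₁ hn₁)) ?_ ha0 (hXp n₁ (hTS n₁ hn₁)) _ ?_
              · have h1 : (a.natAbs : ℝ) ≤ X := by
                  rw [Nat.cast_natAbs, Int.cast_abs]
                  exact hXa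
                have h1' : a.natAbs ≤ X := by exact_mod_cast h1
                exact lt_of_le_of_lt h1' (hXp n₁ (hTS n₁ hn₁))
              · intro n hn
                obtain ⟨hnT, hnp⟩ := Finset.mem_filter.1 hn
                refine ⟨(Finset.mem_Icc.1 (Finset.mem_filter.1 (hTS n hnT)).1).2, ?_⟩
                rw [← hnp]
                exact hpf n (hTS n hnT)
          _ ≤ (d * e + 1) * d := by
              rw [mul_comm]
              exact Nat.mul_le_mul_right _ hPc
    have hcard : Sj.card = (Sj.image zn).card :=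
      (Finset.card_image_of_injOn (hinj.mono fun n hn => (hmem n hn).1)).symm
    rw [hcard]
    exact hW j (Finset.mem_range.1 hj) X (hX1 j hj) _ hgood
  rw [hcount, Finset.card_eq_sum_card_fiberwise (t := Finset.range J) (f := jn)
    (fun n hn => hjn n hn), div_le_iff₀ hX0, Finset.sum_mul]
  push_cast
  refine Finset.sum_le_sum fun j hj => (hfib j hj).trans (le_of_eq ?_)
  rw [mul_assoc, ← Real.rpow_add_one hX0.ne', sub_add_cancel]

/-- The criterion bounds the number of values divisible by a large prime power. -/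
theorem largeCount_tendsto (f : Polynomial ℤ) {d k : ℕ} (hdeg : f.natDegree = d)
    (hf : Irreducible (f.map (Int.castRingHom ℚ))) (hk : 2 ≤ k) (hkd : k ≤ d)
    (hcrit : Crit d k) :
    Tendsto (fun X : ℕ => (largeCount f k X : ℝ) / X) atTop (𝓝 0) := by
  obtain ⟨h, hh, hh', hsum⟩ := exists_step (by omega) hk hcrit
  have hkR : (0 : ℝ) < k := by exact_mod_cast (by omega : 0 < k)
  have hdk : (1 : ℝ) ≤ (d : ℝ) / k := by
    rw [le_div_iff₀ hkR, one_mul]; exact_mod_cast hkd
  have hdR : (0 : ℝ) < d := by exact_mod_cast (by omega : 0 < d)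
  set xs : ℕ → ℝ := fun j => min (1 + j * h) ((d : ℝ) / k) with hxs
  have hxs1 : ∀ j, 1 ≤ xs j ∧ xs j ≤ (d : ℝ) / k := fun j =>
    ⟨le_min (le_add_of_nonneg_right (mul_nonneg (Nat.cast_nonneg _) hh.le)) hdk, min_le_right _ _⟩
  refine largeCount_tendsto_of_cells f hdeg hf hk hkd hh (⌊(d : ℝ) / k / h + 1⌋₊ + 1)
    (fun j => aPar d (xs j) h) (fun j => mPar d k (xs j) h)
    (fun j => (∑ s ∈ Finset.range (d + 1), gPar d k (xs j) h s) + h) ?_ ?_ ?_ ?_
  · intro j _
    obtain ⟨hA, hA1, -⟩ := gPar_spec hk hkd (hxs1 j).1 (hxs1 j).2 hh hh'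
    exact ⟨hA, hA1⟩
  · exact fun j _ => hsum _ (hxs1 j).1 (hxs1 j).2
  · intro π hπ1 hπd
    set j := ⌊(π - 1) / h⌋₊ with hj
    have hj1 : (j : ℝ) ≤ (π - 1) / h := Nat.floor_le (div_nonneg (by linarith) hh.le)
    have hj2 : (π - 1) / h < j + 1 := Nat.lt_floor_add_one _
    rw [le_div_iff₀ hh] at hj1
    rw [div_lt_iff₀ hh] at hj2
    have hlo : xs j ≤ π := (min_le_left _ _).trans (by linarith)
    have hhi : π ≤ xs j + 2 * h := by
      rcases min_choice (1 + (j : ℝ) * h) ((d : ℝ) / k) with h1 | h1 <;>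
        · simp only [hxs, h1]
          linarith
    refine ⟨j, Nat.lt_succ_of_le (Nat.le_floor ?_), ?_, ?_⟩
    · rw [div_add_one hh.ne', le_div_iff₀ hh]
      linarith
    · exact div_le_div_of_nonneg_right hhi hdR.le
    · have h1 : (k : ℝ) * xs j / d ≤ k * π / d :=
        div_le_div_of_nonneg_right (mul_le_mul_of_nonneg_left hlo (Nat.cast_nonneg _)) hdR.le
      have h2 := le_max_left (1 - (k : ℝ) * xs j / d) 0
      show 1 - (k : ℝ) * π / d ≤ mPar d k (xs j) h
      rw [mPar]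
      linarith
  · intro j _ L _ _ D R hR C₀ hC₀ C₁ B₀
    obtain ⟨hA, -, hM, hcap, hanti, hlast, hcond⟩ :=
      gPar_spec hk hkd (hxs1 j).1 (hxs1 j).2 hh hh'
    exact cell_bound D (by omega) hR hA hM _ hcap hanti hlast hcond hh hC₀ C₁ B₀

end Vale.Agent.P018
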