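import Vale.Agent.P018.Det
import Vale.Agent.P018.Counting

/-!
# Choice of the parameters of the determinant
-/

namespace Vale.Agent.P018

open Finset Filter Topology

lemma card_eset_le (a b : ℝ) (s T B : ℕ) :
    (eset a b s T B).card ≤ (T + 1) * (2 * B + 1) ^ s := by
  refine (Finset.card_filter_le _ _).trans ?_
  rw [Finset.card_product, Finset.card_range, sbox, Fintype.card_piFinset]
  simp only [Int.card_Icc, Finset.prod_const, Finset.card_univ, Fintype.card_fin]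
  have : ((B : ℤ) + 1 - -(B : ℤ)).toNat = 2 * B + 1 := by omega
  rw [this]

/-- If `g ^ (s+1) * (1/a + 1/b) ^ s > 1` the divisibility beats the archimedean size. -/
theorem exists_params {s : ℕ} {a b g c0 : ℝ} (ha : 0 < a) (hb : 0 < b) (hg : 0 < g)
    (hcond : 1 < g ^ (s + 1) * (1 / a + 1 / b) ^ s) :
    ∃ T W B : ℕ,
      (∑ x ∈ eset a b s T B, ((x.1 : ℝ) + ∑ i, wt a b (x.2 i))) +
          c0 * (eset a b s T B).card + 1 ≤
        g * ((W * (eset a b s T B).card - (W + (s + 1)).choose (s + 2) : ℕ) : ℝ) := by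
  set mn := min a b with hmn
  have hmn0 : 0 < mn := lt_min ha hb
  set K : ℝ := (1 / a + 1 / b) ^ s with hK
  have hK0 : 0 < K := by positivity
  set F : ℝ := ((s + 2).factorial : ℝ) with hF
  have hF0 : 0 < F := by rw [hF]; exact_mod_cast Nat.factorial_pos _
  set c' : ℝ := 1 + s * (a + b) with hc'
  let f : ℝ → ℝ := fun x => K * (max (1 - c' * x) 0) ^ (s + 2) / F
    - g * (1 / g + (s + 2) * x) ^ (s + 2) / F
    - (|c0| + 1) * (x * (1 + x) * (2 / mn + 3 * x) ^ s) - x ^ (s + 2)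
  have hf : Continuous f := by
    simp only [f]
    fun_prop
  have hf0 : 0 < f 0 := by
    have e : f 0 = (K - g * (1 / g) ^ (s + 2)) / F := by simp [f]; ring
    rw [e]
    refine div_pos ?_ hF0
    have h1 : g * (1 / g) ^ (s + 2) = 1 / g ^ (s + 1) := by
      rw [one_div, inv_pow, pow_succ g (s + 1), mul_inv, one_div, mul_comm (g ^ (s+1))⁻¹ g⁻¹,
        ← mul_assoc, mul_inv_cancel₀ hg.ne', one_mul]
    rw [h1, sub_pos, div_lt_iff₀ (pow_pos hg _), mul_comm]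
    exact hcond
  have ht : Tendsto (fun n : ℕ => f ((n : ℝ)⁻¹)) atTop (𝓝 (f 0)) :=
    (hf.tendsto 0).comp tendsto_inv_atTop_nhds_zero_nat
  obtain ⟨T, hT1, hTpos⟩ := ((eventually_ge_atTop 1).and (ht.eventually_const_lt hf0)).exists
  have hT0 : (0 : ℝ) < T := by exact_mod_cast (hT1 : 1 ≤ T)
  set W := ⌈(T : ℝ) / g⌉₊ with hW
  set B := ⌈(T : ℝ) / mn⌉₊ with hB
  refine ⟨T, W, B, ?_⟩
  have hBa : (T : ℝ) ≤ B * a := by
    have := (div_le_iff₀ hmn0).1 (Nat.le_ceil ((T : ℝ) / mn))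
    calc (T : ℝ) ≤ B * mn := this
      _ ≤ B * a := by gcongr; exact min_le_left _ _
  have hBb : (T : ℝ) ≤ B * b := by
    have := (div_le_iff₀ hmn0).1 (Nat.le_ceil ((T : ℝ) / mn))
    calc (T : ℝ) ≤ B * mn := this
      _ ≤ B * b := by gcongr; exact min_le_right _ _
  have hsum := sum_cost_le ha hb s T B hBa hBb
  set N := (eset a b s T B).card with hN
  have hWT : (T : ℝ) ≤ g * W := by
    have := (div_le_iff₀ hg).1 (Nat.le_ceil ((T : ℝ) / g))
    linarith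
  have hch : (((W + (s + 1)).choose (s + 2) : ℕ) : ℝ) ≤
      ((T : ℝ) / g + (s + 2)) ^ (s + 2) / F := by
    refine (Nat.choose_le_pow_div _ _).trans ?_
    rw [hF]
    gcongr
    push_cast
    have := (Nat.ceil_lt_add_one (show (0:ℝ) ≤ (T : ℝ) / g by positivity)).le
    linarith
  have hNle : (N : ℝ) ≤ ((T : ℝ) + 1) * (2 * ((T : ℝ) / mn) + 3) ^ s := by
    have h1 : ((eset a b s T B).card : ℝ) ≤ (((T + 1) * (2 * B + 1) ^ s : ℕ) : ℝ) := by
      exact_mod_cast card_eset_le a b s T B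
    push_cast at h1
    refine h1.trans (mul_le_mul_of_nonneg_left (pow_le_pow_left₀ (by positivity) ?_ _) (by positivity))
    have := (Nat.ceil_lt_add_one (show (0:ℝ) ≤ (T : ℝ) / mn by positivity)).le
    linarith
  -- scale the positivity of `f` by `T ^ (s+2)`
  have hpow : (0 : ℝ) < (T : ℝ) ^ (s + 2) := pow_pos hT0 _
  have hscaled : 0 < (T : ℝ) ^ (s + 2) * f ((T : ℝ)⁻¹) := mul_pos hpow hTpos
  have e1 : (T : ℝ) ^ (s + 2) * (K * (max (1 - c' * (T : ℝ)⁻¹) 0) ^ (s + 2) / F) =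
      K * (max ((T : ℝ) - 1 - s * (a + b)) 0) ^ (s + 2) / F := by
    have h : (T : ℝ) * max (1 - c' * (T : ℝ)⁻¹) 0 = max ((T : ℝ) - 1 - s * (a + b)) 0 := by
      rw [mul_max_of_nonneg _ _ hT0.le, mul_zero]
      congr 1
      rw [hc']; field_simp; ring
    rw [← h, mul_pow]; ring
  have e2 : (T : ℝ) ^ (s + 2) * (g * (1 / g + (s + 2) * (T : ℝ)⁻¹) ^ (s + 2) / F) =
      g * ((T : ℝ) / g + (s + 2)) ^ (s + 2) / F := by
    have h : (T : ℝ) * (1 / g + (s + 2) * (T : ℝ)⁻¹) = (T : ℝ) / g + (s + 2) := by field_simp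
    rw [← h, mul_pow]; ring
  have e3 : (T : ℝ) ^ (s + 2) * ((|c0| + 1) * ((T : ℝ)⁻¹ * (1 + (T : ℝ)⁻¹) *
      (2 / mn + 3 * (T : ℝ)⁻¹) ^ s)) =
      (|c0| + 1) * (((T : ℝ) + 1) * (2 * ((T : ℝ) / mn) + 3) ^ s) := by
    have h : (T : ℝ) * (2 / mn + 3 * (T : ℝ)⁻¹) = 2 * ((T : ℝ) / mn) + 3 := by field_simp
    rw [← h, mul_pow, pow_add]; field_simp
  have e4 : (T : ℝ) ^ (s + 2) * ((T : ℝ)⁻¹) ^ (s + 2) = 1 := by
    rw [← mul_pow, mul_inv_cancel₀ hT0.ne', one_pow]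
  simp only [f, mul_sub] at hscaled
  rw [e1, e2, e3, e4] at hscaled
  have hsub : ((W * N : ℕ) : ℝ) - (((W + (s + 1)).choose (s + 2) : ℕ) : ℝ) ≤
      ((W * N - (W + (s + 1)).choose (s + 2) : ℕ) : ℝ) := by
    have h2 : (W * N : ℕ) ≤ (W * N - (W + (s + 1)).choose (s + 2)) + (W + (s + 1)).choose (s + 2) := by
      omega
    have : ((W * N : ℕ) : ℝ) ≤ ((W * N - (W + (s + 1)).choose (s + 2) : ℕ) : ℝ) +
        (((W + (s + 1)).choose (s + 2) : ℕ) : ℝ) := by exact_mod_cast h2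
    linarith
  refine le_trans ?_ (mul_le_mul_of_nonneg_left hsub hg.le)
  push_cast
  have h1 := mul_le_mul_of_nonneg_right hWT (Nat.cast_nonneg N)
  have h2 := mul_le_mul_of_nonneg_left hch hg.le
  have h3 := mul_le_mul_of_nonneg_left hNle (by positivity : (0:ℝ) ≤ |c0| + 1)
  have h4 : c0 * (N : ℝ) ≤ |c0| * (N : ℝ) :=
    mul_le_mul_of_nonneg_right (le_abs_self _) (Nat.cast_nonneg N)
  have hN0 : (0 : ℝ) ≤ N := Nat.cast_nonneg N
  have h5 : (1 / a + 1 / b) ^ s * (max ((T : ℝ) - 1 - s * (a + b)) 0) ^ (s + 2) /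
      ((s + 2).factorial : ℝ) = K * (max ((T : ℝ) - 1 - s * (a + b)) 0) ^ (s + 2) / F := rfl
  simp only [mul_div_assoc, ← hF] at hscaled h2 h5 hsum
  linarith

end Vale.Agent.P018
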