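import Vale.Agent.P018.Main
import Vale.Agent.P018.Criterion

/-!
# Ranges of `(d, k)` in which the predicted asymptotic holds
-/

namespace Vale.Agent.P018

open Filter Topology

lemma largeCount_eventually_zero (f : Polynomial ℤ) {d k : ℕ} (hdeg : f.natDegree = d)
    (hkd : d < k) : ∀ᶠ X : ℕ in atTop, largeCount f k X = 0 := by
  set Cf := ∑ i ∈ Finset.range (d + 1), |(f.coeff i : ℝ)| with hCf
  filter_upwards [eventually_ge_atTop 1,
    (tendsto_natCast_atTop_atTop (R := ℝ)).eventually_ge_atTop Cf] with X hX1 hXC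
  unfold largeCount
  rw [Nat.card_eq_zero]
  refine Or.inl ⟨?_⟩
  rintro ⟨n, hn, hne, p, hp, hXp, hdvd⟩
  have h1 : (p : ℝ) ^ k ≤ |((f.eval (n : ℤ) : ℤ) : ℝ)| := by
    have := Int.le_of_dvd (abs_pos.2 hne) ((dvd_abs _ _).2 hdvd)
    exact_mod_cast this
  have h2 := abs_eval_le f hdeg (Finset.mem_Icc.1 hn).2 hX1
  rw [← hCf] at h2
  have hX0 : (0 : ℝ) < X := by exact_mod_cast hX1
  have hpX : (X : ℝ) < p := by exact_mod_cast hXp
  have h3 : (X : ℝ) ^ k < (p : ℝ) ^ k := pow_lt_pow_left₀ hpX hX0.le (by omega)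
  have h4 : (X : ℝ) ^ (d + 1) ≤ (X : ℝ) ^ k :=
    pow_le_pow_right₀ (by exact_mod_cast hX1) hkd
  rw [pow_succ'] at h4
  nlinarith [mul_le_mul_of_nonneg_right hXC (pow_nonneg hX0.le d)]

/-- The criterion at `(d, k₀)` gives the predicted asymptotic for every `k ≥ k₀`. -/
theorem asymptotic_of_crit (f : Polynomial ℤ) {d k₀ k : ℕ} (hd : 2 ≤ d) (hdeg : f.natDegree = d)
    (hf : Irreducible (f.map (Int.castRingHom ℚ))) (hk : 2 ≤ k) (hk₀ : 0 < k₀) (hkk : k₀ ≤ k)
    (hcrit : Crit d k₀) :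
    Tendsto (fun X : ℕ => (powerFreeCount f k X : ℝ) / X) atTop (𝓝 (density f k)) := by
  refine asymptotic_of_largeCount f (by omega) hf hk ?_
  by_cases hkd : k ≤ d
  · exact largeCount_tendsto f hdeg hf hk hkd (crit_mono hk₀ (by omega) hkk hcrit)
  · refine (tendsto_congr' ?_).2 tendsto_const_nhds
    filter_upwards [largeCount_eventually_zero f hdeg (show d < k by omega)] with X hX
    simp [hX]

/-- Polynomials of degree below `k`. -/
theorem asymptotic_of_lt (f : Polynomial ℤ) {d k : ℕ} (hd : 1 ≤ d) (hdeg : f.natDegree = d)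
    (hf : Irreducible (f.map (Int.castRingHom ℚ))) (hk : 2 ≤ k) (hkd : d < k) :
    Tendsto (fun X : ℕ => (powerFreeCount f k X : ℝ) / X) atTop (𝓝 (density f k)) := by
  refine asymptotic_of_largeCount f (by omega) hf hk ?_
  refine (tendsto_congr' ?_).2 tendsto_const_nhds
  filter_upwards [largeCount_eventually_zero f hdeg hkd] with X hX
  simp [hX]

end Vale.Agent.P018
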