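import Vale.Agent.P018.Defs
import Vale.Agent.P018.Params

/-!
# One determinant step
-/

namespace Vale.Agent.P018

open NumberField MvPolynomial Finset

lemma eq_zero_of_norm_lt_one {L : Type} [Field L] [NumberField L] (x : 𝓞 L)
    (h : ∀ φ : L →+* ℂ, ‖φ (x : L)‖ < 1) : x = 0 := by
  by_contra hx
  have hx' : (x : L) ≠ 0 := fun h0 => hx (RingOfIntegers.ext h0)
  have h1 : (1 : ℝ) ≤ |((Algebra.norm ℤ x : ℤ) : ℝ)| := by
    have : Algebra.norm ℤ x ≠ 0 := Algebra.norm_ne_zero_iff.2 hx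
    exact_mod_cast Int.one_le_abs this
  have h2 : ((Algebra.norm ℤ x : ℤ) : ℂ) = ∏ σ : L →ₐ[ℚ] ℂ, σ (x : L) := by
    rw [← Algebra.norm_eq_prod_embeddings ℚ ℂ (x : L), ← Algebra.coe_norm_int]
    simp
  have h3 : |((Algebra.norm ℤ x : ℤ) : ℝ)| = ∏ σ : L →ₐ[ℚ] ℂ, ‖σ (x : L)‖ := by
    rw [← norm_prod, ← h2, Complex.norm_intCast]
  have : Nonempty (L →ₐ[ℚ] ℂ) := ⟨IsAlgClosed.lift⟩
  have h4 : ∏ σ : L →ₐ[ℚ] ℂ, ‖σ (x : L)‖ < ∏ _σ : L →ₐ[ℚ] ℂ, (1 : ℝ) :=
    Finset.prod_lt_prod_of_nonempty (fun σ _ => norm_pos_iff.2 ((map_ne_zero σ).2 hx'))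
      (fun σ _ => h σ.toRingHom) Finset.univ_nonempty
  simp at h4
  linarith

/-- Exponent of `μ` attached to a signed exponent. -/
def eExp (k : ℕ) (β : ℤ) : ℕ := ((-β).toNat + (k - 1)) / k

/-- Exponent of `ρ` attached to a signed exponent. -/
def aExp (k : ℕ) (β : ℤ) : ℕ := (β + (k : ℤ) * eExp k β).toNat

lemma eExp_spec {k : ℕ} (hk : 1 ≤ k) (β : ℤ) :
    (-β).toNat ≤ k * eExp k β ∧ k * eExp k β ≤ (-β).toNat + (k - 1) := by
  unfold eExp
  refine ⟨?_, Nat.mul_div_le _ _⟩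
  have h1 := Nat.div_add_mod ((-β).toNat + (k - 1)) k
  have h2 := Nat.mod_lt ((-β).toNat + (k - 1)) (show 0 < k by omega)
  omega

lemma eExp_le {k : ℕ} (hk : 1 ≤ k) (β : ℤ) : eExp k β ≤ (-β).toNat := by
  unfold eExp
  rcases Nat.eq_zero_or_pos (-β).toNat with h | h
  · rw [h, Nat.zero_add, Nat.div_eq_of_lt (by omega)]
  · exact Nat.div_le_of_le_mul (by nlinarith [Nat.sub_add_cancel hk])

lemma aExp_eq {k : ℕ} (hk : 1 ≤ k) (β : ℤ) : (aExp k β : ℤ) = β + (k : ℤ) * eExp k β := by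
  unfold aExp
  rw [Int.toNat_of_nonneg]
  have h := (eExp_spec hk β).1
  have : (((-β).toNat : ℕ) : ℤ) ≤ ((k * eExp k β : ℕ) : ℤ) := by exact_mod_cast h
  push_cast at this
  omega

lemma exp_cost {k : ℕ} (hk : 1 ≤ k) {A M : ℝ} (hA : 0 ≤ A) (hM : 0 ≤ M) (β : ℤ) :
    (eExp k β : ℝ) * M + (aExp k β : ℝ) * A ≤ wt A (M / k) β + (M + k * A) := by
  have ha := aExp_eq hk β
  obtain ⟨h1, h2⟩ := eExp_spec hk β
  have hkR : (0 : ℝ) < k := by exact_mod_cast hk
  have hk1 : (1 : ℝ) ≤ k := by exact_mod_cast hk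
  have hR : (aExp k β : ℝ) = (β : ℝ) + (k : ℝ) * eExp k β := by exact_mod_cast ha
  unfold wt
  split
  · rename_i h
    have he : eExp k β = 0 := by
      have := eExp_le hk β
      omega
    rw [he] at hR ⊢
    rw [hR]
    push_cast
    nlinarith [mul_nonneg hkR.le hA]
  · rename_i h
    push Not at h
    have hn : (((-β).toNat : ℕ) : ℝ) = -(β : ℝ) := by
      have : (((-β).toNat : ℕ) : ℤ) = -β := by omega
      exact_mod_cast this
    have h2' : (k : ℝ) * eExp k β ≤ -(β : ℝ) + ((k : ℝ) - 1) := by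
      rw [← hn]
      have : ((k * eExp k β : ℕ) : ℝ) ≤ (((-β).toNat + (k - 1) : ℕ) : ℝ) := by exact_mod_cast h2
      push_cast [Nat.cast_sub hk] at this
      linarith
    have ha' : (aExp k β : ℝ) ≤ k := by rw [hR]; linarith
    have he' : (eExp k β : ℝ) ≤ -(β : ℝ) / k + 1 := by
      rw [div_add_one hkR.ne', le_div_iff₀ hkR]
      linarith
    have e : M / (k : ℝ) * -(β : ℝ) = (-(β : ℝ) / k) * M := by ring
    rw [e]
    nlinarith [mul_le_mul_of_nonneg_right he' hM, mul_le_mul_of_nonneg_right ha' hA]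

section

variable {d : ℕ} {L : Type} [Field L] [NumberField L] (D : RootData d L) (k : ℕ) (R : ℤ)
variable {s : ℕ} (t : Fin s → Fin d)

/-- The algebraic integer attached to an exponent vector at a point. -/
noncomputable def phi (z : Pt d L) (x : ℕ × (Fin s → ℤ)) : 𝓞 L :=
  (z.m : 𝓞 L) ^ x.1 *
    ∏ i, (z.μ (t i) ^ eExp k (x.2 i) * D.ρ z (t i) ^ aExp k (x.2 i))

/-- The corresponding polynomial after clearing the denominators with `ρ ^ B`. -/
noncomputable def colPoly (B : ℕ) (x : ℕ × (Fin s → ℤ)) : MvPolynomial (Option (Fin s)) (𝓞 L) :=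
  X none ^ x.1 * ∏ i, ((C ((R : 𝓞 L)) * (X none - C (D.θ (t i)))) ^ eExp k (x.2 i) *
    X (some i) ^ ((x.2 i) + (B : ℤ)).toNat)

/-- The coordinates used by `colPoly`. -/
noncomputable def coordT (z : Pt d L) : Option (Fin s) → 𝓞 L
  | none => (z.m : 𝓞 L)
  | some i => D.ρ z (t i)

lemma eval_colPoly (hk : 1 ≤ k) (B : ℕ) (x : ℕ × (Fin s → ℤ))
    (hx : ∀ i, -(B : ℤ) ≤ x.2 i) (z : Pt d L) (hz : D.IsPt k R z) :
    eval (coordT D t z) (colPoly D k R t B x) =
      phi D k t z x * ∏ i, D.ρ z (t i) ^ B := by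
  simp only [colPoly, phi, map_mul, map_pow, map_prod, map_sub, eval_X, eval_C, coordT]
  rw [mul_assoc, ← Finset.prod_mul_distrib]
  congr 1
  refine Finset.prod_congr rfl fun i _ => ?_
  rw [← hz.rel (t i), mul_pow, ← pow_mul]
  have h1 := aExp_eq hk (x.2 i)
  have h2 := hx i
  have e : k * eExp k (x.2 i) + ((x.2 i) + (B : ℤ)).toNat = aExp k (x.2 i) + B := by
    have : ((k * eExp k (x.2 i) + ((x.2 i) + (B : ℤ)).toNat : ℕ) : ℤ) =
        ((aExp k (x.2 i) + B : ℕ) : ℤ) := by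
      push_cast
      omega
    exact_mod_cast this
  rw [mul_assoc, mul_assoc, ← pow_add, ← pow_add, e]

lemma colPoly_combination_ne_zero (hR : R ≠ 0) (B T : ℕ) (a b : ℝ)
    (c : eset a b s T B → L) (hc : c ≠ 0) :
    ∑ x : eset a b s T B, C (c x) *
      MvPolynomial.map (algebraMap (𝓞 L) L) (colPoly D k R t B x.1) ≠ 0 := by
  classical
  intro h0
  obtain ⟨x0, hx0⟩ := Function.ne_iff.1 hc
  apply hx0
  have hbox : ∀ x : eset a b s T B, ∀ i, -(B : ℤ) ≤ x.1.2 i := by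
    intro x i
    have h := x.2
    simp only [eset, Finset.mem_filter, Finset.mem_product, sbox, Fintype.mem_piFinset,
      Finset.mem_Icc] at h
    exact (h.1.2 i).1
  let expo : (Fin s → ℤ) → (Fin s →₀ ℕ) := fun β =>
    Finsupp.equivFunOnFinite.symm fun i => (β i + (B : ℤ)).toNat
  let q : ℕ × (Fin s → ℤ) → Polynomial L := fun x =>
    Polynomial.X ^ x.1 * ∏ i, (Polynomial.C (R : L) *
      (Polynomial.X - Polynomial.C (D.θ (t i) : L))) ^ eExp k (x.2 i)
  have himage : ∀ x : ℕ × (Fin s → ℤ),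
      optionEquivRight L (Fin s) (MvPolynomial.map (algebraMap (𝓞 L) L) (colPoly D k R t B x)) =
        monomial (expo x.2) (q x) := by
    intro x
    rw [monomial_eq, Finsupp.prod_fintype _ _ (fun i => pow_zero _)]
    simp only [colPoly, q, expo, map_mul, map_pow, map_prod, map_sub, MvPolynomial.map_X,
      MvPolynomial.map_C, optionEquivRight_X_none, optionEquivRight_X_some, optionEquivRight_C,
      map_intCast, Finsupp.equivFunOnFinite_symm_apply_apply]
    rw [Finset.prod_mul_distrib, mul_assoc]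
  have h1 := congrArg (fun P => MvPolynomial.coeff (expo x0.1.2) (optionEquivRight L (Fin s) P)) h0
  simp only [map_sum, map_mul, himage, optionEquivRight_C, map_zero, coeff_sum, coeff_C_mul,
    coeff_monomial, coeff_zero] at h1
  have hexpo : ∀ x : eset a b s T B, expo x.1.2 = expo x0.1.2 ↔ x.1.2 = x0.1.2 := by
    intro x
    refine ⟨fun h => funext fun i => ?_, fun h => by rw [h]⟩
    have h2 := congrArg (fun e : Fin s →₀ ℕ => e i) h
    simp [expo] at h2
    have := hbox x i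
    have := hbox x0 i
    omega
  have h2 : (∑ x : eset a b s T B, if x.1.2 = x0.1.2 then
      Polynomial.C (c x) * Polynomial.X ^ x.1.1 else 0) *
      ∏ i, (Polynomial.C (R : L) * (Polynomial.X - Polynomial.C (D.θ (t i) : L))) ^
        eExp k (x0.1.2 i) = 0 := by
    rw [Finset.sum_mul]
    refine Eq.trans ?_ h1
    refine Finset.sum_congr rfl fun x _ => ?_
    by_cases hx : x.1.2 = x0.1.2
    · rw [if_pos hx, if_pos ((hexpo x).2 hx)]
      simp only [q, hx]
      ring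
    · simp [hx, hexpo x]
  rcases mul_eq_zero.1 h2 with h3 | h3
  · have h4 := congrArg (fun P : Polynomial L => P.coeff x0.1.1) h3
    simp only [Polynomial.finsetSum_coeff, Polynomial.coeff_zero] at h4
    rw [Finset.sum_eq_single x0] at h4
    · simpa using h4
    · intro x _ hne
      by_cases hx : x.1.2 = x0.1.2
      · rw [if_pos hx, Polynomial.coeff_C_mul, Polynomial.coeff_X_pow, if_neg, mul_zero]
        intro h
        exact hne (Subtype.ext (Prod.ext h.symm hx))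
      · rw [if_neg hx, Polynomial.coeff_zero]
    · simp
  · exfalso
    refine absurd h3 (Finset.prod_ne_zero_iff.2 fun i _ => pow_ne_zero _ (mul_ne_zero ?_ ?_))
    · simpa using hR
    · exact Polynomial.X_sub_C_ne_zero _

lemma totalDegree_colPoly (B T : ℕ) (hk : 1 ≤ k) (x : ℕ × (Fin s → ℤ)) (hj : x.1 ≤ T)
    (hx : ∀ i, -(B : ℤ) ≤ x.2 i ∧ x.2 i ≤ B) :
    (MvPolynomial.map (algebraMap (𝓞 L) L) (colPoly D k R t B x)).totalDegree ≤ T + s * (3 * B) := by
  refine le_trans (Finset.sup_mono (MvPolynomial.support_map_subset _ _)) ?_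
  refine (totalDegree_mul _ _).trans (Nat.add_le_add ?_ ?_)
  · refine (totalDegree_pow _ _).trans ?_
    simp [totalDegree_X, hj]
  · refine (totalDegree_finsetProd _ _).trans ((Finset.sum_le_sum fun i _ => ?_).trans
      (le_of_eq (by simp : ∑ _i : Fin s, 3 * B = s * (3 * B))))
    refine (totalDegree_mul _ _).trans ?_
    have h1 : ((C ((R : 𝓞 L)) * (X none - C (D.θ (t i)))) ^ eExp k (x.2 i) :
        MvPolynomial (Option (Fin s)) (𝓞 L)).totalDegree ≤ eExp k (x.2 i) * 1 := by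
      refine (totalDegree_pow _ _).trans (Nat.mul_le_mul_left _ ?_)
      refine (totalDegree_mul _ _).trans ?_
      rw [totalDegree_C, Nat.zero_add]
      refine (totalDegree_sub _ _).trans ?_
      simp [totalDegree_X]
    have h2 : (X (some i) ^ ((x.2 i) + (B : ℤ)).toNat :
        MvPolynomial (Option (Fin s)) (𝓞 L)).totalDegree ≤ ((x.2 i) + (B : ℤ)).toNat := by
      refine (totalDegree_pow _ _).trans ?_
      simp [totalDegree_X]
    have := eExp_le hk (x.2 i)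
    have := hx i
    omega

lemma norm_phi_le (hk : 1 ≤ k) {C₀ X₀ A M : ℝ} (hC : 1 ≤ C₀) (hX : 1 ≤ X₀) (hA : 0 ≤ A)
    (hM : 0 ≤ M) (z : Pt d L) (hb : D.Bdd C₀ X₀ A M z) (φ : L →+* ℂ) (x : ℕ × (Fin s → ℤ)) :
    ‖φ (phi D k t z x : L)‖ ≤
      C₀ ^ (x.1 + ∑ i, (eExp k (x.2 i) + aExp k (x.2 i))) *
        X₀ ^ ((x.1 : ℝ) + ∑ i, wt A (M / k) (x.2 i) + s * (M + k * A)) := by
  have hX0 : 0 < X₀ := by linarith
  have hC0 : 0 ≤ C₀ := by linarith
  simp only [phi, map_mul, map_pow, map_prod, norm_mul, norm_pow, norm_prod, map_intCast,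
    Complex.norm_intCast]
  have hm : |(z.m : ℝ)| ^ x.1 ≤ C₀ ^ x.1 * X₀ ^ (x.1 : ℝ) := by
    rw [Real.rpow_natCast, ← mul_pow]
    exact pow_le_pow_left₀ (abs_nonneg _) hb.m_le _
  have hi : ∀ i : Fin s,
      ‖φ (z.μ (t i) : L)‖ ^ eExp k (x.2 i) * ‖φ (D.ρ z (t i) : L)‖ ^ aExp k (x.2 i) ≤
        C₀ ^ (eExp k (x.2 i) + aExp k (x.2 i)) * X₀ ^ (wt A (M / k) (x.2 i) + (M + k * A)) := by
    intro i
    calc ‖φ (z.μ (t i) : L)‖ ^ eExp k (x.2 i) * ‖φ (D.ρ z (t i) : L)‖ ^ aExp k (x.2 i)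
        ≤ (C₀ * X₀ ^ M) ^ eExp k (x.2 i) * (C₀ * X₀ ^ A) ^ aExp k (x.2 i) := by
          gcongr
          · exact hb.μ_le φ _
          · exact hb.ρ_le φ _
      _ = C₀ ^ (eExp k (x.2 i) + aExp k (x.2 i)) *
          X₀ ^ ((eExp k (x.2 i) : ℝ) * M + (aExp k (x.2 i) : ℝ) * A) := by
          rw [mul_pow, mul_pow, ← Real.rpow_natCast (X₀ ^ M), ← Real.rpow_natCast (X₀ ^ A),
            ← Real.rpow_mul hX0.le, ← Real.rpow_mul hX0.le, Real.rpow_add hX0, pow_add,
            mul_comm M, mul_comm A]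
          ring
      _ ≤ _ := mul_le_mul_of_nonneg_left
          (Real.rpow_le_rpow_of_exponent_le hX (exp_cost hk hA hM _)) (pow_nonneg hC0 _)
  calc |(z.m : ℝ)| ^ x.1 * ∏ i, ‖φ (z.μ (t i) : L)‖ ^ eExp k (x.2 i) *
        ‖φ (D.ρ z (t i) : L)‖ ^ aExp k (x.2 i)
      ≤ (C₀ ^ x.1 * X₀ ^ (x.1 : ℝ)) * ∏ i, (C₀ ^ (eExp k (x.2 i) + aExp k (x.2 i)) *
          X₀ ^ (wt A (M / k) (x.2 i) + (M + k * A))) := by
        refine mul_le_mul hm (Finset.prod_le_prod (fun i _ => by positivity) fun i _ => hi i)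
          (Finset.prod_nonneg fun i _ => by positivity) (by positivity)
    _ = _ := by
        rw [Finset.prod_mul_distrib, Finset.prod_pow_eq_pow_sum, ← Real.rpow_sum_of_pos hX0,
          pow_add, Finset.sum_add_distrib (f := fun i => wt A (M / k) (x.2 i)),
          Real.rpow_add hX0, Real.rpow_add hX0, Real.rpow_add hX0]
        simp only [Finset.sum_const, Finset.card_univ, Fintype.card_fin, nsmul_eq_mul]
        ring

theorem det_eq_zero_of_cell (hk : 1 ≤ k) {a : ℕ} (f : Fin a → Pt d L)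
    (x : Fin a → ℕ × (Fin s → ℤ)) (B W : ℕ) (hxB : ∀ j i, -(B : ℤ) ≤ (x j).2 i)
    {C₀ X₀ A M g : ℝ} (hC : 1 ≤ C₀) (hX : 1 ≤ X₀) (hA : 0 ≤ A) (hM : 0 ≤ M) (Q : ℕ)
    (hQ : X₀ ^ g ≤ Q)
    (hpt : ∀ l, D.IsPt k R (f l)) (hb : ∀ l, D.Bdd C₀ X₀ A M (f l))
    (hcop : ∀ l, D.Coprime Q (f l)) (hcong : ∀ l l', Pt.Cong Q (f l) (f l'))
    (hsize : (a.factorial : ℝ) *
        C₀ ^ (∑ j, ((x j).1 + ∑ i, (eExp k ((x j).2 i) + aExp k ((x j).2 i)))) < X₀)
    (hexp : (∑ j, ((((x j).1 : ℕ) : ℝ) + ∑ i, wt A (M / k) ((x j).2 i) + s * (M + k * A))) + 1 ≤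
        g * ((W * a - (W + (s + 1)).choose (s + 2) : ℕ) : ℝ)) :
    Matrix.det (Matrix.of fun l j => phi D k t (f l) (x j)) = 0 := by
  classical
  rcases Nat.eq_zero_or_pos a with ha | ha
  · exfalso
    subst ha
    simp at hexp
    linarith
  set S := W * a - (W + (s + 1)).choose (s + 2) with hS
  set M0 : Matrix (Fin a) (Fin a) (𝓞 L) := Matrix.of fun l j => phi D k t (f l) (x j) with hM0
  let l0 : Fin a := ⟨0, ha⟩
  choose qm hqm using fun l => (hcong l l0).1
  choose qc hqc using fun l i => (hcong l l0).2 i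
  let y : Fin a → Option (Fin s) → 𝓞 L := fun l o => o.elim ((qm l : 𝓞 L))
    (fun i => ∑ r, (qc l r : 𝓞 L) * D.θ (t i) ^ (r : ℕ))
  have hy : ∀ l, coordT D t (f l) = fun o => coordT D t (f l0) o + (Q : 𝓞 L) * y l o := by
    intro l
    funext o
    cases o with
    | none =>
      have h := congrArg (fun z : ℤ => (z : 𝓞 L)) (hqm l)
      push_cast at h
      simp only [coordT, y, Option.elim_none]
      linear_combination h
    | some i =>
      simp only [coordT, RootData.ρ, y, Option.elim_some, Finset.mul_sum, ← Finset.sum_add_distrib]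
      refine Finset.sum_congr rfl fun r _ => ?_
      have h := congrArg (fun z : ℤ => (z : 𝓞 L)) (hqc l r)
      push_cast at h
      linear_combination h * D.θ (t i) ^ (r : ℕ)
  have h1 := det_dvd (fun j => colPoly D k R t B (x j)) (coordT D t (f l0)) y (Q : 𝓞 L) W
  simp only [Fintype.card_fin, Fintype.card_option] at h1
  have h2 : (Matrix.of fun l j => eval (fun o => coordT D t (f l0) o + (Q : 𝓞 L) * y l o)
      (colPoly D k R t B (x j))) =
      Matrix.of fun l j => (∏ i, D.ρ (f l) (t i) ^ B) * M0 l j := by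
    funext l j
    simp only [Matrix.of_apply, hM0]
    rw [← hy l, eval_colPoly D k R t hk B (x j) (hxB j) (f l) (hpt l), mul_comm]
  rw [h2, Matrix.det_mul_column] at h1
  have hcopS : IsCoprime ((Q : 𝓞 L) ^ S) (∏ l, ∏ i, D.ρ (f l) (t i) ^ B) := by
    refine IsCoprime.prod_right fun l _ => IsCoprime.prod_right fun i _ => ?_
    exact ((hcop l (t i)).pow_left).pow_right
  obtain ⟨e, he⟩ := hcopS.dvd_of_dvd_mul_left (by simpa [hS] using h1)
  suffices e = 0 by rw [he, this, mul_zero]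
  refine eq_zero_of_norm_lt_one e fun φ => ?_
  have hX0 : 0 < X₀ := by linarith
  set E := ∑ j, ((x j).1 + ∑ i, (eExp k ((x j).2 i) + aExp k ((x j).2 i))) with hE
  set cost := ∑ j, ((((x j).1 : ℕ) : ℝ) + ∑ i, wt A (M / k) ((x j).2 i) + s * (M + k * A))
    with hcost
  have hdet : ‖φ (M0.det : L)‖ ≤ (a.factorial : ℝ) * (C₀ ^ E * X₀ ^ cost) := by
    rw [Matrix.det_apply']
    simp only [map_sum, map_mul, map_prod, map_intCast]
    refine (norm_sum_le _ _).trans ?_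
    have hterm : ∀ σ : Equiv.Perm (Fin a),
        ‖((Equiv.Perm.sign σ : ℤ) : ℂ) * ∏ j, φ (M0 (σ j) j : L)‖ ≤ C₀ ^ E * X₀ ^ cost := by
      intro σ
      rw [norm_mul, Complex.norm_intCast, norm_prod]
      have hs : |(((Equiv.Perm.sign σ : ℤˣ) : ℤ) : ℝ)| = 1 := by
        rcases Int.units_eq_one_or (Equiv.Perm.sign σ) with h | h <;> simp [h]
      rw [hs, one_mul, hE, hcost, ← Finset.prod_pow_eq_pow_sum, Real.rpow_sum_of_pos hX0,
        ← Finset.prod_mul_distrib]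
      refine Finset.prod_le_prod (fun j _ => norm_nonneg _) fun j _ => ?_
      exact norm_phi_le D k t hk hC hX hA hM (f (σ j)) (hb _) φ (x j)
    refine (Finset.sum_le_sum fun σ _ => hterm σ).trans (le_of_eq ?_)
    simp [Fintype.card_perm]
  rw [he] at hdet
  simp only [map_mul, map_pow, map_natCast, norm_mul, norm_pow, Complex.norm_natCast] at hdet
  have hQS : X₀ ^ (g * (S : ℝ)) ≤ (Q : ℝ) ^ S := by
    rw [Real.rpow_mul hX0.le, Real.rpow_natCast]
    exact pow_le_pow_left₀ (Real.rpow_nonneg hX0.le _) hQ _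
  by_contra hcon
  push Not at hcon
  have h3 : X₀ ^ (g * (S : ℝ)) ≤ (a.factorial : ℝ) * (C₀ ^ E * X₀ ^ cost) :=
    hQS.trans (le_trans (le_mul_of_one_le_right (by positivity) hcon) hdet)
  have h4 : X₀ ^ (cost + 1) ≤ X₀ ^ (g * (S : ℝ)) := Real.rpow_le_rpow_of_exponent_le hX hexp
  rw [Real.rpow_add hX0, Real.rpow_one] at h4
  have h5 : (a.factorial : ℝ) * C₀ ^ E * X₀ ^ cost < X₀ * X₀ ^ cost :=
    mul_lt_mul_of_pos_right hsize (Real.rpow_pos_of_pos hX0 _)
  nlinarith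

end

/-- In a cell modulo `Q ≥ X ^ g` the coordinates `m` and `ρ_i`, `i ∈ T`, satisfy a relation of
bounded degree, if `g ^ (s+1) * (1/A + k/M) ^ s > 1` with `s = |T|`. -/
theorem exists_relation {d : ℕ} {L : Type} [Field L] [NumberField L] (D : RootData d L)
    {k : ℕ} (hk : 1 ≤ k) {R : ℤ} (hR : R ≠ 0) (s : ℕ) {A M g C₀ : ℝ} (hA : 0 < A) (hM : 0 < M)
    (hg : 0 < g) (hcond : 1 < g ^ (s + 1) * (1 / A + k / M) ^ s) (hC : 1 ≤ C₀) :
    ∃ δ : ℕ, ∃ X₁ : ℝ, ∀ X₀ : ℝ, X₁ ≤ X₀ → ∀ Q : ℕ, X₀ ^ g ≤ Q → ∀ Z : Finset (Pt d L),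
      (∀ z ∈ Z, D.IsPt k R z ∧ D.Bdd C₀ X₀ A M z ∧ D.Coprime Q z) →
      (∀ z ∈ Z, ∀ z' ∈ Z, Pt.Cong Q z z') → ∀ T : Finset (Fin d), T.card = s →
      ∃ P : MvPolynomial (Option (Fin d)) L, P ≠ 0 ∧ P.vars ⊆ insert none (T.image some) ∧
        P.totalDegree ≤ δ ∧ ∀ z ∈ Z, eval (D.coord z) P = 0 := by
  classical
  have hkR : (0 : ℝ) < k := by exact_mod_cast hk
  obtain ⟨T0, W, B, hTWB⟩ := exists_params (s := s) (c0 := s * (M + k * A)) hA (div_pos hM hkR) hg
    (by rwa [one_div_div])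
  set E := eset A (M / k) s T0 B with hE
  set N := E.card with hN
  have hmem : ∀ x ∈ E, x.1 ≤ T0 ∧ ∀ i, -(B : ℤ) ≤ x.2 i ∧ x.2 i ≤ B := by
    intro x hx
    simp only [hE, eset, Finset.mem_filter, Finset.mem_product, sbox, Fintype.mem_piFinset,
      Finset.mem_range, Finset.mem_Icc] at hx
    exact ⟨by omega, hx.1.2⟩
  let en : Fin N ≃ E := (E.equivFin).symm
  set Ex := ∑ j : Fin N, ((en j).1.1 + ∑ i, (eExp k ((en j).1.2 i) + aExp k ((en j).1.2 i)))
    with hEx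
  refine ⟨T0 + s * (3 * B), (N.factorial : ℝ) * C₀ ^ Ex + 1, ?_⟩
  intro X₀ hX₀ Q hQ Z hZ hcong T hT
  have hfac : (0 : ℝ) ≤ (N.factorial : ℝ) * C₀ ^ Ex := by positivity
  have hX1 : 1 ≤ X₀ := by linarith
  let t : Fin s → Fin d := T.orderEmbOfFin hT
  have hdet : ∀ f : E → {z // z ∈ Z}, Matrix.det (Matrix.of fun u v =>
      ((phi D k t (f u).1 v.1 : 𝓞 L) : L)) = 0 := by
    intro f
    have h0 := det_eq_zero_of_cell D k R t hk (fun l => (f (en l)).1) (fun j => (en j).1) B W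
      (fun j i => ((hmem _ (en j).2).2 i).1) hC hX1 hA.le hM.le Q hQ
      (fun l => (hZ _ (f (en l)).2).1) (fun l => (hZ _ (f (en l)).2).2.1)
      (fun l => (hZ _ (f (en l)).2).2.2) (fun l l' => hcong _ (f (en l)).2 _ (f (en l')).2)
      (by rw [← hEx]; linarith)
      (by
        refine le_trans (le_of_eq ?_) hTWB
        rw [Equiv.sum_comp en (fun x : E => (((x.1.1 : ℕ) : ℝ) + ∑ i, wt A (M / k) (x.1.2 i) +
          s * (M + k * A))), Finset.sum_add_distrib, Finset.sum_coe_sort E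
          (fun x => ((x.1 : ℝ) + ∑ i, wt A (M / k) (x.2 i)))]
        simp [mul_comm, hN])
    rw [← Matrix.det_submatrix_equiv_self en]
    have h1 := congrArg (fun u : 𝓞 L => (u : L)) h0
    simp only [map_zero] at h1
    rw [RingOfIntegers.coe_eq_algebraMap, RingHom.map_det] at h1
    exact h1
  obtain ⟨c, hc, hker⟩ := exists_kernel
    (fun (z : {z // z ∈ Z}) (v : E) => ((phi D k t z.1 v.1 : 𝓞 L) : L)) hdet
  let emb : Option (Fin s) → Option (Fin d) := Option.map t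
  have hemb : Function.Injective emb := Option.map_injective (T.orderEmbOfFin hT).injective
  let P0 : MvPolynomial (Option (Fin s)) L :=
    ∑ v : E, C (c v) * MvPolynomial.map (algebraMap (𝓞 L) L) (colPoly D k R t B v.1)
  refine ⟨rename emb P0, ?_, ?_, ?_, ?_⟩
  · intro h0
    exact colPoly_combination_ne_zero D k R t hR B T0 A (M / k) c hc
      (rename_injective _ hemb (by rw [h0, map_zero]))
  · intro o ho
    obtain ⟨o', _, rfl⟩ := Finset.mem_image.1 (vars_rename _ _ ho)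
    cases o' with
    | none => simp [emb]
    | some i => simp [emb, t, Finset.orderEmbOfFin_mem]
  · refine (totalDegree_rename_le _ _).trans ((totalDegree_finsetSum _ _).trans
      (Finset.sup_le fun v _ => (totalDegree_mul _ _).trans ?_))
    rw [totalDegree_C, Nat.zero_add]
    exact totalDegree_colPoly D k R t B T0 hk v.1 (hmem _ v.2).1 (hmem _ v.2).2
  · intro z hz
    have hcoord : D.coord z ∘ emb = (algebraMap (𝓞 L) L) ∘ coordT D t z := by
      funext o
      cases o with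
      | none => simp [emb, coordT, RootData.coord]
      | some i => rfl
    rw [eval_rename, hcoord]
    simp only [P0, map_sum, map_mul, eval_C, eval_map, ← eval₂_comp]
    have he : ∀ v : E, eval (coordT D t z) (colPoly D k R t B v.1) =
        phi D k t z v.1 * ∏ i, D.ρ z (t i) ^ B :=
      fun v => eval_colPoly D k R t hk B v.1 (fun i => ((hmem _ v.2).2 i).1) z (hZ z hz).1
    simp only [he, map_mul, ← mul_assoc]
    rw [← Finset.sum_mul]
    exact mul_eq_zero_of_left (hker ⟨z, hz⟩) _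

end Vale.Agent.P018
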